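import Vale.Agent.P092.H776.NW1
import Vale.Agent.P092.H357.Sep2

/-!
P092 (helper776), Teams C and D, [D-NW], field `nrv` of `H859.CL.Sys`: from the mass of the
constant fields to all fields which are bounded for the second leg.
-/

set_option linter.all false

open scoped InnerProductSpace ENNReal
open Matrix Filter Topology MeasureTheory ContinuousLinearMap

namespace Vale.Agent.P092.H776.NW

open Vale.Agent.P092.H538 (ind ind_pos ind_neg ind_nonneg abs_ind_le)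
open Vale.Agent.P092.H553 hiding ind ind_pos ind_neg ind_nonneg abs_ind_le
open Vale.Agent.P092.H160 Vale.Agent.P092.H432 Vale.Agent.P092.H132
open Vale.Agent.P092.H357 (B2 Gen BdL2)
open Vale.Agent.P092.H790 (CData Fld fld_comp Ri ri_ae ae_comp act_inv baseL)

/-! ### Hilbert-Schmidt sums on the fibre -/

section hs

theorem ensq {E : Type*} [NormedAddCommGroup E] (v : E) :
    ‖v‖ₑ ^ 2 = ENNReal.ofReal (‖v‖ ^ 2) := by
  rw [← ofReal_norm_eq_enorm, ENNReal.ofReal_pow (norm_nonneg _)]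

theorem enorm_sq {X : Type} (u : Ell2 X) : ‖u‖ₑ ^ 2 = ∑' x, ‖u x‖ₑ ^ 2 := by
  have h5 : HasSum (fun x => ‖u x‖ ^ 2) (‖u‖ ^ 2) := by
    rw [norm_sq]
    exact (summable_sq u).hasSum
  simp_rw [ensq]
  rw [← ENNReal.ofReal_tsum_of_nonneg (fun x => by positivity) h5.summable, h5.tsum_eq]

variable {Γ Q ι : Type} [Group Γ] [Group Q]

/-- Projection onto the coordinates in `S` of the first leg. -/
noncomputable def pf (ι : Type) (S : Set Γ) : Ell2 ((Γ × Q) × ι) →L[ℂ] Ell2 ((Γ × Q) × ι) :=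
  mp ι fun x : Γ × Q => ind (fun g => g ∈ S) x.1

theorem pf_bd (S : Set Γ) (x : Γ × Q) : |ind (fun g => g ∈ S) x.1| ≤ 1 := abs_ind_le _ _

theorem pf_apply (S : Set Γ) (u : Ell2 ((Γ × Q) × ι)) (x : (Γ × Q) × ι) :
    pf ι S u x = ((ind (fun g => g ∈ S) x.1.1 : ℝ) : ℂ) * u x := by
  rw [pf, mp, mo_apply (F := fun x : (Γ × Q) × ι => ind (fun g => g ∈ S) x.1.1)
    (fun x => abs_ind_le _ _)]

theorem adjoint_pf (S : Set Γ) : adjoint (pf (Q := Q) ι S) = pf ι S := by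
  rw [pf, mp, adjoint_mo (F := fun x : (Γ × Q) × ι => ind (fun g => g ∈ S) x.1.1)
    (fun x => abs_ind_le _ _)]

theorem pf_lx (S : Set Γ) (q : Q) (u : Ell2 ((Γ × Q) × ι)) :
    pf ι S (lx ((1 : Γ), q) u) = lx ((1 : Γ), q) (pf ι S u) := by
  apply ext_inner_dl
  rintro ⟨⟨a, b⟩, i⟩
  rw [pf_apply, lx_apply, lx_apply, pf_apply]
  have e : (((1 : Γ), q)⁻¹ * (a, b)).1 = a := by simp
  simp only [e]

theorem enorm_pf (S : Set Γ) [DecidablePred (fun g => g ∈ S)] (u : Ell2 ((Γ × Q) × ι))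
    (x : (Γ × Q) × ι) : ‖pf ι S u x‖ₑ ^ 2 = if x.1.1 ∈ S then ‖u x‖ₑ ^ 2 else 0 := by
  rw [pf_apply]
  by_cases h : x.1.1 ∈ S
  · rw [ind_pos (P := fun g => g ∈ S) h, if_pos h]
    simp
  · rw [ind_neg (P := fun g => g ∈ S) h, if_neg h]
    simp

/-- **Trace inequality**: `v` bounded for the second leg is dominated by the basis vectors. -/
theorem fib [Fintype ι] {X : Ell2 ((Γ × Q) × ι) →L[ℂ] Ell2 ((Γ × Q) × ι)}
    (hX : ∀ (q : Q) ξ, X (lx ((1 : Γ), q) ξ) = lx ((1 : Γ), q) (X ξ))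
    {v : Ell2 ((Γ × Q) × ι)} (hv : B2 v) (F : Finset Γ) :
    ‖X (pf ι (F : Set Γ) v)‖ₑ ^ 2 ≤
      ∑ γ ∈ F, ∑ i, ‖X (dl ((γ, (1 : Q)), i))‖ₑ ^ 2 := by
  classical
  obtain ⟨C, hC, hCq⟩ := hv
  obtain ⟨Y, hY⟩ : ∃ Y : Ell2 Q →L[ℂ] Ell2 ((Γ × Q) × ι), Y = X ∘L pf ι (F : Set Γ) ∘L C :=
    ⟨_, rfl⟩
  have hYa : ∀ u, Y u = X (pf ι (F : Set Γ) (C u)) := fun u => by rw [hY]; rfl
  have hYq : ∀ q, Y (dl q) = lx ((1 : Γ), q) (Y (dl 1)) := fun q => by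
    have h1 : lx ((1 : Γ), (1 : Q)) v = v := by
      apply ext_inner_dl
      rintro ⟨⟨a, b⟩, i⟩
      rw [lx_apply]
      simp
    rw [hYa, hYa, hCq, hCq, h1, pf_lx, hX]
  have hv1 : X (pf ι (F : Set Γ) v) = Y (dl 1) := by
    have h1 : lx ((1 : Γ), (1 : Q)) v = v := by
      apply ext_inner_dl
      rintro ⟨⟨a, b⟩, i⟩
      rw [lx_apply]
      simp
    rw [hYa, hCq, h1]
  -- the first exchange
  have h1 : ∀ (a : Γ) (i : ι), ∑' q : Q, ‖Y (dl 1) ((a, q), i)‖ₑ ^ 2 =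
      ‖adjoint Y (dl ((a, (1 : Q)), i))‖ₑ ^ 2 := by
    intro a i
    rw [enorm_sq, ← (Equiv.inv Q).tsum_eq (fun q => ‖Y (dl 1) ((a, q), i)‖ₑ ^ 2)]
    refine tsum_congr fun q => ?_
    have e1 : Y (dl 1) ((a, q⁻¹), i) = (Y (dl q)) ((a, 1), i) := by
      rw [hYq q, lx_apply]
      simp
    have e2 : (Y (dl q)) ((a, 1), i) = (starRingEnd ℂ) ((adjoint Y (dl ((a, (1 : Q)), i))) q) := by
      rw [← inner_dl_right, adjoint_inner_left, inner_dl]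
    change ‖Y (dl 1) ((a, q⁻¹), i)‖ₑ ^ 2 = _
    rw [e1, e2]
    congr 1
    rw [← ofReal_norm_eq_enorm, ← ofReal_norm_eq_enorm, RCLike.norm_conj]
  -- the adjoint of `C`
  have h2 : ∀ u : Ell2 ((Γ × Q) × ι), ‖adjoint Y u‖ₑ ≤ ‖pf ι (F : Set Γ) (adjoint X u)‖ₑ := by
    intro u
    have e : adjoint Y u = adjoint C (pf ι (F : Set Γ) (adjoint X u)) := by
      rw [hY, adjoint_comp, adjoint_comp, adjoint_pf]
      rfl
    rw [e, ← ofReal_norm_eq_enorm, ← ofReal_norm_eq_enorm]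
    refine ENNReal.ofReal_le_ofReal (((adjoint C).le_opNorm _).trans ?_)
    rw [LinearIsometryEquiv.norm_map]
    exact mul_le_of_le_one_left (norm_nonneg _) hC
  -- the second exchange
  have h3 : ∀ (a : Γ) (i : ι) (b : Γ) (q : Q) (j : ι),
      ‖(adjoint X (dl ((a, (1 : Q)), i))) ((b, q), j)‖ₑ ^ 2 =
      ‖(X (dl ((b, (1 : Q)), j))) ((a, q⁻¹), i)‖ₑ ^ 2 := by
    intro a i b q j
    have e1 : (adjoint X (dl ((a, (1 : Q)), i))) ((b, q), j) =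
        (starRingEnd ℂ) ((X (dl ((b, q), j))) ((a, 1), i)) := by
      rw [← inner_dl, adjoint_inner_right, inner_dl_right]
    have e2 : (dl ((b, q), j) : Ell2 ((Γ × Q) × ι)) = lx ((1 : Γ), q) (dl ((b, (1 : Q)), j)) := by
      rw [lx_dl]
      simp
    have e3 : (X (dl ((b, q), j))) ((a, 1), i) = (X (dl ((b, (1 : Q)), j))) ((a, q⁻¹), i) := by
      rw [e2, hX, lx_apply]
      simp
    rw [e1, e3]
    congr 1
    rw [← ofReal_norm_eq_enorm, ← ofReal_norm_eq_enorm, RCLike.norm_conj]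
  have sp : ∀ f : (Γ × Q) × ι → ℝ≥0∞, ∑' x, f x = ∑' a : Γ, ∑' q : Q, ∑ i, f ((a, q), i) := by
    intro f
    rw [ENNReal.tsum_prod', ENNReal.tsum_prod']
    simp_rw [tsum_fintype]
  have ex : ∀ (f : Q → ι → ℝ≥0∞), ∑' q : Q, ∑ i, f q i = ∑ i, ∑' q : Q, f q i := by
    intro f
    simp_rw [← tsum_fintype (L := .unconditional ι)]
    exact ENNReal.tsum_comm
  calc ‖X (pf ι (F : Set Γ) v)‖ₑ ^ 2
      = ∑' a : Γ, ∑ i, ‖adjoint Y (dl ((a, (1 : Q)), i))‖ₑ ^ 2 := by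
        rw [hv1, enorm_sq, sp]
        refine tsum_congr fun a => ?_
        rw [ex]
        exact Finset.sum_congr rfl fun i _ => h1 a i
    _ ≤ ∑' a : Γ, ∑ i, ‖pf ι (F : Set Γ) (adjoint X (dl ((a, (1 : Q)), i)))‖ₑ ^ 2 := by
        gcongr with a i _
        exact h2 _
    _ = ∑' a : Γ, ∑ i, ∑' b : Γ, ∑ j, ∑' q : Q, (if b ∈ (F : Set Γ) then
          ‖(X (dl ((b, (1 : Q)), j))) ((a, q), i)‖ₑ ^ 2 else 0) := by
        refine tsum_congr fun a => Finset.sum_congr rfl fun i _ => ?_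
        rw [enorm_sq, sp]
        refine tsum_congr fun b => ?_
        rw [ex]
        refine Finset.sum_congr rfl fun j _ => ?_
        rw [← (Equiv.inv Q).tsum_eq (fun q => if b ∈ (F : Set Γ) then
          ‖(X (dl ((b, (1 : Q)), j))) ((a, q), i)‖ₑ ^ 2 else 0)]
        refine tsum_congr fun q => ?_
        rw [enorm_pf]
        change (if b ∈ (F : Set Γ) then _ else _) = _
        rw [h3 a i b q j]
        rfl
    _ = ∑' b : Γ, ∑ j, ∑' a : Γ, ∑ i, ∑' q : Q, (if b ∈ (F : Set Γ) then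
          ‖(X (dl ((b, (1 : Q)), j))) ((a, q), i)‖ₑ ^ 2 else 0) := by
        simp_rw [← tsum_fintype (L := .unconditional ι)]
        have c1 : ∀ f : Γ → ι → Γ → ι → ℝ≥0∞, ∑' a, ∑' i, ∑' b, ∑' j, f a i b j =
            ∑' b, ∑' j, ∑' a, ∑' i, f a i b j := by
          intro f
          rw [← ENNReal.tsum_prod (f := fun a i => ∑' b, ∑' j, f a i b j),
            ← ENNReal.tsum_prod (f := fun b j => ∑' a, ∑' i, f a i b j)]
          simp_rw [← ENNReal.tsum_prod (f := fun b j => f _ _ b j)]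
          rw [ENNReal.tsum_comm]
          refine tsum_congr fun p => ?_
          rw [ENNReal.tsum_prod']
        exact c1 fun a i b j => ∑' q : Q, (if b ∈ (F : Set Γ) then
          ‖(X (dl ((b, (1 : Q)), j))) ((a, q), i)‖ₑ ^ 2 else 0)
    _ = ∑' b : Γ, (if b ∈ F then ∑ j, ‖X (dl ((b, (1 : Q)), j))‖ₑ ^ 2 else 0) := by
        refine tsum_congr fun b => ?_
        by_cases hb : b ∈ F
        · rw [if_pos hb]
          refine Finset.sum_congr rfl fun j _ => ?_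
          rw [enorm_sq, sp]
          refine tsum_congr fun a => ?_
          rw [ex]
          refine Finset.sum_congr rfl fun i _ => ?_
          refine tsum_congr fun q => ?_
          rw [if_pos (Finset.mem_coe.2 hb)]
        · rw [if_neg hb]
          simp only [Finset.mem_coe, if_neg hb, tsum_zero, Finset.sum_const_zero]
    _ = ∑ γ ∈ F, ∑ i, ‖X (dl ((γ, (1 : Q)), i))‖ₑ ^ 2 := by
        rw [tsum_eq_sum (s := F) fun b hb => if_neg hb]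
        exact Finset.sum_congr rfl fun b hb => if_pos hb

end hs

/-! ### The field `nrv` -/

section lp

variable {X : Type} [MeasurableSpace X] {μ : Measure X} {K : Type} [NormedAddCommGroup K]
  [InnerProductSpace ℂ K]

theorem enorm_lp (ξ : Lp K 2 μ) : ‖ξ‖ₑ ^ 2 = ∫⁻ x, ‖ξ x‖ₑ ^ 2 ∂μ := by
  have h := eLpNorm_eq_lintegral_rpow_enorm_toReal (μ := μ) (f := (ξ : X → K)) (p := 2)
    two_ne_zero ENNReal.ofNat_ne_top
  rw [Lp.enorm_def, h]
  simp only [ENNReal.toReal_ofNat, one_div]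
  rw [← ENNReal.rpow_natCast, ← ENNReal.rpow_mul]
  norm_num

end lp

section nrv

variable {D Λ Γ Q ι : Type} [Group D] [Group Λ] [Countable Λ] [Group Γ] [Countable Γ] [Group Q]
  [Countable Q] [Fintype ι] {t : ℝ} (d : CData D Λ)
  {R : Λ → (Ell2 ((Γ × Q) × ι) →L[ℂ] Ell2 ((Γ × Q) × ι))}

/-- the projection onto the coordinates in `S` of the first leg, on the fields -/
noncomputable def PF (ι : Type) [Fintype ι] (S : Set Γ) :
    Lp (Ell2 ((Γ × Q) × ι)) 2 d.μ →L[ℂ] Lp (Ell2 ((Γ × Q) × ι)) 2 d.μ :=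
  (H538.fst (baseL d.μ (Γ × Q) ι)).mp (ind fun g => g ∈ S)

theorem fld_PF (S : Set Γ) : Fld (PF d (Q := Q) ι S) fun _ => pf ι S := fld_comp _

/-- **Tails**: every field is concentrated on finitely many coordinates of the first leg. -/
theorem tail (ξ : Lp (Ell2 ((Γ × Q) × ι)) 2 d.μ) {ε : ℝ} (hε : 0 < ε) :
    ∃ F : Finset Γ, ‖ξ - PF d (Q := Q) ι (F : Set Γ) ξ‖ ≤ ε := by
  classical
  obtain ⟨f, hf⟩ : ∃ f : Γ → ℝ≥0∞, f = fun γ => ∫⁻ x, ∑' q : Q, ∑ i, ‖ξ x ((γ, q), i)‖ₑ ^ 2 ∂d.μ :=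
    ⟨_, rfl⟩
  have hm : ∀ z : (Γ × Q) × ι, AEMeasurable (fun x => ‖ξ x z‖ₑ ^ 2) d.μ := by
    intro z
    have h1 : AEStronglyMeasurable (fun x => ⟪(dl z : Ell2 ((Γ × Q) × ι)), ξ x⟫_ℂ) d.μ :=
      (Lp.aestronglyMeasurable ξ).const_inner
    simp only [inner_dl] at h1
    exact (h1.enorm).pow_const 2
  have sp : ∀ f : (Γ × Q) × ι → ℝ≥0∞, ∑' x, f x = ∑' a : Γ, ∑' q : Q, ∑ i, f ((a, q), i) := by
    intro f
    rw [ENNReal.tsum_prod', ENNReal.tsum_prod']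
    simp_rw [tsum_fintype]
  have hsum : ∑' γ, f γ = ‖ξ‖ₑ ^ 2 := by
    rw [enorm_lp, hf, ← lintegral_tsum fun γ => AEMeasurable.ennreal_tsum fun q =>
      Finset.aemeasurable_fun_sum _ fun i _ => hm _]
    refine lintegral_congr fun x => ?_
    rw [enorm_sq, sp]
  have hfin : ∑' γ, f γ ≠ ∞ := by
    rw [hsum]
    exact ENNReal.pow_ne_top enorm_ne_top
  have key : ∀ F : Finset Γ, ‖ξ - PF d (Q := Q) ι (F : Set Γ) ξ‖ₑ ^ 2 =
      ∑' γ : {γ // γ ∉ F}, f γ := by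
    intro F
    rw [enorm_lp]
    have h1 : ∀ᵐ x ∂d.μ, ‖(ξ - PF d (Q := Q) ι (F : Set Γ) ξ : Lp (Ell2 ((Γ × Q) × ι)) 2 d.μ) x‖ₑ ^ 2 =
        ∑' γ : {γ // γ ∉ F}, ∑' q : Q, ∑ i, ‖ξ x ((γ.1, q), i)‖ₑ ^ 2 := by
      filter_upwards [Lp.coeFn_sub ξ (PF d (Q := Q) ι (F : Set Γ) ξ),
        fld_PF d (F : Set Γ) ξ] with x hx1 hx2
      rw [hx1, Pi.sub_apply, hx2, enorm_sq, sp]
      have e : ∀ γ : Γ, (∑' q : Q, ∑ i, ‖(ξ x - pf ι (F : Set Γ) (ξ x)) ((γ, q), i)‖ₑ ^ 2) =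
          {γ | γ ∉ F}.indicator (fun γ => ∑' q : Q, ∑ i, ‖ξ x ((γ, q), i)‖ₑ ^ 2) γ := by
        intro γ
        by_cases h : γ ∈ F
        · rw [Set.indicator_of_notMem (by simpa using h)]
          simp only [ENNReal.tsum_eq_zero]
          intro q
          refine Finset.sum_eq_zero fun i _ => ?_
          rw [lp.coeFn_sub, Pi.sub_apply, pf_apply,
            ind_pos (P := fun g => g ∈ (F : Set Γ)) (Finset.mem_coe.2 h)]
          simp
        · rw [Set.indicator_of_mem (show γ ∈ {γ | γ ∉ F} from h)]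
          refine tsum_congr fun q => Finset.sum_congr rfl fun i _ => ?_
          rw [lp.coeFn_sub, Pi.sub_apply, pf_apply,
            ind_neg (P := fun g => g ∈ (F : Set Γ)) (by simpa using h)]
          simp
      simp_rw [e]
      rw [← tsum_subtype {γ | γ ∉ F} (fun γ => ∑' q : Q, ∑ i, ‖ξ x ((γ, q), i)‖ₑ ^ 2)]
      rfl
    rw [lintegral_congr_ae h1, lintegral_tsum fun γ => AEMeasurable.ennreal_tsum fun q =>
      Finset.aemeasurable_fun_sum _ fun i _ => hm _, hf]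
  have hlim := ENNReal.tendsto_tsum_compl_atTop_zero hfin
  have h2 : (0 : ℝ≥0∞) < ENNReal.ofReal (ε ^ 2) := by
    rw [ENNReal.ofReal_pos]; positivity
  obtain ⟨F, hF⟩ := (hlim.eventually (gt_mem_nhds h2)).exists
  refine ⟨F, ?_⟩
  have h3 : ‖ξ - PF d (Q := Q) ι (F : Set Γ) ξ‖ₑ ^ 2 ≤ ENNReal.ofReal (ε ^ 2) := by
    rw [key F]; exact hF.le
  rw [ensq] at h3
  have h4 := (ENNReal.ofReal_le_ofReal_iff (by positivity)).1 h3
  exact (pow_le_pow_iff_left₀ (norm_nonneg _) hε.le two_ne_zero).1 h4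

theorem pf_norm_le (S : Set Γ) (u : Ell2 ((Γ × Q) × ι)) : ‖pf ι S u‖ ≤ ‖u‖ := by
  have h := norm_mo_le (F := fun x : (Γ × Q) × ι => ind (fun g => g ∈ S) x.1.1) (C := 1)
    (fun x => abs_ind_le _ _) u
  rw [one_mul] at h
  exact h

theorem PF_norm_le (S : Set Γ) (ξ : Lp (Ell2 ((Γ × Q) × ι)) 2 d.μ) :
    ‖PF d (Q := Q) ι S ξ‖ ≤ ‖ξ‖ := by
  have h : ‖PF d (Q := Q) ι S ξ‖ₑ ^ 2 ≤ ‖ξ‖ₑ ^ 2 := by
    rw [enorm_lp, enorm_lp]
    refine lintegral_mono_ae ?_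
    filter_upwards [fld_PF d S ξ] with x hx
    rw [hx, ensq, ensq]
    exact ENNReal.ofReal_le_ofReal (pow_le_pow_left₀ (norm_nonneg _) (pf_norm_le S _) 2)
  rw [ensq, ensq] at h
  have h4 := (ENNReal.ofReal_le_ofReal_iff (by positivity)).1 h
  exact (pow_le_pow_iff_left₀ (norm_nonneg _) (norm_nonneg _) two_ne_zero).1 h4

theorem pf_lx1 (S : Set Γ) (γ : Γ) (u : Ell2 ((Γ × Q) × ι)) :
    pf ι S (lx (γ, (1 : Q)) u) = lx (γ, (1 : Q)) (pf ι {g | γ * g ∈ S} u) := by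
  apply ext_inner_dl
  rintro ⟨⟨a, b⟩, i⟩
  rw [pf_apply, lx_apply, lx_apply, pf_apply]
  have e : ind (fun g => g ∈ S) a =
      ind (fun g => g ∈ {g | γ * g ∈ S}) ((γ, (1 : Q))⁻¹ * (a, b)).1 := by
    by_cases h : a ∈ S
    · rw [ind_pos (P := fun g => g ∈ S) h, ind_pos (P := fun g => g ∈ {g | γ * g ∈ S})]
      simpa using h
    · rw [ind_neg (P := fun g => g ∈ S) h, ind_neg (P := fun g => g ∈ {g | γ * g ∈ S})]
      simpa using h
  simp only [e]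

/-- The mass of the first leg as a sum of norms. -/
theorem mass_PF (S : Set Γ) (w : D) :
    massX (H538.fst (baseL d.μ (Γ × Q) ι)) (Ri d R) w (ind fun g => g ∈ S) =
      ∑ i, ‖PF d (Q := Q) ι S (Ri d R w ((baseL d.μ (Γ × Q) ι).ep i))‖ ^ 2 := by
  have h := massX_sq (H538.fst (baseL d.μ (Γ × Q) ι)) (Ri d R) w (F := ind fun g => g ∈ S)
    (C := 1) (fun g => abs_ind_le _ _)
  have e : (fun g => ind (fun g => g ∈ S) g * ind (fun g => g ∈ S) g) = ind (fun g => g ∈ S) := by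
    funext g
    by_cases h : g ∈ S
    · rw [ind_pos (P := fun g => g ∈ S) h, one_mul]
    · rw [ind_neg (P := fun g => g ∈ S) h, mul_zero]
  rw [e] at h
  exact h

/-- **`nrv`**: if the constant fields have small mass on `S r` for large `r`, uniformly along `A`,
so have all fields which are bounded for the second leg. -/
theorem nrv_abs (hR : ARep t R) {S : ℝ → Set Γ} (hmo : Antitone S)
    (hS : ∀ (γ : Γ) (r : ℝ), ∃ r', ∀ g ∈ S r', γ⁻¹ * g ∈ S r) {A : Set D}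
    (hnrm : ∀ ε : ℝ, 0 < ε → ∃ r, ∀ u ∈ A,
      massX (H538.fst (baseL d.μ (Γ × Q) ι)) (Ri d R) u (ind fun g => g ∈ S r) ≤ ε)
    {ξ : Lp (Ell2 ((Γ × Q) × ι)) 2 d.μ} (hξ : ξ ∈ BdL2 d.μ Γ Q ι) {ε : ℝ} (hε : 0 < ε) :
    ∃ r, ∀ w ∈ A,
      ‖(H538.fst (baseL d.μ (Γ × Q) ι)).mp (ind fun g => g ∈ S r) (Ri d R w ξ)‖ ≤ ε := by
  classical
  have hb : ∀ v, ‖R v‖ ≤ 1 := fun v => hR.opNorm_le v
  obtain ⟨F, hF⟩ := tail d ξ (half_pos hε)
  obtain ⟨r₀, hr₀⟩ := hnrm ((ε / 2) ^ 2 / ((F.card : ℝ) + 1)) (by positivity)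
  choose ρ hρ using fun γ : Γ => hS γ r₀
  obtain ⟨r, hr⟩ : ∃ r : ℝ, ∀ γ ∈ F, ρ γ ≤ r := by
    obtain ⟨r, hr⟩ := (F.image ρ).bddAbove
    exact ⟨r, fun γ hγ => hr (by simpa using ⟨γ, hγ, rfl⟩)⟩
  refine ⟨r, fun w hw => ?_⟩
  change ‖PF d (Q := Q) ι (S r) (Ri d R w ξ)‖ ≤ ε
  -- the main part
  have h2 : ‖PF d (Q := Q) ι (S r) (Ri d R w (PF d (Q := Q) ι (F : Set Γ) ξ))‖ ^ 2 ≤
      (ε / 2) ^ 2 := by
    have h3 : ‖PF d (Q := Q) ι (S r) (Ri d R w (PF d (Q := Q) ι (F : Set Γ) ξ))‖ₑ ^ 2 ≤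
        ∑ γ ∈ F, ∑ i, ‖PF d (Q := Q) ι {g | γ * g ∈ S r}
          (Ri d R w ((baseL d.μ (Γ × Q) ι).ep i))‖ₑ ^ 2 := by
      simp_rw [enorm_lp]
      have hm : ∀ (γ : Γ) (i : ι), AEMeasurable (fun x => ‖(PF d (Q := Q) ι {g | γ * g ∈ S r}
          (Ri d R w ((baseL d.μ (Γ × Q) ι).ep i))) x‖ₑ ^ 2) d.μ := fun γ i =>
        (Lp.aestronglyMeasurable _).enorm.pow_const 2
      have e1 : ∑ γ ∈ F, ∑ i, ∫⁻ x, ‖(PF d (Q := Q) ι {g | γ * g ∈ S r}
          (Ri d R w ((baseL d.μ (Γ × Q) ι).ep i))) x‖ₑ ^ 2 ∂d.μ =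
          ∫⁻ x, ∑ γ ∈ F, ∑ i, ‖(PF d (Q := Q) ι {g | γ * g ∈ S r}
          (Ri d R w ((baseL d.μ (Γ × Q) ι).ep i))) x‖ₑ ^ 2 ∂d.μ := by
        rw [lintegral_finset_sum' _ fun γ _ => Finset.aemeasurable_fun_sum _ fun i _ => hm γ i]
        refine Finset.sum_congr rfl fun γ _ => ?_
        rw [lintegral_finset_sum' _ fun i _ => hm γ i]
      rw [e1]
      refine lintegral_mono_ae ?_
      have a1 := fld_PF d (Q := Q) (ι := ι) (S r) (Ri d R w (PF d (Q := Q) ι (F : Set Γ) ξ))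
      have a2 := ri_ae d hb w (PF d (Q := Q) ι (F : Set Γ) ξ)
      have a3 := ae_comp (d.mp w⁻¹) (fld_PF d (Q := Q) (ι := ι) (F : Set Γ) ξ)
      have a4 := ae_comp (d.mp w⁻¹) hξ
      have a5 : ∀ᵐ x ∂d.μ, ∀ γ i, (PF d (Q := Q) ι {g | γ * g ∈ S r}
          (Ri d R w ((baseL d.μ (Γ × Q) ι).ep i))) x =
          pf ι {g | γ * g ∈ S r} (R (d.c w (d.act w⁻¹ x)) (ep i)) := by
        rw [ae_all_iff]
        intro γ
        rw [ae_all_iff]
        intro i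
        filter_upwards [fld_PF d (Q := Q) (ι := ι) {g | γ * g ∈ S r}
            (Ri d R w ((baseL d.μ (Γ × Q) ι).ep i)),
          ri_ae d hb w ((baseL d.μ (Γ × Q) ι).ep i),
          ae_comp (d.mp w⁻¹) (H790.ept_ae (μ := d.μ) (Γ := Γ × Q) i)] with x h1 h2 h3
        rw [h1, h2]
        have h4 : ((baseL d.μ (Γ × Q) ι).ep i : Lp (Ell2 ((Γ × Q) × ι)) 2 d.μ)
          (d.act w⁻¹ x) = ep i := h3
        rw [h4]
      filter_upwards [a1, a2, a3, a4, a5] with x h1 h2 h3 h4 h5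
      rw [h1, h2, h3]
      simp_rw [h5]
      obtain ⟨v, hv⟩ : ∃ v, v = d.c w (d.act w⁻¹ x) := ⟨_, rfl⟩
      rw [← hv]
      have hX : ∀ (q : Q) ζ, (pf ι (S r) ∘L R v) (lx ((1 : Γ), q) ζ) =
          lx ((1 : Γ), q) ((pf ι (S r) ∘L R v) ζ) := fun q ζ => by
        change pf ι (S r) (R v (lx ((1 : Γ), q) ζ)) = lx ((1 : Γ), q) (pf ι (S r) (R v ζ))
        rw [(hR.ra v).app, pf_lx]
      refine (fib hX h4 F).trans (Finset.sum_le_sum fun γ _ => Finset.sum_le_sum fun i _ => ?_)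
      have e2 : (pf ι (S r) ∘L R v) (dl ((γ, (1 : Q)), i)) =
          lx (γ, (1 : Q)) (pf ι {g | γ * g ∈ S r} (R v (ep i))) := by
        change pf ι (S r) (R v (dl ((γ, (1 : Q)), i))) = _
        rw [← lx_ep, (hR.ra v).app, pf_lx1]
      rw [e2, ensq, ensq, norm_lx]
    have h4 : ∀ γ ∈ F, ∑ i, ‖PF d (Q := Q) ι {g | γ * g ∈ S r}
          (Ri d R w ((baseL d.μ (Γ × Q) ι).ep i))‖ ^ 2 ≤ (ε / 2) ^ 2 / ((F.card : ℝ) + 1) := by
      intro γ hγ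
      rw [← mass_PF]
      refine (massX_mono _ _ w _ _ 1 (fun g => abs_ind_le _ g) (fun g => abs_ind_le _ g)
        fun g => ?_).trans (hr₀ w hw)
      by_cases hg : g ∈ {g | γ * g ∈ S r}
      · rw [ind_pos (P := fun g => g ∈ {g | γ * g ∈ S r}) hg, ind_pos (P := fun g => g ∈ S r₀)]
        have := hρ γ (γ * g) (hmo (hr γ hγ) hg)
        simpa using this
      · rw [ind_neg (P := fun g => g ∈ {g | γ * g ∈ S r}) hg]
        exact ind_nonneg _ _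
    have h5 : ∑ γ ∈ F, ∑ i, ‖PF d (Q := Q) ι {g | γ * g ∈ S r}
          (Ri d R w ((baseL d.μ (Γ × Q) ι).ep i))‖ ^ 2 ≤ (ε / 2) ^ 2 := by
      refine (Finset.sum_le_sum h4).trans ?_
      rw [Finset.sum_const, nsmul_eq_mul]
      have : (0 : ℝ) < (F.card : ℝ) + 1 := by positivity
      rw [mul_div_assoc', div_le_iff₀ this]
      nlinarith [sq_nonneg (ε / 2)]
    have h6 : ∑ γ ∈ F, ∑ i, ‖PF d (Q := Q) ι {g | γ * g ∈ S r}
          (Ri d R w ((baseL d.μ (Γ × Q) ι).ep i))‖ₑ ^ 2 =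
        ENNReal.ofReal (∑ γ ∈ F, ∑ i, ‖PF d (Q := Q) ι {g | γ * g ∈ S r}
          (Ri d R w ((baseL d.μ (Γ × Q) ι).ep i))‖ ^ 2) := by
      rw [ENNReal.ofReal_sum_of_nonneg fun γ _ => Finset.sum_nonneg fun i _ => sq_nonneg _]
      refine Finset.sum_congr rfl fun γ _ => ?_
      rw [ENNReal.ofReal_sum_of_nonneg fun i _ => sq_nonneg _]
      exact Finset.sum_congr rfl fun i _ => ensq _
    rw [h6, ensq] at h3
    exact ((ENNReal.ofReal_le_ofReal_iff (by positivity)).1 h3).trans h5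
  have h7 : ‖PF d (Q := Q) ι (S r) (Ri d R w (PF d (Q := Q) ι (F : Set Γ) ξ))‖ ≤ ε / 2 :=
    (pow_le_pow_iff_left₀ (norm_nonneg _) (half_pos hε).le two_ne_zero).1 h2
  have h8 : PF d (Q := Q) ι (S r) (Ri d R w ξ) =
      PF d (Q := Q) ι (S r) (Ri d R w (ξ - PF d (Q := Q) ι (F : Set Γ) ξ)) +
      PF d (Q := Q) ι (S r) (Ri d R w (PF d (Q := Q) ι (F : Set Γ) ξ)) := by
    rw [← map_add, ← map_add, sub_add_cancel]
  have h9 : ‖PF d (Q := Q) ι (S r) (Ri d R w (ξ - PF d (Q := Q) ι (F : Set Γ) ξ))‖ ≤ ε / 2 := by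
    refine (PF_norm_le d _ _).trans (((Ri d R w).le_opNorm _).trans ?_)
    refine (mul_le_of_le_one_left (norm_nonneg _) (H790.norm_ri_le d hb w)).trans hF
  rw [h8]
  refine (norm_add_le _ _).trans ?_
  linarith

end nrv

end Vale.Agent.P092.H776.NW
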