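import Vale.Agent.P092.H776.NG2
import Vale.Agent.P092.H776.NW2

/-!
P092 (helper776), Team N, [N-GAP] (A), part 3: near-wall mass for `SL_n` of a local field. Along the
first direction of a chain of length `≥ n - 1`, the mass of the elements with two large gaps is
small.
-/

set_option linter.all false

open scoped InnerProductSpace ENNReal
open Matrix Filter Topology MeasureTheory ContinuousLinearMap

namespace Vale.Agent.P092.H776.NG

open Vale.Agent.P092.H761 (SharpData GChain big mem_big Geo Gaps CovFam)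
open Vale.Agent.P092.H515 (GSys start2)
open Vale.Agent.P092.H538 (ind ind_pos ind_neg ind_nonneg abs_ind_le)
open Vale.Agent.P092.H160 Vale.Agent.P092.H432 Vale.Agent.P092.H132
open Vale.Agent.P092.H701 (HChain tor)
open Vale.Agent.P092.H933 (LocK BCart gsys_gl)

/-! ### The abstract form -/

section abs

variable {Γ 𝔾 : Type} [Group Γ] [DecidableEq Γ] [Group 𝔾] {t : ℝ}
  {mass : 𝔾 → (Γ → ℝ) → ℝ} {Cpt : Set 𝔾 → Prop} {Ping : (p : ℕ) → (Fin p → 𝔾) → Prop}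
  {m : ℕ} {b : Fin m → ℕ → 𝔾} {𝒦 : Fin m → Set 𝔾} {J : ℕ}

/-- **Near-wall, one proper system of gauges**: along the first direction of a chain of length at
least the number of gaps, the mass of the elements with two large gaps is small. -/
theorem nw_gsys (h : SharpData t mass Cpt Ping) (hch : GChain Cpt Ping m b 𝒦) (hm : 0 < m)
    (hJ : J ≤ m) {gap : Fin J → Γ → ℝ} {w : Γ → ℝ} (hs : GSys gap w)
    (hfin : ∀ R : ℝ, {g | w g ≤ R}.Finite) {ε : ℝ} (hε : 0 < ε) :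
    ∃ R : ℝ, ∀ N, mass (b ⟨0, hm⟩ N) (ind fun g => ∃ i j : Fin J, i ≠ j ∧ R ≤ gap i g ∧
      R ≤ gap j g) ≤ ε := by
  classical
  have hg := hs.gaps hfin (fun j : Fin J => j)
    (fun R => ⟨R, fun i j hij g hg => by rw [← hij]; exact hg⟩)
  obtain ⟨R, hR⟩ := start2 h hg (fun θ _ _ => hs.geo' hfin θ) hch hJ hm hε
  refine ⟨R, fun N => (h.ind_mono _ ?_).trans (hR N)⟩
  rintro g ⟨i, j, hij, h1, h2⟩
  exact Finset.one_lt_card.2 ⟨i, mem_big.2 ⟨_, rfl, h1⟩, j, mem_big.2 ⟨_, rfl, h2⟩, hij⟩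

end abs

/-! ### The regular elements of `SL_n(k)` -/

section br

variable {Γ : Type} [Group Γ] {n : ℕ} {k : Type} [NontriviallyNormedField k]

/-- The regular elements: `G1`, `G2` are both large, or the same for the inverse. -/
def Br (q : Γ →* SpecialLinearGroup (Fin n) k) (r : ℝ) : Set Γ :=
  {γ | (r < G1 (q γ).1 ∧ r < G2 (q γ).1) ∨ (r < G1 ((q γ).1)⁻¹ ∧ r < G2 ((q γ).1)⁻¹)}

theorem Br_antitone (q : Γ →* SpecialLinearGroup (Fin n) k) : Antitone (Br q) := by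
  rintro r r' h γ (⟨h1, h2⟩ | ⟨h1, h2⟩)
  · exact Or.inl ⟨h.trans_lt h1, h.trans_lt h2⟩
  · exact Or.inr ⟨h.trans_lt h1, h.trans_lt h2⟩

theorem coe_inv_eq (g : SpecialLinearGroup (Fin n) k) : (g⁻¹).1 = (g.1)⁻¹ := by
  refine (Matrix.inv_eq_right_inv ?_).symm
  have h : (g * g⁻¹).1 = (1 : SpecialLinearGroup (Fin n) k).1 := by rw [mul_inv_cancel]
  rw [Matrix.SpecialLinearGroup.coe_mul, Matrix.SpecialLinearGroup.coe_one] at h
  exact h

/-- The gaps of a homomorphism to `SL_n(k)`: two of them are large on `Br`. -/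
theorem exists_gaps [ProperSpace k] (hk : LocK k) (hn : 2 ≤ n)
    (q : Γ →* SpecialLinearGroup (Fin n) k)
    (disc : ∀ C : ℝ, {γ : Γ | nmx (q γ).1 ≤ C}.Finite) :
    ∃ (gap : Fin (n - 1) → Γ → ℝ) (w : Γ → ℝ), GSys gap w ∧ (∀ R : ℝ, {g | w g ≤ R}.Finite) ∧
      ∀ R : ℝ, ∃ r : ℝ, ∀ γ ∈ Br q r, ∃ i j : Fin (n - 1), i ≠ j ∧ R ≤ gap i γ ∧ R ≤ gap j γ := by
  obtain ⟨gap, w, c, C, hc, hs, hw, hB⟩ := gsys_gl (m := fun γ => (q γ).1) hk
    (by omega : 0 < n) (fun g h => by rw [map_mul]; rfl) (fun g => by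
      rw [(q g).2, norm_one])
  refine ⟨gap, w, hs, fun R => ?_, fun R => ?_⟩
  · obtain ⟨R', hR'⟩ := hw R
    refine (disc (max R' 0)).subset fun γ hγ => ?_
    exact nmx_le (le_max_right _ _) fun i j => (hR' γ hγ i j).trans (le_max_left _ _)
  · obtain ⟨r, hr⟩ := two_gaps (k := k) hn hc C R
    exact ⟨r, fun γ hγ => hr (q γ).1 (fun j => gap j γ) (by rw [(q γ).2, norm_one]) (hB γ) hγ⟩

end br

/-! ### `nrm` -/

section nrm

variable {E : Type} [Group E] [TopologicalSpace E] [IsTopologicalGroup E] [LocallyCompactSpace E]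
  [SecondCountableTopology E] [T2Space E] [MeasurableSpace E] [BorelSpace E]
  (Λ : Subgroup E) [DiscreteTopology Λ] [MeasurableSpace (E ⧸ Λ)] [BorelSpace (E ⧸ Λ)]
  (ν : Measure (E ⧸ Λ)) [IsProbabilityMeasure ν] (hν : ∀ g : E, ν.map (fun x => g • x) = ν)
  {Γ Q ι : Type} [Group Γ] [Countable Γ] [Group Q] [Countable Q] [Fintype ι] {t : ℝ}
  {R : Λ → (Ell2 ((Γ × Q) × ι) →L[ℂ] Ell2 ((Γ × Q) × ι))}
  {E0 : Set Λ → (Ell2 ((Γ × Q) × ι) →L[ℂ] Ell2 ((Γ × Q) × ι))}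
  {n : ℕ} {k : Type} [NontriviallyNormedField k] [ProperSpace k]

/-- `nrm` along one direction. -/
theorem nrm_chainN (hR : ARep t R) (hE : CovFam R E0)
    (hq : ∀ A (q : Q), E0 A * lx ((1 : Γ), q) = lx ((1 : Γ), q) * E0 A)
    {m : ℕ} (Ch : HChain E m) (hm : 0 < m) (hk : LocK k) (hn : 2 ≤ n) (hnm : n - 1 ≤ m)
    (q : Γ →* SpecialLinearGroup (Fin n) k)
    (disc : ∀ C : ℝ, {γ : Γ | nmx (q γ).1 ≤ C}.Finite) {ε : ℝ} (hε : 0 < ε) :
    ∃ r : ℝ, ∀ N,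
      massX (H538.fst (H790.baseL (H85.cdat ν hν).μ (Γ × Q) ι)) (H790.Ri (H85.cdat ν hν) R)
        (Ch.b ⟨0, hm⟩ N) (ind fun γ => γ ∈ Br q r) ≤ ε := by
  classical
  have hd := H761.sharpCoef Λ ν hν hR hE hq
  obtain ⟨gap, w, hs, hfin, hbr⟩ := exists_gaps hk hn q disc
  obtain ⟨R, hR⟩ := nw_gsys hd (H261.gchain_of_hchain Ch) hm hnm hs hfin hε
  obtain ⟨r, hr⟩ := hbr R
  exact ⟨r, fun N => (hd.ind_mono (Ch.b ⟨0, hm⟩ N) (P := fun γ => γ ∈ Br q r) hr).trans (hR N)⟩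

/-- **`nrm`** for the group generated by the wall element `b`. -/
theorem nrm_zpowersN (hR : ARep t R) (hE : CovFam R E0)
    (hq : ∀ A (q : Q), E0 A * lx ((1 : Γ), q) = lx ((1 : Γ), q) * E0 A)
    {m : ℕ} (Ch Ch' : HChain E m) (hm : 0 < m) {b : E}
    (hC : ∀ N, Ch.b ⟨0, hm⟩ N = b ^ N) (hC' : ∀ N, Ch'.b ⟨0, hm⟩ N = b⁻¹ ^ N)
    (hk : LocK k) (hn : 2 ≤ n) (hnm : n - 1 ≤ m) (q : Γ →* SpecialLinearGroup (Fin n) k)
    (disc : ∀ C : ℝ, {γ : Γ | nmx (q γ).1 ≤ C}.Finite) {ε : ℝ} (hε : 0 < ε) :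
    ∃ r : ℝ, ∀ u ∈ Subgroup.zpowers b,
      massX (H538.fst (H790.baseL (H85.cdat ν hν).μ (Γ × Q) ι)) (H790.Ri (H85.cdat ν hν) R)
        u (ind fun γ => γ ∈ Br q r) ≤ ε := by
  classical
  have hd := H761.sharpCoef Λ ν hν hR hE hq
  obtain ⟨r, hr⟩ := nrm_chainN Λ ν hν hR hE hq Ch hm hk hn hnm q disc hε
  obtain ⟨r', hr'⟩ := nrm_chainN Λ ν hν hR hE hq Ch' hm hk hn hnm q disc hε
  have mono : ∀ (r₁ r₂ : ℝ) (u : E), r₁ ≤ r₂ →
      massX (H538.fst (H790.baseL (H85.cdat ν hν).μ (Γ × Q) ι)) (H790.Ri (H85.cdat ν hν) R)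
        u (ind fun γ => γ ∈ Br q r₂) ≤
      massX (H538.fst (H790.baseL (H85.cdat ν hν).μ (Γ × Q) ι)) (H790.Ri (H85.cdat ν hν) R)
        u (ind fun γ => γ ∈ Br q r₁) := fun r₁ r₂ u h =>
    hd.ind_mono u (P := fun γ => γ ∈ Br q r₂)
      (Q := fun γ => γ ∈ Br q r₁) fun γ hγ => Br_antitone q h hγ
  refine ⟨max r r', ?_⟩
  rintro _ ⟨z, rfl⟩
  obtain ⟨N, rfl | rfl⟩ := z.eq_nat_or_neg
  · have h0 := hr N
    rw [hC] at h0
    have h1 := (mono _ _ (b ^ N) (le_max_left r r')).trans h0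
    simpa using h1
  · have h0 := hr' N
    rw [hC'] at h0
    have h1 := (mono _ _ (b⁻¹ ^ N) (le_max_right r r')).trans h0
    simpa using h1

end nrm

end Vale.Agent.P092.H776.NG
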