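import Vale.Agent.P092.H776.NW2
import Vale.Agent.P092.SD.Defs

/-!
P092 (helper776), Team D, [D-NW]: the fields `nrm`, `nrv` of `H859.CL.Sys` for the wall element
`bw w` of `SL_3(k)` and a target `q : Γ →* SL_3(ℝ)`.
-/

set_option linter.all false

open scoped InnerProductSpace ENNReal
open Matrix Filter Topology MeasureTheory ContinuousLinearMap

namespace Vale.Agent.P092.H776.NW

open Vale.Agent.P092.H538 (ind ind_pos ind_neg ind_nonneg abs_ind_le)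
open Vale.Agent.P092.H553 hiding ind ind_pos ind_neg ind_nonneg abs_ind_le
open Vale.Agent.P092.H160 Vale.Agent.P092.H432 Vale.Agent.P092.H132
open Vale.Agent.P092.H790 (CData Fld fld_comp Ri ri_ae ae_comp act_inv baseL)
open Vale.Agent.P092.H357 (B2 Gen BdL2)
open Vale.Agent.P092.H761 (CovFam)
open Vale.Agent.P092.H859.CL (BB)
open Vale.Agent.P092.H701 (HChain tor dg)
open Vale.Agent.P092.SD (G3 bw)

/-- The wall element of `SD.Defs` is the one of the chain. -/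
theorem bw_eq_tor {k : Type} [NontriviallyNormedField k] (w : kˣ) :
    (bw w : G3 k) = tor 2 (k := k) (w := ((w⁻¹ : kˣ) : k)) (Units.ne_zero _) 0 := by
  apply Subtype.ext
  change Matrix.diagonal _ = Matrix.diagonal _
  congr 1
  funext i
  fin_cases i
  · simp [dg]
  · simp [dg]
  · simp [dg]

/-- The gaps are quasi-invariant. -/
theorem gap_quasi {Γ : Type} [Group Γ] (q : Γ →* SpecialLinearGroup (Fin 3) ℝ) (s t : Γ) :
    ∃ C : ℝ, ∀ g, |g1 q (s * g * t) - g1 q g| ≤ C ∧ |g2 q (s * g * t) - g2 q g| ≤ C := by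
  have hE : H515.EmbW (fun g : SpecialLinearGroup (Fin 3) ℝ =>
      (g : Matrix (Fin 3) (Fin 3) ℝ)) :=
    ⟨fun g h => Or.inl (Matrix.SpecialLinearGroup.coe_mul g h), fun g => by
      rw [g.det_coe]; norm_num⟩
  have hsys := (H515.gsys_all (by norm_num : 0 < 3) hE).comap q
  obtain ⟨C, hC⟩ := hsys.quasi s t
  exact ⟨C, fun g => ⟨hC ⟨0, by norm_num⟩ g, hC ⟨1, by norm_num⟩ g⟩⟩

theorem BB_antitone {Γ : Type} [Group Γ] (q : Γ →* SpecialLinearGroup (Fin 3) ℝ) :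
    Antitone (BB (g1 q) (g2 q)) := fun _ _ h => H859.CL.BB_mono h

/-- Translation of the regular sets. -/
theorem BB_trans {Γ : Type} [Group Γ] (q : Γ →* SpecialLinearGroup (Fin 3) ℝ) (γ : Γ) (r : ℝ) :
    ∃ r', ∀ g ∈ BB (g1 q) (g2 q) r', γ⁻¹ * g ∈ BB (g1 q) (g2 q) r := by
  obtain ⟨C, hC⟩ := gap_quasi q γ⁻¹ 1
  refine ⟨r + C, fun g hg => ?_⟩
  have h := hC g
  rw [mul_one] at h
  have h1 := (abs_le.1 h.1).1
  have h2 := (abs_le.1 h.2).1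
  have h3 : r + C < g1 q g := hg.1
  have h4 : r + C < g2 q g := hg.2
  exact ⟨by linarith, by linarith⟩

section inst

variable {k : Type} [NontriviallyNormedField k] [ProperSpace k]
  [MeasurableSpace (G3 k)] [BorelSpace (G3 k)]
  (Λ : Subgroup (G3 k)) [DiscreteTopology Λ] [MeasurableSpace (G3 k ⧸ Λ)] [BorelSpace (G3 k ⧸ Λ)]
  (ν : Measure (G3 k ⧸ Λ)) [IsProbabilityMeasure ν]
  (hν : ∀ g : G3 k, ν.map (fun x => g • x) = ν)
  {Γ Q ι : Type} [Group Γ] [Countable Γ] [Group Q] [Countable Q] [Fintype ι] {t : ℝ}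
  {R : Λ → (Ell2 ((Γ × Q) × ι) →L[ℂ] Ell2 ((Γ × Q) × ι))}
  {E0 : Set Λ → (Ell2 ((Γ × Q) × ι) →L[ℂ] Ell2 ((Γ × Q) × ι))}

/-- **`nrm`** for `A = ⟨bw w⟩`. -/
theorem nrm_bw [LocallyCompactSpace (G3 k)] [SecondCountableTopology (G3 k)]
    (hR : ARep t R) (hE : CovFam R E0)
    (hq : ∀ A (q : Q), E0 A * lx ((1 : Γ), q) = lx ((1 : Γ), q) * E0 A)
    {w : kˣ} (hw : ‖(w : k)‖ < 1) (q : Γ →* SpecialLinearGroup (Fin 3) ℝ)
    (hφ : ∀ K : Set (SpecialLinearGroup (Fin 3) ℝ), IsCompact K → {x | q x ∈ K}.Finite)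
    {ε : ℝ} (hε : 0 < ε) : ∃ r : ℝ, ∀ u ∈ Subgroup.zpowers (bw w : G3 k),
      massX (H538.fst (baseL (H85.cdat ν hν).μ (Γ × Q) ι)) (Ri (H85.cdat ν hν) R)
        u (ind fun γ => γ ∈ BB (g1 q) (g2 q) r) ≤ ε := by
  have hw' : 1 < ‖((w⁻¹ : kˣ) : k)‖ := by
    rw [Units.val_inv_eq_inv_val, norm_inv]
    exact one_lt_inv_iff₀.2 ⟨norm_pos_iff.2 w.ne_zero, hw⟩
  rw [bw_eq_tor]
  exact nrm_zpowers Λ ν hν hR hE hq (chW 2 hw' (Units.ne_zero _)) (chWInv 2 hw' (Units.ne_zero _))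
    (by norm_num) le_rfl (fun N => chW_b 2 hw' _ (by norm_num) N)
    (fun N => chWInv_b 2 hw' _ (by norm_num) N) q hφ hε

/-- **`nrv`** for `A = ⟨bw w⟩`. -/
theorem nrv_bw [LocallyCompactSpace (G3 k)] [SecondCountableTopology (G3 k)]
    (hR : ARep t R) (hE : CovFam R E0)
    (hq : ∀ A (q : Q), E0 A * lx ((1 : Γ), q) = lx ((1 : Γ), q) * E0 A)
    {w : kˣ} (hw : ‖(w : k)‖ < 1) (q : Γ →* SpecialLinearGroup (Fin 3) ℝ)
    (hφ : ∀ K : Set (SpecialLinearGroup (Fin 3) ℝ), IsCompact K → {x | q x ∈ K}.Finite)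
    {ξ : Lp (Ell2 ((Γ × Q) × ι)) 2 (H85.cdat ν hν).μ}
    (hξ : ξ ∈ BdL2 (H85.cdat ν hν).μ Γ Q ι) {ε : ℝ} (hε : 0 < ε) :
    ∃ r : ℝ, ∀ u ∈ Subgroup.zpowers (bw w : G3 k),
      ‖(H538.fst (baseL (H85.cdat ν hν).μ (Γ × Q) ι)).mp
        (ind fun γ => γ ∈ BB (g1 q) (g2 q) r) (Ri (H85.cdat ν hν) R u ξ)‖ ≤ ε := by
  have : Countable Λ := H790.countable_of_discrete Λ
  exact nrv_abs (H85.cdat ν hν) hR (BB_antitone q) (BB_trans q)
    (A := (Subgroup.zpowers (bw w : G3 k) : Set (G3 k)))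
    (fun ε hε => nrm_bw Λ ν hν hR hE hq hw q hφ hε) hξ hε

end inst

end Vale.Agent.P092.H776.NW
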