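import Vale.Agent.P092.H859.CLD
import Vale.Agent.P092.H21.InstA

/-!
P092 (helper776), Team D, block (T1) of #5548: the structure `Leg` of helper859 on the picture
`L²(X; ℓ²((Γ × Γ₂) × ι))`, leg 1, coefficients: `L∞(X)` and the translations of leg 2.
-/

set_option linter.all false

open scoped InnerProductSpace ENNReal
open Filter Topology ContinuousLinearMap MeasureTheory

namespace Vale.Agent.P092.H776.Leg1

open Vale.Agent.P092.H160 Vale.Agent.P092.H432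
open Vale.Agent.P092.H553 hiding ind
open Vale.Agent.P092.H538 (fst fst_mp fst_lx)
open Vale.Agent.P092.H790 (CData Ri baseL lxt lxt_mul lxt_one lxt_ind ri_comp ri_one ri_ind ind_comp
  comp_one)
open Vale.Agent.P092.H859.CL

section abs

variable {Γ D D' K : Type} [Group Γ] [Group D] [Group D'] [NormedAddCommGroup K]
  [InnerProductSpace ℂ K] [CompleteSpace K] {mp : (Γ → ℝ) → (K →L[ℂ] K)} {R : D → (K →L[ℂ] K)}
  {lam : Γ → (K →L[ℂ] K)} {W : Set (K →L[ℂ] K)}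

/-- Composition with a homomorphism of the source group. -/
theorem leg_comp (h : Leg mp R lam W) (θ : D' →* D) : Leg mp (fun d => R (θ d)) lam W where
  one := by
    change R (θ 1) = 1
    rw [map_one]
    exact h.one
  lmul := h.lmul
  lone := h.lone
  comm := fun g γ => h.comm (θ g) γ
  cov := h.cov
  WP := fun w hw g => by
    have h1 := h.WP w hw (θ g)
    change R (θ g) * w * R (θ g⁻¹) ∈ W
    rw [map_inv]
    exact h1
  Wm := h.Wm

end abs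

section row

variable {D Λ Γ Γ₂ ι : Type} [Group D] [Group Λ] [Countable Λ] [Group Γ] [Countable Γ]
  [Group Γ₂] [Countable Γ₂] [Fintype ι] {t : ℝ}
  {R : Λ → (Ell2 ((Γ × Γ₂) × ι) →L[ℂ] Ell2 ((Γ × Γ₂) × ι))} (d : CData D Λ)

/-- The coefficients of leg 1: `L∞(X)` and the translations of leg 2. -/
def WL (d : CData D Λ) (Γ Γ₂ ι : Type) [Group Γ] [Countable Γ] [Group Γ₂] [Countable Γ₂]
    [Fintype ι] :
    Set (Lp (Ell2 ((Γ × Γ₂) × ι)) 2 d.μ →L[ℂ] Lp (Ell2 ((Γ × Γ₂) × ι)) 2 d.μ) :=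
  {a | ∃ S : Set d.X, MeasurableSet S ∧ a = H790.ind d.μ _ S} ∪
    Set.range fun g : Γ₂ => lxt d.μ ((1 : Γ), g)

theorem ri_lxt (hR : ARep t R) (v : D) (x : Γ × Γ₂) :
    Ri d R v * lxt d.μ x = lxt d.μ x * Ri d R v :=
  ri_comp d hR.opNorm_le v fun u => (hR.ra u x).symm

theorem ri_one' (hR : ARep t R) (h1 : R 1 = 1) : Ri d R 1 = 1 := by
  rw [ri_one d hR.opNorm_le, h1, comp_one]

theorem ri_mul_inv (hR : ARep t R) (h1 : R 1 = 1) (v : D) : Ri d R v * Ri d R v⁻¹ = 1 := by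
  rw [← (H21.rep_ri d hR).mul, mul_inv_cancel, ri_one' d hR h1]

/-- **(T1)** `Leg` on the row model. -/
theorem leg_row (hR : ARep t R) (h1 : R 1 = 1) :
    Leg (fst (baseL d.μ (Γ × Γ₂) ι)).mp (Ri d R) (fun γ : Γ => lxt d.μ (γ, (1 : Γ₂)))
      (WL d Γ Γ₂ ι) where
  one := ri_one' d hR h1
  lmul := fun γ γ' => by
    rw [← lxt_mul, Prod.mk_mul_mk, one_mul]
  lone := lxt_one
  comm := fun g γ => ri_lxt d hR g _
  cov := fun γ F hF => by
    have h2 := (fst (baseL d.μ (Γ × Γ₂) ι)).lx_mp (F := F) (C := 1) hF γ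
    have h3 : (fst (baseL d.μ (Γ × Γ₂) ι)).lx γ = lxt d.μ (γ, (1 : Γ₂)) := rfl
    have h4 : lxt d.μ (γ, (1 : Γ₂)) * lxt d.μ (γ⁻¹, (1 : Γ₂)) =
        (1 : Lp (Ell2 ((Γ × Γ₂) × ι)) 2 d.μ →L[ℂ] _) := by
      rw [← lxt_mul, Prod.mk_mul_mk, one_mul, mul_inv_cancel]
      exact lxt_one
    rw [h3] at h2
    rw [h2, mul_assoc, h4, mul_one]
  WP := by
    rintro w (⟨S, hS, rfl⟩ | ⟨q, rfl⟩) g
    · left
      refine ⟨d.act g⁻¹ ⁻¹' S, (d.mp g⁻¹).measurable hS, ?_⟩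
      rw [ri_ind d hR.opNorm_le g hS, mul_assoc, ri_mul_inv d hR h1, mul_one]
    · right
      refine ⟨q, ?_⟩
      change lxt d.μ ((1 : Γ), q) = Ri d R g * lxt d.μ ((1 : Γ), q) * Ri d R g⁻¹
      rw [ri_lxt d hR, mul_assoc, ri_mul_inv d hR h1, mul_one]
  Wm := by
    rintro w (⟨S, hS, rfl⟩ | ⟨q, rfl⟩) F hF
    · exact (baseL d.μ (Γ × Γ₂) ι).sc_mp (H790.ind d.μ _ S) ⟨S, hS, rfl⟩
        (F := fun x : Γ × Γ₂ => F x.1) (C := 1) fun x => hF _
    · exact (H538.mp_snd_comm (baseL d.μ (Γ × Γ₂) ι) (F := F) (C := 1) hF q).symm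

end row

end Vale.Agent.P092.H776.Leg1
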