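import Vale.Agent.P092.H776.Erg
import Vale.Agent.P092.SR.Defs

/-!
P092 (helper776), block B-ERG: ergodicity of the comultiplication in the model of `SR.Defs`.
-/

set_option linter.all false

open scoped InnerProductSpace
open Filter Topology ContinuousLinearMap

namespace Vale.Agent.P092.H776

open Vale.Agent.P092.H160 Vale.Agent.P092.SR

section model

variable {Γ Λ : Type} [Group Γ] [Group Λ] {α : Γ →* (Ell2 Λ →L[ℂ] Ell2 Λ)}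

/-! ### The operator `J x J` -/

theorem rei_inv_cj (v : Ell2 Λ) : rei (Equiv.inv Λ) (cj v) = cj (rei (Equiv.inv Λ) v) := by
  apply ext_inner_dl
  intro x
  rfl

theorem JJ_apply (x : Ell2 Λ →L[ℂ] Ell2 Λ) (v : Ell2 Λ) :
    JJ x v = rei (Equiv.inv Λ) (cj (x (cj (rei (Equiv.inv Λ) v)))) := rfl

/-- The antiunitary `(J ξ)(s) = conj ξ(s⁻¹)`. -/
noncomputable def jv (v : Ell2 Λ) : Ell2 Λ := cj (rei (Equiv.inv Λ) v)

theorem jv_jv (v : Ell2 Λ) : jv (jv v) = v := by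
  apply ext_inner_dl
  intro x
  change (starRingEnd ℂ) ((starRingEnd ℂ) (v x⁻¹⁻¹)) = v x
  rw [Complex.conj_conj, inv_inv]

theorem inner_jv (u v : Ell2 Λ) : ⟪jv u, jv v⟫_ℂ = ⟪v, u⟫_ℂ := by
  rw [jv, jv, inner_cj, inner_rei]

theorem norm_jv (v : Ell2 Λ) : ‖jv v‖ = ‖v‖ := by
  rw [jv, norm_cj, norm_rei]

theorem jv_dl (x : Λ) : jv (dl x) = dl x⁻¹ := by
  rw [jv, rei_dl, cj_dl]; rfl

theorem JJ_apply' (x : Ell2 Λ →L[ℂ] Ell2 Λ) (v : Ell2 Λ) : JJ x v = jv (x (jv v)) := by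
  rw [JJ_apply, rei_inv_cj]; rfl

theorem JJ_lam (s : Λ) : JJ (lam s) = rho s := by
  apply op_ext
  intro x
  rw [JJ_apply', jv_dl, lam_dl, jv_dl, rho_dl]
  congr 1
  group

theorem JJ_adjoint (x : Ell2 Λ →L[ℂ] Ell2 Λ) : adjoint (JJ x) = JJ (adjoint x) := by
  rw [eq_comm, ContinuousLinearMap.eq_adjoint_iff]
  intro u v
  have h1 := inner_jv (jv (adjoint x (jv u))) v
  have h2 := inner_jv (jv (x (jv v))) u
  rw [jv_jv] at h1 h2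
  rw [JJ_apply', JJ_apply', ← h2, ← inner_conj_symm, ← h1, inner_conj_symm, adjoint_inner_right]

theorem JJ_comm_lam (hα : Frame α) (g : Γ) (s : Λ) : JJ (α g) * lam s = lam s * JJ (α g) := by
  have h1 : lam s = JJ (rho s) := by
    apply op_ext
    intro x
    rw [JJ_apply', jv_dl, rho_dl, jv_dl, lam_dl]
    congr 1
    group
  rw [h1, ← JJ_mul, ← JJ_mul, hα.comm]

/-- The right regular representation of `Γ` in the `Λ` picture. -/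
noncomputable def JA (α : Γ →* (Ell2 Λ →L[ℂ] Ell2 Λ)) : Γ →* (Ell2 Λ →L[ℂ] Ell2 Λ) where
  toFun g := JJ (α g)
  map_one' := by rw [map_one, JJ_one]
  map_mul' g h := by rw [map_mul, JJ_mul]

theorem regRep_JA (hα : Frame α) : RegRep (JA α) (dl 1) where
  adj g := by
    change adjoint (JJ (α g)) = JJ (α g⁻¹)
    rw [JJ_adjoint, hα.reg.adj]
  norm_one := norm_dl 1
  inner_zero g hg := by
    change ⟪(dl 1 : Ell2 Λ), JJ (α g) (dl 1)⟫_ℂ = 0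
    rw [JJ_apply', ← inner_jv, jv_jv, jv_dl, inv_one, ← inner_conj_symm, hα.reg.inner_zero g hg,
      map_zero]
  total v hv := by
    have h1 : jv v = 0 := by
      refine hα.reg.total _ fun g => ?_
      have h2 := hv g
      change ⟪JJ (α g) (dl 1), v⟫_ℂ = 0 at h2
      rw [JJ_apply', ← inner_jv, jv_jv, jv_dl, inv_one] at h2
      rw [← inner_conj_symm, h2, map_zero]
    rw [← jv_jv v, h1]
    have h3 := norm_jv (0 : Ell2 Λ)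
    rw [norm_zero] at h3
    exact norm_eq_zero.mp h3

/-- The right regular representation of `Γ × Γ` on `ℓ²(Λ × Λ)`. -/
noncomputable def RRR (α : Γ →* (Ell2 Λ →L[ℂ] Ell2 Λ)) :
    Γ × Γ →* (Ell2 (Λ × Λ) →L[ℂ] Ell2 (Λ × Λ)) where
  toFun p := tens (JJ (α p.1)) (JJ (α p.2))
  map_one' := by rw [Prod.fst_one, Prod.snd_one, map_one, JJ_one, tens_one]
  map_mul' p q := by
    rw [Prod.fst_mul, Prod.snd_mul, map_mul, map_mul, JJ_mul, JJ_mul, ← tens_mul]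

theorem RRR_apply (p : Γ × Γ) : RRR α p = RR₁ α p.1 * RR₂ α p.2 := by
  change tens (JJ (α p.1)) (JJ (α p.2)) = tens (JJ (α p.1)) 1 * tens 1 (JJ (α p.2))
  rw [← tens_mul, one_mul, mul_one]

theorem dl_one_prod : (dl (1 : Λ × Λ) : Ell2 (Λ × Λ)) = tv (dl 1) (dl 1) := dl_prod 1 1

/-- Total families tensor to total families. -/
theorem tens_total {X Y I K : Type} {u : I → Ell2 X} {w : K → Ell2 Y}
    (hu : ∀ v, (∀ i, ⟪u i, v⟫_ℂ = 0) → v = 0) (hw : ∀ v, (∀ i, ⟪w i, v⟫_ℂ = 0) → v = 0)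
    {v : Ell2 (X × Y)} (h : ∀ i k, ⟪tv (u i) (w k), v⟫_ℂ = 0) : v = 0 := by
  -- `⟪tv a b, v⟫ = ⟪b, adjoint (tvr a) v⟫`
  have h1 : ∀ i, adjoint (tvr (u i)) v = 0 := by
    intro i
    refine hw _ fun k => ?_
    rw [adjoint_inner_right]
    exact h i k
  have h2 : ∀ b : Ell2 Y, adjoint (tvl b) v = 0 := by
    intro b
    refine hu _ fun i => ?_
    rw [adjoint_inner_right]
    change ⟪tv (u i) b, v⟫_ℂ = 0
    have h3 : ⟪b, adjoint (tvr (u i)) v⟫_ℂ = 0 := by rw [h1, inner_zero_right]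
    rw [adjoint_inner_right] at h3
    exact h3
  refine eq_zero_of_inner_dl fun p => ?_
  obtain ⟨x, y⟩ := p
  rw [← inner_dl, dl_prod]
  have h3 : ⟪dl x, adjoint (tvl (dl y)) v⟫_ℂ = 0 := by rw [h2, inner_zero_right]
  rw [adjoint_inner_right] at h3
  exact h3

theorem regRep_RRR (hα : Frame α) : RegRep (RRR α) (dl (1 : Λ × Λ)) where
  adj p := by
    change adjoint (tens (JJ (α p.1)) (JJ (α p.2))) = tens (JJ (α p.1⁻¹)) (JJ (α p.2⁻¹))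
    rw [adjoint_tens, JJ_adjoint, JJ_adjoint, hα.reg.adj, hα.reg.adj]
  norm_one := norm_dl 1
  inner_zero p hp := by
    change ⟪(dl (1 : Λ × Λ) : Ell2 (Λ × Λ)), tens (JJ (α p.1)) (JJ (α p.2)) (dl 1)⟫_ℂ = 0
    rw [dl_one_prod, tens_tv, inner_tv]
    by_cases h1 : p.1 = 1
    · have h2 : p.2 ≠ 1 := fun h2 => hp (Prod.ext h1 h2)
      have h3 := (regRep_JA hα).inner_zero p.2 h2
      change ⟪(dl 1 : Ell2 Λ), JJ (α p.2) (dl 1)⟫_ℂ = 0 at h3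
      rw [h3, mul_zero]
    · have h3 := (regRep_JA hα).inner_zero p.1 h1
      change ⟪(dl 1 : Ell2 Λ), JJ (α p.1) (dl 1)⟫_ℂ = 0 at h3
      rw [h3, zero_mul]
  total v hv := by
    refine tens_total (fun v hv => (regRep_JA hα).total v hv)
      (fun v hv => (regRep_JA hα).total v hv) (fun g h => ?_)
    have h1 := hv (g, h)
    change ⟪tens (JJ (α g)) (JJ (α h)) (dl 1), v⟫_ℂ = 0 at h1
    rw [dl_one_prod, tens_tv] at h1
    exact h1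

/-- Operators commuting with `R₁`, `R₂` commute with the right translations of `Λ × Λ`. -/
theorem comm_rho_of (hα : Frame α) {X : Ell2 (Λ × Λ) →L[ℂ] Ell2 (Λ × Λ)}
    (h1 : ∀ g, X * RR₁ α g = RR₁ α g * X) (h2 : ∀ g, X * RR₂ α g = RR₂ α g * X)
    (p : Λ × Λ) : X * rho p = rho p * X := by
  have hc : ∀ (g : Λ × Λ) (s : Γ × Γ), lamH g * RRR α s = RRR α s * lamH g := by
    intro g s
    apply op_ext
    rintro ⟨x, y⟩
    change lam g (tens (JJ (α s.1)) (JJ (α s.2)) (dl (x, y))) =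
      tens (JJ (α s.1)) (JJ (α s.2)) (lam g (dl (x, y)))
    have e1 : (lam g : Ell2 (Λ × Λ) →L[ℂ] Ell2 (Λ × Λ)) = tens (lam g.1) (lam g.2) := by
      rw [lam, lam, lam, tens_rei]; rfl
    rw [e1, tens_dl, tens_dl, tens_tv, tens_tv]
    have e2 : ∀ (g : Γ) (s x : Λ), lam s (JJ (α g) (dl x)) = JJ (α g) (lam s (dl x)) :=
      fun g s x => congrArg (fun L : Ell2 Λ →L[ℂ] Ell2 Λ => L (dl x)) (JJ_comm_lam hα g s).symm
    rw [e2, e2]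
  refine RegRep.commute regRep_lam (regRep_RRR hα) hc (fun s => ?_) (fun g => ?_)
  · rw [RRR_apply, ← mul_assoc, h1, mul_assoc, h2, mul_assoc]
  · exact (rho_lam p g)

/-! ### The isometries `δ_p ↦ δ_p ⊗ δ_{ps}` -/

/-- `δ_p ↦ δ_p ⊗ δ_{ps}` -/
noncomputable def Js (s : Λ) : Ell2 Λ →L[ℂ] Ell2 (Λ × Λ) :=
  rei (eW Λ).symm ∘L tvl (dl s)

theorem Js_dl (s p : Λ) : Js s (dl p) = dl (p, p * s) := by
  change rei (eW Λ).symm (tv (dl p) (dl s)) = _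
  rw [← dl_prod, rei_dl]
  rfl

theorem Del_Js (x : Ell2 Λ →L[ℂ] Ell2 Λ) (s : Λ) : Del x ∘L Js s = Js s ∘L x := by
  ext1 v
  change rei (eW Λ).symm (tens x 1 (rei (eW Λ) (rei (eW Λ).symm (tv v (dl s))))) =
    rei (eW Λ).symm (tv (x v) (dl s))
  rw [rei_rei, Equiv.symm_trans_self, rei_refl, tens_tv]
  rfl

theorem Del_adjoint (x : Ell2 Λ →L[ℂ] Ell2 Λ) : adjoint (Del x) = Del (adjoint x) := by
  have h1 : adjoint (1 : Ell2 Λ →L[ℂ] Ell2 Λ) = 1 := by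
    rw [← star_eq_adjoint, star_one]
  have h2 : Del x = rei (eW Λ).symm ∘L (tens x 1 ∘L rei (eW Λ)) := rfl
  have h3 : Del (adjoint x) = rei (eW Λ).symm ∘L (tens (adjoint x) 1 ∘L rei (eW Λ)) := rfl
  rw [h2, h3, adjoint_comp, adjoint_comp, adjoint_rei, adjoint_rei, Equiv.symm_symm, adjoint_tens,
    h1]
  rfl

/-- relative ICC -/
theorem frame_irr (hα : Frame α) (Θ : Set Γ) (hinv : ∀ k ∈ Θ, k⁻¹ ∈ Θ)
    (hΘ : ∀ g : Γ, g ≠ 1 → Set.Infinite {y : Γ | ∃ k ∈ Θ, y = k * g * k⁻¹}) :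
    Irr (rhoH (G := Λ)) (dl 1) (Set.range fun k : Θ => α (k : Γ)) where
  reg := regRep_rho
  uni := by
    rintro _ ⟨k, rfl⟩
    change adjoint (α (k : Γ)) * α (k : Γ) = 1 ∧ α (k : Γ) * adjoint (α (k : Γ)) = 1
    rw [hα.reg.adj, ← map_mul, ← map_mul, inv_mul_cancel, mul_inv_cancel, map_one]
    exact ⟨rfl, rfl⟩
  adj := by
    rintro _ ⟨k, rfl⟩
    exact ⟨⟨(k : Γ)⁻¹, hinv _ k.2⟩, (hα.reg.adj (k : Γ)).symm⟩
  com := by
    rintro _ ⟨k, rfl⟩ s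
    exact hα.comm k s
  irr := by
    intro T hT hA
    have hTr : Cmm rhoH T := hT
    have hTk : ∀ k ∈ Θ, T * α k = α k * T := fun k hk => hA _ ⟨⟨k, hk⟩, rfl⟩
    have hv : T (dl 1) = ⟪dl 1, T (dl 1)⟫_ℂ • dl 1 := by
      refine hα.reg.icc_vec Θ hΘ (fun k hk g => ?_)
      rw [hα.reg.inner_left, hα.reg.inner_left]
      have e1 : (k * g * k⁻¹)⁻¹ = k * g⁻¹ * k⁻¹ := by group
      rw [e1, map_mul, map_mul, mul_ap, mul_ap]
      have e2 : α k⁻¹ (T (dl 1)) = T (α k⁻¹ (dl 1)) :=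
        congrArg (fun L : Ell2 Λ →L[ℂ] Ell2 Λ => L (dl 1)) (hTk k⁻¹ (hinv k hk)).symm
      rw [e2, ← mul_ap T, ← mul_ap (α g⁻¹),
        regRep_rho.trace_comm (hα.cmm_rho k) ((hα.cmm_rho g⁻¹).mul (hTr.mul (hα.cmm_rho k⁻¹))),
        mul_ap, mul_ap, hα.reg.inv_apply]
    refine ⟨⟪(dl 1 : Ell2 Λ), T (dl 1)⟫_ℂ, regRep_rho.ext_cmm hTr (Cmm.smul _ Cmm.one) ?_⟩
    exact hv

theorem jdata_model (hα : Frame α) (Θ : Set Γ) (hinv : ∀ k ∈ Θ, k⁻¹ ∈ Θ)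
    (hΘ : ∀ g : Γ, g ≠ 1 → Set.Infinite {y : Γ | ∃ k ∈ Θ, y = k * g * k⁻¹}) :
    JData (T := Θ) (rhoH (G := Λ)) (dl 1) (rhoH (G := Λ × Λ)) (dl 1) Js
      (fun k : Θ => α (k : Γ)) (fun k : Θ => VV α (k : Γ)) where
  reg := regRep_rho
  irr := frame_irr hα Θ hinv hΘ
  jv s p := by
    rw [rhoH_apply, rhoH_apply, ← dl_eq_rho, ← dl_eq_rho, Js_dl]
  ja s k := Del_Js _ s
  adj k := by
    refine ⟨⟨(k : Γ)⁻¹, hinv _ k.2⟩, hα.reg.adj (k : Γ), ?_⟩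
    change adjoint (Del (α (k : Γ))) = Del (α (k : Γ)⁻¹)
    rw [Del_adjoint, hα.reg.adj]

/-- The input on torsion elements: it holds when `Λ` is torsion free. -/
def NoCls (α : Γ →* (Ell2 Λ →L[ℂ] Ell2 Λ)) (Θ : Set Γ) : Prop :=
  ∀ s : Λ, s ≠ 1 → ∀ S : Ell2 Λ →L[ℂ] Ell2 Λ,
    Cls (rhoH (G := Λ)) (dl 1) (Set.range fun k : Θ => α (k : Γ)) (Subgroup.centralizer {s}) S →
    S = 0

theorem noCls_of_torsionFree (hα : Frame α) (hinf : ∀ s : Λ, s ≠ 1 → ∀ n : ℕ, 0 < n → s ^ n ≠ 1)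
    {Θ : Set Γ} (hinv : ∀ k ∈ Θ, k⁻¹ ∈ Θ)
    (hΘ : ∀ g : Γ, g ≠ 1 → Set.Infinite {y : Γ | ∃ k ∈ Θ, y = k * g * k⁻¹}) : NoCls α Θ :=
  fun s hs _ hS => cls_zero_of_order (frame_irr hα Θ hinv hΘ) (hinf s hs) hS

/-- **Ergodicity of the comultiplication in the model.** -/
theorem erg_model_of (hα : Frame α) (Θ : Set Γ) (hinv : ∀ k ∈ Θ, k⁻¹ ∈ Θ)
    (hΘ : ∀ g : Γ, g ≠ 1 → Set.Infinite {y : Γ | ∃ k ∈ Θ, y = k * g * k⁻¹}) (hT : NoCls α Θ)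
    {X : Ell2 (Λ × Λ) →L[ℂ] Ell2 (Λ × Λ)} (hV : ∀ k ∈ Θ, X * VV α k = VV α k * X)
    (h1 : ∀ g, X * RR₁ α g = RR₁ α g * X) (h2 : ∀ g, X * RR₂ α g = RR₂ α g * X) :
    ∃ c : ℂ, X = c • (1 : Ell2 (Λ × Λ) →L[ℂ] Ell2 (Λ × Λ)) :=
  erg_of (jdata_model hα Θ hinv hΘ) hT (fun p => comm_rho_of hα h1 h2 p)
    (fun k => hV k k.2)

/-- The same with the right translations of `Λ × Λ`. -/
theorem erg_model_rho (hα : Frame α) (Θ : Set Γ) (hinv : ∀ k ∈ Θ, k⁻¹ ∈ Θ)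
    (hΘ : ∀ g : Γ, g ≠ 1 → Set.Infinite {y : Γ | ∃ k ∈ Θ, y = k * g * k⁻¹}) (hT : NoCls α Θ)
    {X : Ell2 (Λ × Λ) →L[ℂ] Ell2 (Λ × Λ)} (hV : ∀ k ∈ Θ, X * VV α k = VV α k * X)
    (h1 : ∀ p : Λ × Λ, X * rho p = rho p * X) :
    ∃ c : ℂ, X = c • (1 : Ell2 (Λ × Λ) →L[ℂ] Ell2 (Λ × Λ)) :=
  erg_of (jdata_model hα Θ hinv hΘ) hT (fun p => h1 p) (fun k => hV k k.2)

/-- Target ergodicity of the first leg, in the form of `SR.Leg`. -/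
theorem ergT_one (hα : Frame α) {H H' : Type} [Group H] [Group H'] (pr : Γ →* H) (pr' : Γ →* H')
    (K' : Subgroup H)
    (hΘ : ∀ g : Γ, g ≠ 1 → Set.Infinite {y : Γ | ∃ k ∈ K'.comap pr, y = k * g * k⁻¹})
    (hT : NoCls α (K'.comap pr : Set Γ)) {x : Ell2 (Λ × Λ) →L[ℂ] Ell2 (Λ × Λ)}
    (hx : Qs pr pr' (VV α) (RR₁ α) (Set.range (RR₂ α)) K' ⊤ x) :
    ∃ c : ℂ, x = c • (1 : Ell2 (Λ × Λ) →L[ℂ] Ell2 (Λ × Λ)) := by
  obtain ⟨h1, h2, h3⟩ := hx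
  exact erg_model_of hα (K'.comap pr : Set Γ) (fun k hk => (K'.comap pr).inv_mem hk) hΘ hT
    (fun k hk => h1 k hk) (fun g => h2 g (Subgroup.mem_top _)) (fun g => h3 _ ⟨g, rfl⟩)

/-- Target ergodicity of the second leg, in the form of `SR.Leg`. -/
theorem ergT_two (hα : Frame α) {H H' : Type} [Group H] [Group H'] (pr : Γ →* H) (pr' : Γ →* H')
    (K' : Subgroup H)
    (hΘ : ∀ g : Γ, g ≠ 1 → Set.Infinite {y : Γ | ∃ k ∈ K'.comap pr, y = k * g * k⁻¹})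
    (hT : NoCls α (K'.comap pr : Set Γ)) {x : Ell2 (Λ × Λ) →L[ℂ] Ell2 (Λ × Λ)}
    (hx : Qs pr pr' (VV α) (RR₂ α) (Set.range (RR₁ α)) K' ⊤ x) :
    ∃ c : ℂ, x = c • (1 : Ell2 (Λ × Λ) →L[ℂ] Ell2 (Λ × Λ)) := by
  obtain ⟨h1, h2, h3⟩ := hx
  exact erg_model_of hα (K'.comap pr : Set Γ) (fun k hk => (K'.comap pr).inv_mem hk) hΘ hT
    (fun k hk => h1 k hk) (fun g => h3 _ ⟨g, rfl⟩) (fun g => h2 g (Subgroup.mem_top _))

end model

end Vale.Agent.P092.H776
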