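import Vale.Agent.P092.H776.ErgM
import Vale.Agent.P092.SR.Blocks

/-!
P092 (helper776): the blocks `ErgStmt` and `CommStmt` of `SR.Blocks`.
-/

set_option linter.all false

open scoped InnerProductSpace
open Filter Topology ContinuousLinearMap

namespace Vale.Agent.P092.H776

open Vale.Agent.P092.H160 Vale.Agent.P092.SR

/-- The ergodicity with an arbitrary input on torsion elements. -/
theorem ergStmt_of {Γ Λ : Type} [Group Γ] [Group Λ] {α : Γ →* (Ell2 Λ →L[ℂ] Ell2 Λ)}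
    (hα : Frame α) (Θ : Subgroup Γ)
    (hΘ : ∀ h : Γ, h ≠ 1 → Set.Infinite {x : Γ | ∃ g ∈ Θ, x = g * h * g⁻¹})
    (hT : NoCls α (Θ : Set Γ)) (x : Ell2 (Λ × Λ) →L[ℂ] Ell2 (Λ × Λ))
    (h1 : ∀ s t : Λ, x * tens (rho s) (rho t) = tens (rho s) (rho t) * x)
    (h2 : ∀ g ∈ Θ, x * VV α g = VV α g * x) :
    ∃ c : ℂ, x = c • (1 : Ell2 (Λ × Λ) →L[ℂ] Ell2 (Λ × Λ)) := by
  refine erg_model_rho hα (Θ : Set Γ) (fun k hk => Θ.inv_mem hk) hΘ hT h2 fun p => ?_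
  have h3 := h1 p.1 p.2
  rw [tens_rho] at h3
  exact h3

theorem ergStmt : ErgStmt := by
  intro Γ Λ _ _ α hα hinf Θ hΘ x h1 h2
  exact ergStmt_of hα Θ hΘ (noCls_of_torsionFree hα hinf (fun k hk => Θ.inv_mem hk) hΘ) x h1 h2

section comm

variable {Γ Λ : Type} [Group Γ] [Group Λ] {α : Γ →* (Ell2 Λ →L[ℂ] Ell2 Λ)}

/-- Slices in the first variable: `x` commutes with `y ⊗ 1` iff all the slices commute with `y`. -/
theorem tens_comm_iff {y : Ell2 Λ →L[ℂ] Ell2 Λ} {x : Ell2 (Λ × Λ) →L[ℂ] Ell2 (Λ × Λ)} :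
    x * tens y 1 = tens y 1 * x ↔ ∀ a b : Λ,
      (adjoint (tvl (X := Λ) (dl b)) ∘L x ∘L tvl (dl a)) * y =
        y * (adjoint (tvl (X := Λ) (dl b)) ∘L x ∘L tvl (dl a)) := by
  have e1 : ∀ a : Λ, tens y (1 : Ell2 Λ →L[ℂ] Ell2 Λ) ∘L tvl (dl a) = tvl (dl a) ∘L y := by
    intro a
    ext1 v
    change tens y 1 (tv v (dl a)) = tv (y v) (dl a)
    rw [tens_tv]; rfl
  have e2 : ∀ b : Λ, adjoint (tvl (X := Λ) (dl b)) ∘L tens y (1 : Ell2 Λ →L[ℂ] Ell2 Λ) =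
      y ∘L adjoint (tvl (X := Λ) (dl b)) := by
    intro b
    have h1 : tens (adjoint y) (1 : Ell2 Λ →L[ℂ] Ell2 Λ) ∘L tvl (dl b) =
        tvl (dl b) ∘L adjoint y := by
      ext1 v
      change tens (adjoint y) 1 (tv v (dl b)) = tv (adjoint y v) (dl b)
      rw [tens_tv]; rfl
    have h2 := congrArg adjoint h1
    have h3 : adjoint (1 : Ell2 Λ →L[ℂ] Ell2 Λ) = 1 := by
      rw [← star_eq_adjoint, star_one]
    rw [adjoint_comp, adjoint_comp, adjoint_tens, h3, adjoint_adjoint] at h2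
    exact h2
  constructor
  · intro h a b
    calc (adjoint (tvl (X := Λ) (dl b)) ∘L x ∘L tvl (dl a)) * y
        = adjoint (tvl (X := Λ) (dl b)) ∘L (x ∘L (tvl (dl a) ∘L y)) := rfl
      _ = adjoint (tvl (X := Λ) (dl b)) ∘L ((x * tens y 1) ∘L tvl (dl a)) := by
          rw [← e1]; rfl
      _ = (adjoint (tvl (X := Λ) (dl b)) ∘L tens y 1) ∘L (x ∘L tvl (dl a)) := by
          rw [h]; rfl
      _ = _ := by rw [e2]; rfl
  · intro h
    apply op_ext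
    rintro ⟨p, a⟩
    apply ext_inner_dl
    rintro ⟨q, b⟩
    rw [← inner_dl, ← inner_dl, dl_prod, dl_prod]
    have h1 := congrArg (fun L : Ell2 Λ →L[ℂ] Ell2 Λ => ⟪dl q, L (dl p)⟫_ℂ) (h a b)
    have h2 : ⟪dl q, ((adjoint (tvl (X := Λ) (dl b)) ∘L x ∘L tvl (dl a)) * y) (dl p)⟫_ℂ =
        ⟪tv (dl q) (dl b), (x * tens y (1 : Ell2 Λ →L[ℂ] Ell2 Λ)) (tv (dl p) (dl a))⟫_ℂ := by
      change ⟪dl q, adjoint (tvl (X := Λ) (dl b)) (x (tv (y (dl p)) (dl a)))⟫_ℂ = _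
      rw [adjoint_inner_right]
      change _ = ⟪tv (dl q) (dl b), x (tens y 1 (tv (dl p) (dl a)))⟫_ℂ
      rw [tens_tv]; rfl
    have h3 : ⟪dl q, (y * (adjoint (tvl (X := Λ) (dl b)) ∘L x ∘L tvl (dl a))) (dl p)⟫_ℂ =
        ⟪tv (dl q) (dl b), (tens y (1 : Ell2 Λ →L[ℂ] Ell2 Λ) * x) (tv (dl p) (dl a))⟫_ℂ := by
      have h4 : (y * (adjoint (tvl (X := Λ) (dl b)) ∘L x ∘L tvl (dl a))) (dl p) =
          (adjoint (tvl (X := Λ) (dl b)) ∘L tens y 1) (x (tv (dl p) (dl a))) := by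
        rw [e2]; rfl
      rw [h4]
      change ⟪dl q, adjoint (tvl (X := Λ) (dl b)) (tens y 1 (x (tv (dl p) (dl a))))⟫_ℂ = _
      rw [adjoint_inner_right]
      rfl
    rw [← h2, ← h3]
    exact h1

/-- On `ℓ²Λ`: commuting with `J α J` is the same as commuting with the right translations. -/
theorem comm_JJ_iff (hα : Frame α) {y : Ell2 Λ →L[ℂ] Ell2 Λ} :
    (∀ g, y * JJ (α g) = JJ (α g) * y) ↔ ∀ s : Λ, y * rho s = rho s * y := by
  constructor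
  · intro h s
    refine RegRep.commute regRep_lam (regRep_JA hα) (fun g s => ?_) (fun g => h g) (fun g => ?_)
    · exact (JJ_comm_lam hα s g).symm
    · exact rho_lam s g
  · intro h g
    have h1 : ∀ (g s : Λ), rhoH g * lamH s = lamH s * rhoH g := fun g s => rho_lam g s
    refine RegRep.commute regRep_lam regRep_rho (fun g s => (rho_lam s g).symm) (fun s => h s)
      (fun s => ?_)
    exact JJ_comm_lam hα g s

theorem comm_one (hα : Frame α) (x : Ell2 (Λ × Λ) →L[ℂ] Ell2 (Λ × Λ)) :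
    (∀ g, x * RR₁ α g = RR₁ α g * x) ↔ ∀ s : Λ, x * tens (rho s) 1 = tens (rho s) 1 * x := by
  have h1 : (∀ g, x * RR₁ α g = RR₁ α g * x) ↔
      ∀ g, x * tens (JJ (α g)) 1 = tens (JJ (α g)) 1 * x := Iff.rfl
  rw [h1]
  simp only [tens_comm_iff]
  constructor
  · intro h s a b
    exact (comm_JJ_iff hα).mp (fun g => h g a b) s
  · intro h g a b
    exact (comm_JJ_iff hα).mpr (fun s => h s a b) g

/-- the flip of the coordinates -/
noncomputable def swo (Λ : Type) : Ell2 (Λ × Λ) →L[ℂ] Ell2 (Λ × Λ) := rei (Equiv.prodComm Λ Λ)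

theorem swo_swo : swo Λ * swo Λ = 1 := by
  ext1 v
  change rei (Equiv.prodComm Λ Λ) (rei (Equiv.prodComm Λ Λ) v) = v
  rw [rei_rei]
  rfl

theorem swo_tens (y z : Ell2 Λ →L[ℂ] Ell2 Λ) : swo Λ * tens y z = tens z y * swo Λ := by
  apply op_ext
  rintro ⟨a, b⟩
  change sw (tens y z (dl (a, b))) = tens z y (sw (dl (a, b)))
  rw [tens_dl, sw_tv, dl_prod, sw_tv, tens_tv]

theorem swo_conj_comm {x : Ell2 (Λ × Λ) →L[ℂ] Ell2 (Λ × Λ)} {y : Ell2 Λ →L[ℂ] Ell2 Λ} :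
    x * tens 1 y = tens 1 y * x ↔
      (swo Λ * x * swo Λ) * tens y 1 = tens y 1 * (swo Λ * x * swo Λ) := by
  have e1 : (swo Λ * x * swo Λ) * tens y 1 = swo Λ * (x * tens 1 y) * swo Λ := by
    rw [mul_assoc (swo Λ * x), swo_tens]
    simp only [mul_assoc]
  have e2 : tens y 1 * (swo Λ * x * swo Λ) = swo Λ * (tens 1 y * x) * swo Λ := by
    rw [mul_assoc (swo Λ), ← mul_assoc, ← swo_tens]
    simp only [mul_assoc]
  rw [e1, e2]
  constructor
  · intro h; rw [h]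
  · intro h
    have h1 := congrArg (fun L => swo Λ * L * swo Λ) h
    have h2 : ∀ L : Ell2 (Λ × Λ) →L[ℂ] Ell2 (Λ × Λ), swo Λ * (swo Λ * L * swo Λ) * swo Λ = L := by
      intro L
      calc swo Λ * (swo Λ * L * swo Λ) * swo Λ = (swo Λ * swo Λ) * L * (swo Λ * swo Λ) := by
            simp only [mul_assoc]
        _ = L := by rw [swo_swo, one_mul, mul_one]
    have h3 : swo Λ * (swo Λ * (x * tens 1 y) * swo Λ) * swo Λ =
        swo Λ * (swo Λ * (tens 1 y * x) * swo Λ) * swo Λ := h1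
    rwa [h2, h2] at h3

theorem commStmt : CommStmt := by
  intro Γ Λ _ _ α hα x
  refine ⟨comm_one hα x, ?_⟩
  have h1 : (∀ g, x * RR₂ α g = RR₂ α g * x) ↔
      ∀ g, x * tens 1 (JJ (α g)) = tens 1 (JJ (α g)) * x := Iff.rfl
  rw [h1]
  have h2 := comm_one hα (swo Λ * x * swo Λ)
  have h3 : (∀ g, (swo Λ * x * swo Λ) * RR₁ α g = RR₁ α g * (swo Λ * x * swo Λ)) ↔
      ∀ g, (swo Λ * x * swo Λ) * tens (JJ (α g)) 1 =
        tens (JJ (α g)) 1 * (swo Λ * x * swo Λ) := Iff.rfl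
  rw [h3] at h2
  constructor
  · intro h s
    exact swo_conj_comm.mpr (h2.mp (fun g => swo_conj_comm.mp (h g)) s)
  · intro h g
    exact swo_conj_comm.mpr (h2.mpr (fun s => swo_conj_comm.mp (h s)) g)

end comm

end Vale.Agent.P092.H776
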