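import Vale.Agent.P092.SD.Defs

/-!
P092 (helper776), Team D, block (T4) of #5548: `act` versus the action through `q`.
-/

set_option linter.all false

open Filter Topology

namespace Vale.Agent.P092.H776.Act

open Vale.Agent.P092.SD

variable {k : Type} [NontriviallyNormedField k] [ProperSpace k] {Γ : Type} [Group Γ]

theorem act_apply (g : G3 k) (f : CP k) (x : PP k) : act g f x = f (g⁻¹ • x) := rfl

theorem act_smul (g : G3 k) (f : CP k) (y : PP k) : act g f (g • y) = f y := by
  rw [act_apply, inv_smul_smul]

/-- functions are transported by `g` exactly when they are related by `act g` -/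
theorem eq_act_iff (g : G3 k) (f f' : CP k) : (∀ y, f' (g • y) = f y) ↔ f' = act g f := by
  constructor
  · intro h
    refine ContinuousMap.ext fun x => ?_
    rw [act_apply, ← h, smul_inv_smul]
  · rintro rfl y
    exact act_smul g f y

theorem compHom_smul (q : Γ →* G3 k) (s : Γ) (y : PP k) :
    (letI := MulAction.compHom (PP k) q; s • y) = q s • y := rfl

/-- **(T4)** -/
theorem compHom_iff (q : Γ →* G3 k) (s : Γ) (f f' : CP k) :
    (letI := MulAction.compHom (PP k) q; ∀ y, f' (s • y) = f y) ↔ f' = act (q s) f :=
  eq_act_iff (q s) f f'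

theorem compHom_act (q : Γ →* G3 k) (s : Γ) (f : CP k) :
    (letI := MulAction.compHom (PP k) q; ∀ y, act (q s) f (s • y) = f y) :=
  act_smul (q s) f

/-- the action through `q` is continuous -/
theorem compHom_cont (q : Γ →* G3 k) (s : Γ) :
    (letI := MulAction.compHom (PP k) q; Continuous fun y : PP k => s • y) :=
  continuous_const_smul (q s)

end Vale.Agent.P092.H776.Act
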