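import Vale.Agent.P092.H776.NG3
import Vale.Agent.P092.H387.Qt1
import Vale.Agent.P092.H515.ProdGeo

/-!
P092 (helper776), Team N, [N-NRM], part 4: systems of gauges of homomorphisms modulo scalars to
`SL_n` of a local field, and of finite families of them.
-/

set_option linter.all false

open scoped InnerProductSpace ENNReal
open Matrix Filter Topology MeasureTheory ContinuousLinearMap

namespace Vale.Agent.P092.H776.NG

open Vale.Agent.P092.H761 (SharpData GChain big mem_big Geo Gaps CovFam)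
open Vale.Agent.P092.H515 (GSys start2)
open Vale.Agent.P092.H933 (LocK BCart gsys_gl)

/-! ### Scalars -/

section scalars

variable {k : Type} [NontriviallyNormedField k] {n : ℕ}

theorem bcart_smul {A : Matrix (Fin n) (Fin n) k} {x : Fin (n - 1) → ℝ} {c C : ℝ} {z : k}
    (hz : z ≠ 0) (h : BCart A x c C) : BCart (z • A) x c C := by
  obtain ⟨κ, κi, κ', κi', a, h1, h2, h3, h4, h5, h6, h7⟩ := h
  have hz' : 0 < ‖z‖ := norm_pos_iff.2 hz
  refine ⟨κ, κi, κ', κi', fun i => z * a i, h1, h2, h3, fun i => mul_ne_zero hz (h4 i),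
    fun i j hij => ?_, ?_, fun j => ?_⟩
  · change ‖z * a j‖ ≤ ‖z * a i‖
    rw [norm_mul, norm_mul]
    exact mul_le_mul_of_nonneg_left (h5 hij) hz'.le
  · have e : (diagonal fun i => z * a i) = z • diagonal a := by
      ext i j
      simp [diagonal_apply]
    rw [e, h6, Matrix.mul_smul, Matrix.smul_mul]
  · have e : ∀ i, Real.log ‖z * a i‖ = Real.log ‖z‖ + Real.log ‖a i‖ := fun i => by
      rw [norm_mul, Real.log_mul hz'.ne' (norm_ne_zero_iff.2 (h4 i))]
    rw [e, e, add_sub_add_left_eq_sub]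
    exact h7 j

theorem scal_pow (A B : SpecialLinearGroup (Fin n) k) {z : k} (h : A.1 = z • B.1) :
    z ^ n = 1 := by
  have h1 := congrArg Matrix.det h
  rw [A.2, Matrix.det_smul, B.2, mul_one, Fintype.card_fin] at h1
  exact h1.symm

theorem scal_norm (hn : 0 < n) (A B : SpecialLinearGroup (Fin n) k) {z : k}
    (h : A.1 = z • B.1) : ‖z‖ = 1 := by
  have h1 := scal_pow A B h
  have h2 : ‖z‖ ^ n = 1 := by rw [← norm_pow, h1, norm_one]
  exact (pow_eq_one_iff_of_nonneg (norm_nonneg _) hn.ne').1 h2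

theorem scal_ne (hn : 0 < n) (A B : SpecialLinearGroup (Fin n) k) {z : k}
    (h : A.1 = z • B.1) : z ≠ 0 := by
  intro h0
  have h1 := scal_norm hn A B h
  rw [h0, norm_zero] at h1
  exact zero_ne_one h1

theorem scal_symm (hn : 0 < n) (A B : SpecialLinearGroup (Fin n) k) {z : k}
    (h : A.1 = z • B.1) : B.1 = z⁻¹ • A.1 := by
  rw [h, smul_smul, inv_mul_cancel₀ (scal_ne hn A B h), one_smul]

theorem scal_mem (hn : 0 < n) (A B : SpecialLinearGroup (Fin n) k) {z : k}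
    (h : A.1 = z • B.1) : A⁻¹ * B ∈ Subgroup.center (SpecialLinearGroup (Fin n) k) := by
  refine Matrix.SpecialLinearGroup.mem_center_iff.2 ⟨z⁻¹, ?_, ?_⟩
  · rw [Fintype.card_fin, inv_pow, scal_pow A B h, inv_one]
  · have h1 : (A⁻¹ * B).1 = (A⁻¹).1 * B.1 := Matrix.SpecialLinearGroup.coe_mul _ _
    have h2 : (A⁻¹).1 * A.1 = 1 := by
      have := congrArg Subtype.val (inv_mul_cancel A)
      rwa [Matrix.SpecialLinearGroup.coe_mul] at this
    rw [h1, scal_symm hn A B h, Matrix.mul_smul, h2, Matrix.scalar_apply, ← Matrix.smul_one_eq_diagonal]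

theorem scal_of_mem (A B : SpecialLinearGroup (Fin n) k)
    (h : A⁻¹ * B ∈ Subgroup.center (SpecialLinearGroup (Fin n) k)) : ∃ z : k, B.1 = z • A.1 := by
  obtain ⟨r, -, hr⟩ := Matrix.SpecialLinearGroup.mem_center_iff.1 h
  refine ⟨r, ?_⟩
  have h1 : B = A * (A⁻¹ * B) := by rw [mul_inv_cancel_left]
  have h2 : B.1 = A.1 * (A⁻¹ * B).1 := by
    conv_lhs => rw [h1]
    exact Matrix.SpecialLinearGroup.coe_mul _ _
  rw [h2, ← hr, Matrix.scalar_apply, ← Matrix.smul_one_eq_diagonal, Matrix.mul_smul, mul_one]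

theorem finite_ctr (hn : 0 < n) : Finite (Subgroup.center (SpecialLinearGroup (Fin n) k)) := by
  classical
  have h1 : {r : k | r ^ n = 1}.Finite := by
    have : {r : k | r ^ n = 1} ⊆ ((Polynomial.nthRoots n (1 : k)).toFinset : Set k) := by
      intro r hr
      rw [Set.mem_setOf_eq] at hr
      simp [Polynomial.mem_nthRoots hn, hr]
    exact (Finset.finite_toSet _).subset this
  have key : (Subgroup.center (SpecialLinearGroup (Fin n) k) :
      Set (SpecialLinearGroup (Fin n) k)).Finite := by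
    refine Set.Finite.of_injOn (f := fun g : SpecialLinearGroup (Fin n) k => g.1 ⟨0, hn⟩ ⟨0, hn⟩)
      (t := {r : k | r ^ n = 1}) ?_ ?_ h1
    · intro g hg
      obtain ⟨r, hr, hg⟩ := Matrix.SpecialLinearGroup.mem_center_iff.1 hg
      have e : g.1 ⟨0, hn⟩ ⟨0, hn⟩ = r := by rw [← hg]; simp
      rw [Fintype.card_fin] at hr
      rw [Set.mem_setOf_eq]
      simp only [e]
      exact hr
    · intro g hg h hh hgh
      obtain ⟨r, hr, hg⟩ := Matrix.SpecialLinearGroup.mem_center_iff.1 hg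
      obtain ⟨s, hs, hh⟩ := Matrix.SpecialLinearGroup.mem_center_iff.1 hh
      have e1 : g.1 ⟨0, hn⟩ ⟨0, hn⟩ = r := by rw [← hg]; simp
      have e2 : h.1 ⟨0, hn⟩ ⟨0, hn⟩ = s := by rw [← hh]; simp
      have hrs : r = s := by rw [← e1, ← e2]; exact hgh
      apply Subtype.ext
      rw [← hg, ← hh, hrs]
  exact key.to_subtype

end scalars

/-! ### Homomorphisms modulo scalars -/

section ph

variable {Γ : Type} [Group Γ] {n : ℕ} {k : Type} [NontriviallyNormedField k]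

/-- the homomorphism modulo the centre -/
def phom (hn : 0 < n) (q : Γ → SpecialLinearGroup (Fin n) k)
    (hq : ∀ γ γ', ∃ c : k, (q (γ * γ')).1 = c • (q γ * q γ').1) :
    Γ →* SpecialLinearGroup (Fin n) k ⧸ Subgroup.center (SpecialLinearGroup (Fin n) k) :=
  MonoidHom.mk' (fun γ => QuotientGroup.mk (q γ)) fun γ γ' => by
    obtain ⟨c, hc⟩ := hq γ γ'
    rw [← QuotientGroup.mk_mul]
    exact QuotientGroup.eq.2 (scal_mem hn _ _ hc)

/-- **Gauges of a homomorphism modulo scalars**, with the (bounded) Cartan decomposition. -/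
theorem gsys_ph [ProperSpace k] (hk : LocK k) (hn : 0 < n)
    (q : Γ → SpecialLinearGroup (Fin n) k)
    (hq : ∀ γ γ', ∃ c : k, (q (γ * γ')).1 = c • (q γ * q γ').1) :
    ∃ (gap : Fin (n - 1) → Γ → ℝ) (w : Γ → ℝ) (c C : ℝ), 0 < c ∧ GSys gap w ∧
      (∀ R : ℝ, ∃ R' : ℝ, ∀ γ, w γ ≤ R → ∀ i j, ‖(q γ).1 i j‖ ≤ R') ∧
      ∀ γ, BCart (q γ).1 (fun j => gap j γ) c C := by
  classical
  obtain ⟨gap, w, c, C, hc, hs, hw, hB⟩ := gsys_gl (G := SpecialLinearGroup (Fin n) k)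
    (m := fun g => g.1) hk hn (fun g h => rfl) (fun g => by rw [g.2, norm_one])
  have hfin : Finite (Subgroup.center (SpecialLinearGroup (Fin n) k)) := finite_ctr hn
  obtain ⟨inst⟩ := nonempty_fintype (Subgroup.center (SpecialLinearGroup (Fin n) k))
  obtain ⟨s, hsec⟩ : ∃ s : SpecialLinearGroup (Fin n) k ⧸
      Subgroup.center (SpecialLinearGroup (Fin n) k) → SpecialLinearGroup (Fin n) k,
      ∀ x, QuotientGroup.mk' (Subgroup.center (SpecialLinearGroup (Fin n) k)) (s x) = x :=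
    ⟨Quotient.out, fun x => QuotientGroup.out_eq' x⟩
  have hsys := (H387.Qt.gsys_quo hs (π := QuotientGroup.mk'
    (Subgroup.center (SpecialLinearGroup (Fin n) k))) (QuotientGroup.ker_mk' _) le_rfl s
      hsec).comap (phom hn q hq)
  -- the representative differs by a scalar
  have hrep : ∀ γ, ∃ z : k, (q γ).1 = z • (s (phom hn q hq γ)).1 := fun γ => by
    have h1 := hsec (phom hn q hq γ)
    have h2 : (QuotientGroup.mk (s (phom hn q hq γ)) : SpecialLinearGroup (Fin n) k ⧸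
      Subgroup.center (SpecialLinearGroup (Fin n) k)) = QuotientGroup.mk (q γ) := h1
    exact scal_of_mem _ _ (QuotientGroup.eq.1 h2)
  refine ⟨_, _, c, C, hc, hsys, fun R => ?_, fun γ => ?_⟩
  · obtain ⟨R', hR'⟩ := hw R
    refine ⟨R', fun γ hγ i j => ?_⟩
    obtain ⟨z, hz⟩ := hrep γ
    have h1 : w (s (phom hn q hq γ)) ≤ R := by
      refine le_trans ?_ hγ
      have := Finset.single_le_sum (f := fun z : Subgroup.center (SpecialLinearGroup (Fin n) k) =>
        w (s (phom hn q hq γ) * z)) (fun z _ => (hs.pos _).le)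
        (Finset.mem_univ (1 : Subgroup.center (SpecialLinearGroup (Fin n) k)))
      simpa using this
    rw [hz, Matrix.smul_apply, norm_smul, scal_norm hn _ _ hz, one_mul]
    exact hR' _ h1 i j
  · obtain ⟨z, hz⟩ := hrep γ
    rw [hz]
    exact bcart_smul (scal_ne hn _ _ hz) (hB _)

end ph

/-! ### Two large gaps -/

section bg

variable {Γ J : Type} [Group Γ] {gap : J → Γ → ℝ} {w : Γ → ℝ}

/-- The elements with two gaps larger than `r`. -/
def Bg (gap : J → Γ → ℝ) (r : ℝ) : Set Γ := {γ | ∃ i j : J, i ≠ j ∧ r < gap i γ ∧ r < gap j γ}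

theorem Bg_antitone (gap : J → Γ → ℝ) : Antitone (Bg gap) := by
  rintro r r' h γ ⟨i, j, hij, h1, h2⟩
  exact ⟨i, j, hij, h.trans_lt h1, h.trans_lt h2⟩

theorem Bg_trans (hs : GSys gap w) (γ : Γ) (r : ℝ) :
    ∃ r', ∀ g ∈ Bg gap r', γ⁻¹ * g ∈ Bg gap r := by
  obtain ⟨C, hC⟩ := hs.quasi γ⁻¹ 1
  refine ⟨r + C, ?_⟩
  rintro g ⟨i, j, hij, h1, h2⟩
  have a1 := hC i g
  have a2 := hC j g
  rw [mul_one] at a1 a2
  refine ⟨i, j, hij, ?_, ?_⟩
  · linarith [(abs_le.1 a1).1]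
  · linarith [(abs_le.1 a2).1]

end bg

/-! ### Finite families of homomorphisms modulo scalars -/

section fam

variable {Γ I : Type} [Group Γ] [Fintype I] [Nonempty I] {n : I → ℕ} {k : I → Type}
  [∀ i, NontriviallyNormedField (k i)] [∀ i, ProperSpace (k i)]

/-- **Gauges of a jointly proper family of homomorphisms modulo scalars.** `Bg gap` contains the
elements with `G1`, `G2` large for one of them, or for its inverse, and the elements which are
large for two of them. -/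
theorem gsys_fam (hk : ∀ i, LocK (k i)) (hn : ∀ i, 2 ≤ n i)
    (q : ∀ i, Γ → SpecialLinearGroup (Fin (n i)) (k i))
    (hq : ∀ i, ∀ γ γ', ∃ c : k i, (q i (γ * γ')).1 = c • (q i γ * q i γ').1)
    (disc : ∀ C : ℝ, {γ : Γ | ∀ i, nmx (q i γ).1 ≤ C}.Finite) :
    ∃ (gap : (Σ i, Fin (n i - 1)) → Γ → ℝ) (w : Γ → ℝ), GSys gap w ∧
      (∀ R : ℝ, {γ | w γ ≤ R}.Finite) ∧
      (∀ i (r : ℝ), ∃ r' : ℝ, ∀ γ, r' < G1 (q i γ).1 → r' < G2 (q i γ).1 → γ ∈ Bg gap r) ∧
      (∀ i (r : ℝ), ∃ r' : ℝ, ∀ γ, r' < G1 ((q i γ).1)⁻¹ → r' < G2 ((q i γ).1)⁻¹ →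
        γ ∈ Bg gap r) ∧
      ∀ i j, i ≠ j → ∀ r : ℝ, ∃ r' : ℝ, ∀ γ, r' < nmx (q i γ).1 → r' < nmx (q j γ).1 →
        γ ∈ Bg gap r := by
  have hn0 : ∀ i, 0 < n i := fun i => by have := hn i; omega
  choose gap w c C hc hs hw hB using fun i => gsys_ph (hk i) (hn0 i) (q i) (hq i)
  have two : ∀ i (r : ℝ), ∃ r' : ℝ, ∀ γ, (r' < G1 (q i γ).1 ∧ r' < G2 (q i γ).1) ∨
      (r' < G1 ((q i γ).1)⁻¹ ∧ r' < G2 ((q i γ).1)⁻¹) →
      γ ∈ Bg (fun (j : Σ i, Fin (n i - 1)) g => gap j.1 j.2 g) r := by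
    intro i r
    obtain ⟨r', hr'⟩ := two_gaps (k := k i) (hn i) (hc i) (C i) (r + 1)
    refine ⟨r', fun γ hγ => ?_⟩
    obtain ⟨a, b, hab, h1, h2⟩ := hr' (q i γ).1 (fun j => gap i j γ)
      (by rw [(q i γ).2, norm_one]) (hB i γ) hγ
    refine ⟨⟨i, a⟩, ⟨i, b⟩, fun h => hab ?_, ?_, ?_⟩
    · exact eq_of_heq (Sigma.mk.inj_iff.1 h).2
    · exact lt_of_lt_of_le (lt_add_one r) h1
    · exact lt_of_lt_of_le (lt_add_one r) h2
  have one : ∀ i (r : ℝ), ∃ r' : ℝ, ∀ γ, r' < nmx (q i γ).1 → ∃ a, r < gap i a γ := by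
    intro i r
    obtain ⟨R1, h1⟩ := (hs i).bdd r
    obtain ⟨R2, h2⟩ := hw i R1
    refine ⟨max R2 0, fun γ hγ => ?_⟩
    by_contra hc
    push Not at hc
    exact absurd (nmx_le (le_max_right _ _) fun a b => (h2 γ (h1 γ hc) a b).trans
      (le_max_left _ _)) (not_le.2 hγ)
  refine ⟨fun j g => gap j.1 j.2 g, _, GSys.pi hs,
    H515.fin_sum (fun i => (hs i).pos) fun R => ?_, fun i r => ?_, fun i r => ?_,
    fun i j hij r => ?_⟩
  · choose R' hR' using fun i => hw i R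
    refine (disc (∑ i, |R' i|)).subset fun γ hγ i => ?_
    refine nmx_le (Finset.sum_nonneg fun i _ => abs_nonneg _) fun a b => ?_
    exact ((hR' i γ (hγ i) a b).trans (le_abs_self _)).trans
      (Finset.single_le_sum (f := fun i => |R' i|) (fun i _ => abs_nonneg _) (Finset.mem_univ i))
  · obtain ⟨r', hr'⟩ := two i r
    exact ⟨r', fun γ h1 h2 => hr' γ (Or.inl ⟨h1, h2⟩)⟩
  · obtain ⟨r', hr'⟩ := two i r
    exact ⟨r', fun γ h1 h2 => hr' γ (Or.inr ⟨h1, h2⟩)⟩
  · obtain ⟨r1, h1⟩ := one i r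
    obtain ⟨r2, h2⟩ := one j r
    refine ⟨max r1 r2, fun γ a1 a2 => ?_⟩
    obtain ⟨a, ha⟩ := h1 γ ((le_max_left _ _).trans_lt a1)
    obtain ⟨b, hb⟩ := h2 γ ((le_max_right _ _).trans_lt a2)
    exact ⟨⟨i, a⟩, ⟨j, b⟩, fun h => hij (Sigma.mk.inj_iff.1 h).1, ha, hb⟩

end fam

end Vale.Agent.P092.H776.NG
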