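import Vale.Agent.P092.H776.NW0
import Vale.Agent.P092.H387.Qt2
import Vale.Agent.P092.H35.Spg
import Vale.Agent.P092.H739.PiChain
import Vale.Agent.P092.H789.Fr

/-!
P092 (helper776), Team N, [N-NRM], part 5: chains of a group `E` with finitely many commuting
homomorphisms `ι_i : SL_(n_i+1)(k_i) →* E` and homomorphisms `a_i : E →* PGL_(n_i+1)(k_i)` such that
`a_i ∘ ι_i` is the canonical map, with prescribed first direction `ι (bw w)` or its inverse.
-/

set_option linter.all false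

open Filter Topology Matrix Set

namespace Vale.Agent.P092.H776.NE

open Vale.Agent.P092.H701 Vale.Agent.P092.H541
open Vale.Agent.P092.RC (PG YY)
open Vale.Agent.P092.H35 (mkP sp)
open Vale.Agent.P092.H387.Qt (ScK pp_quo)

/-! ### Rows of `GL_n(k)` -/

section gl

variable {k : Type} [NontriviallyNormedField k] {n : ℕ}

theorem continuous_glrow (a : Fin n) : Continuous fun x : GL (Fin n) k => x.1 a := by
  have h : Continuous fun x : GL (Fin n) k => (x.1 : Matrix (Fin n) (Fin n) k) :=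
    Units.continuous_val
  exact continuous_pi fun j => h.matrix_elem a j

theorem glrow_pos (x : GL (Fin n) k) (a : Fin n) : 0 < ‖x.1 a‖ := by
  rw [norm_pos_iff]
  intro h
  have h1 : x.1.det = 0 := det_eq_zero_of_row_eq_zero a (fun j => congrFun h j)
  have h2 : IsUnit x.1.det := (Matrix.isUnit_iff_isUnit_det _).1 x.isUnit
  rw [h1] at h2
  exact not_isUnit_zero h2

/-- the row pair `(a, b)` of `GL_n(k)` -/
def glRow {a b : Fin n} (h : a ≠ b) : RowPair (GL (Fin n) k) k (Fin n → k) where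
  ρ₁ x := x.1 a
  ρ₂ x := x.1 b
  cont₁ := continuous_glrow a
  cont₂ := continuous_glrow b
  ne x := lt_max_of_lt_left (glrow_pos x a)
  up t := SpecialLinearGroup.toGL (elem h t)
  lo t := SpecialLinearGroup.toGL (elem h.symm t)
  cont_up := SpecialLinearGroup.continuous_toGL.comp (continuous_elem h)
  cont_lo := SpecialLinearGroup.continuous_toGL.comp (continuous_elem h.symm)
  up₁ t x := by
    funext c
    exact transvection_mul_apply_same a b c t x.1
  up₂ t x := by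
    funext c
    exact transvection_mul_apply_of_ne _ _ _ _ h.symm _ x.1
  lo₁ t x := by
    funext c
    exact transvection_mul_apply_of_ne _ _ _ _ h _ x.1
  lo₂ t x := by
    funext c
    exact transvection_mul_apply_same b a c t x.1

theorem sck_glRow {a b : Fin n} (h : a ≠ b) : ScK (glRow (k := k) h) (mkP k n) := by
  intro z hz
  obtain ⟨c, hc⟩ := H35.mkP_one_iff.1 hz
  refine ⟨c, fun h0 => ?_, fun x => ?_, fun x => ?_⟩
  · have h1 := glrow_pos z a
    rw [hc, h0, zero_smul] at h1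
    have h2 : (0 : Matrix (Fin n) (Fin n) k) a = 0 := rfl
    rw [h2, norm_zero] at h1
    exact lt_irrefl _ h1
  · change (x.1 * z.1) a = c • x.1 a
    rw [hc, Matrix.mul_smul, mul_one]
    rfl
  · change (x.1 * z.1) b = c • x.1 b
    rw [hc, Matrix.mul_smul, mul_one]
    rfl

theorem K_glRow {a b : Fin n} (h : a ≠ b) :
    mkP k n '' (glRow (k := k) h).K = sp k n '' (slRow (k := k) h).K := by
  rw [RowPair.K, RowPair.K, image_union, image_union, image_image, image_image, image_image,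
    image_image]
  rfl

theorem diag_row {δ : Fin n → k} (d : SpecialLinearGroup (Fin n) k) (hd : d.1 = diagonal δ)
    (N : ℕ) (i : Fin n) (x : GL (Fin n) k) :
    (SpecialLinearGroup.toGL (d ^ N) * x).1 i = δ i ^ N • x.1 i := by
  have h1 : (SpecialLinearGroup.toGL (d ^ N) * x).1 = diagonal (fun i => δ i ^ N) * x.1 := by
    change (d ^ N).1 * x.1 = _
    rw [Matrix.SpecialLinearGroup.coe_pow, hd, Matrix.diagonal_pow]
    rfl
  rw [h1]
  funext j
  rw [diagonal_mul]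
  rfl

end gl

/-! ### Chains of one factor, with ping-pong in the adjoint group -/

/-- A chain of `SL_n(k)` with ping-pong in `PGL_n(k)`. -/
structure FCh (k : Type) [NontriviallyNormedField k] (n m : ℕ) where
  b : Fin m → ℕ → SpecialLinearGroup (Fin n) k
  K : Fin m → Set (SpecialLinearGroup (Fin n) k)
  compact : ∀ j, IsCompact (K j)
  comm : ∀ i j N M, Commute (b i N) (b j M)
  comm_K : ∀ i j, i < j → ∀ N, ∀ x ∈ K j, Commute (b i N) x
  pp : ∀ (j : Fin m) (p : ℕ), ∃ N₀, ∀ N, N₀ ≤ N →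
    ∃ (κ κ' : Fin p → SpecialLinearGroup (Fin n) k) (Bm Bp : Fin p → Set (PG k n)),
      (∀ l, κ l ∈ K j) ∧ (∀ l, κ' l ∈ K j) ∧
      (∀ l, @MeasurableSet _ (borel (PG k n)) (Bm l)) ∧ (∀ l, @MeasurableSet _ (borel (PG k n)) (Bp l)) ∧
      (∀ l l', l ≠ l' → Disjoint (Bm l) (Bm l')) ∧
      (∀ l l', l ≠ l' → Disjoint (Bp l) (Bp l')) ∧
      ∀ l x, x ∉ Bm l → sp k n (κ l * b j N * κ' l) * x ∈ Bp l

section fch

variable {k : Type} [NontriviallyNormedField k] {n : ℕ}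

/-- ping-pong in the adjoint group for the powers of a diagonal matrix -/
theorem pp_diag {a b : Fin n} (h : a ≠ b) (d : SpecialLinearGroup (Fin n) k) {δ : Fin n → k}
    (hd : d.1 = diagonal δ) (h0 : δ a ≠ 0)
    (hlim : ∀ C : ℝ, ∃ N₀, ∀ N : ℕ, N₀ ≤ N → C * ‖δ b ^ N‖ ≤ ‖δ a ^ N‖) (p : ℕ) :
    ∃ N₀, ∀ N, N₀ ≤ N →
    ∃ (κ κ' : Fin p → SpecialLinearGroup (Fin n) k) (Bm Bp : Fin p → Set (PG k n)),
      (∀ l, κ l ∈ (slRow (k := k) h).K) ∧ (∀ l, κ' l ∈ (slRow (k := k) h).K) ∧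
      (∀ l, @MeasurableSet _ (borel (PG k n)) (Bm l)) ∧ (∀ l, @MeasurableSet _ (borel (PG k n)) (Bp l)) ∧
      (∀ l l', l ≠ l' → Disjoint (Bm l) (Bm l')) ∧
      (∀ l l', l ≠ l' → Disjoint (Bp l) (Bp l')) ∧
      ∀ l x, x ∉ Bm l → sp k n (κ l * d ^ N * κ' l) * x ∈ Bp l := by
  letI : MeasurableSpace (PG k n) := borel _
  haveI : BorelSpace (PG k n) := ⟨rfl⟩
  obtain ⟨N₀, hN⟩ := pp_quo (π := mkP k n) (sck_glRow (k := k) h)
    (QuotientGroup.isQuotientMap_mk _)
    (fun N => SpecialLinearGroup.toGL (d ^ N)) (fun N => δ a ^ N) (fun N => δ b ^ N)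
    (fun N x => diag_row d hd N a x) (fun N x => diag_row d hd N b x)
    (fun N => pow_ne_zero _ h0) hlim p
  refine ⟨N₀, fun N hN' => ?_⟩
  obtain ⟨κ, κ', Bm, Bp, h1, h2, h3, h4, h5, h6, h7⟩ := hN N hN'
  rw [K_glRow] at h1 h2
  choose s hs1 hs2 using h1
  choose s' hs1' hs2' using h2
  refine ⟨s, s', Bm, Bp, hs1, hs1', h3, h4, h5, h6, fun l x hx => ?_⟩
  have := h7 l x hx
  rw [← hs2, ← hs2'] at this
  rw [map_mul, map_mul]
  exact this

variable [ProperSpace k]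

/-- The chain with first direction `tor 0`. -/
noncomputable def fch (n : ℕ) {w : k} (hw1 : 1 < ‖w‖) (hw : w ≠ 0) : FCh k (n + 1) n :=
  letI : MeasurableSpace (SpecialLinearGroup (Fin (n + 1)) k) := borel _
  haveI : BorelSpace (SpecialLinearGroup (Fin (n + 1)) k) := ⟨rfl⟩
  { b := (NW.chW n hw1 hw).b
    K := (NW.chW n hw1 hw).K
    compact := (NW.chW n hw1 hw).compact
    comm := fun i j N M => (tor_comm n hw i.castSucc j.castSucc).pow_pow N M
    comm_K := fun i j hij N x hx => (NW.chW n hw1 hw).comm_K i j hij N x hx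
    pp := fun j p => by
      refine pp_diag (Fin.castSucc_lt_succ (i := j)).ne (tor n hw j.castSucc) (δ := dg n w j.castSucc)
        rfl ?_ ?_ p
      · rw [dg_self]
        exact pow_ne_zero _ hw
      · intro C
        obtain ⟨N₀, hN₀⟩ := pow_unbounded_of_one_lt C hw1
        refine ⟨N₀, fun N hN => ?_⟩
        rw [dg_self, dg_gt n w (Fin.castSucc_lt_succ (i := j)), norm_pow, norm_pow, norm_pow,
          norm_inv, Fin.val_castSucc]
        have h1 : C ≤ ‖w‖ ^ N := hN₀.le.trans (pow_le_pow_right₀ hw1.le hN)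
        have h2 : ‖w‖⁻¹ ^ N ≤ 1 := pow_le_one₀ (by positivity) (inv_le_one_of_one_le₀ hw1.le)
        have h3 : (‖w‖ ^ N) ≤ (‖w‖ ^ (n - (j : ℕ))) ^ N := by
          apply pow_le_pow_left₀ (by positivity)
          exact le_self_pow₀ hw1.le (by have := j.2; omega)
        have h4 : (0 : ℝ) ≤ ‖w‖⁻¹ ^ N := by positivity
        have h5 : (0 : ℝ) ≤ ‖w‖ ^ N := by positivity
        calc C * ‖w‖⁻¹ ^ N ≤ ‖w‖ ^ N * ‖w‖⁻¹ ^ N := mul_le_mul_of_nonneg_right h1 h4
          _ ≤ ‖w‖ ^ N * 1 := mul_le_mul_of_nonneg_left h2 h5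
          _ ≤ _ := by rw [mul_one]; exact h3 }

theorem fch_b (n : ℕ) {w : k} (hw1 : 1 < ‖w‖) (hw : w ≠ 0) (j : Fin n) (N : ℕ) :
    (fch n hw1 hw).b j N = tor n hw j.castSucc ^ N := rfl

theorem tor_inv_coe (n : ℕ) {w : k} (hw : w ≠ 0) (j : Fin (n + 1)) :
    ((tor n hw j)⁻¹).1 = diagonal fun i => (dg n w j i)⁻¹ := by
  have hne : ∀ i, dg n w j i ≠ 0 := fun i => by
    have h1 := prod_dg n hw j
    intro h0
    rw [Finset.prod_eq_zero (Finset.mem_univ i) h0] at h1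
    exact zero_ne_one h1
  have h1 : (tor n hw j).1 * (diagonal fun i => (dg n w j i)⁻¹) = 1 := by
    change diagonal (dg n w j) * _ = _
    rw [diagonal_mul_diagonal, ← diagonal_one]
    congr 1
    funext i
    exact mul_inv_cancel₀ (hne i)
  have h2 : ((tor n hw j)⁻¹).1 * (tor n hw j).1 = 1 := by
    have := congrArg Subtype.val (inv_mul_cancel (tor n hw j))
    rwa [Matrix.SpecialLinearGroup.coe_mul] at this
  calc ((tor n hw j)⁻¹).1 = ((tor n hw j)⁻¹).1 * ((tor n hw j).1 *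
        (diagonal fun i => (dg n w j i)⁻¹)) := by rw [h1, mul_one]
    _ = _ := by rw [← mul_assoc, h2, one_mul]

/-- The chain with first direction `(tor 0)⁻¹`. -/
noncomputable def fchInv (n : ℕ) {w : k} (hw1 : 1 < ‖w‖) (hw : w ≠ 0) : FCh k (n + 1) n :=
  letI : MeasurableSpace (SpecialLinearGroup (Fin (n + 1)) k) := borel _
  haveI : BorelSpace (SpecialLinearGroup (Fin (n + 1)) k) := ⟨rfl⟩
  { b := (NW.chWInv n hw1 hw).b
    K := (NW.chWInv n hw1 hw).K
    compact := (NW.chWInv n hw1 hw).compact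
    comm := fun i j N M => by
      have h := tor_comm n hw i.castSucc j.castSucc
      change Commute (if (i : ℕ) = 0 then (tor n hw i.castSucc)⁻¹ ^ N else tor n hw i.castSucc ^ N)
        (if (j : ℕ) = 0 then (tor n hw j.castSucc)⁻¹ ^ M else tor n hw j.castSucc ^ M)
      split_ifs
      · exact (h.inv_inv).pow_pow N M
      · exact (h.inv_left).pow_pow N M
      · exact (h.inv_right).pow_pow N M
      · exact h.pow_pow N M
    comm_K := fun i j hij N x hx => (NW.chWInv n hw1 hw).comm_K i j hij N x hx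
    pp := fun j p => by
      change ∃ N₀, ∀ N, N₀ ≤ N →
        ∃ (κ κ' : Fin p → SpecialLinearGroup (Fin (n + 1)) k)
          (Bm Bp : Fin p → Set (PG k (n + 1))),
          (∀ l, κ l ∈ (if (j : ℕ) = 0 then
            (slRow (k := k) (Fin.castSucc_lt_succ (i := j)).ne').K
            else (slRow (k := k) (Fin.castSucc_lt_succ (i := j)).ne).K)) ∧
          (∀ l, κ' l ∈ (if (j : ℕ) = 0 then
            (slRow (k := k) (Fin.castSucc_lt_succ (i := j)).ne').K
            else (slRow (k := k) (Fin.castSucc_lt_succ (i := j)).ne).K)) ∧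
          (∀ l, @MeasurableSet _ (borel (PG k (n + 1))) (Bm l)) ∧
          (∀ l, @MeasurableSet _ (borel (PG k (n + 1))) (Bp l)) ∧
          (∀ l l', l ≠ l' → Disjoint (Bm l) (Bm l')) ∧
          (∀ l l', l ≠ l' → Disjoint (Bp l) (Bp l')) ∧
          ∀ l x, x ∉ Bm l → sp k (n + 1) (κ l * (if (j : ℕ) = 0 then (tor n hw j.castSucc)⁻¹ ^ N
            else tor n hw j.castSucc ^ N) * κ' l) * x ∈ Bp l
      by_cases hj : (j : ℕ) = 0
      · simp only [if_pos hj]
        refine pp_diag (Fin.castSucc_lt_succ (i := j)).ne' (tor n hw j.castSucc)⁻¹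
          (tor_inv_coe n hw _) ?_ ?_ p
        · rw [dg_gt n w (Fin.castSucc_lt_succ (i := j)), inv_inv]
          exact hw
        · intro C
          obtain ⟨N₀, hN₀⟩ := pow_unbounded_of_one_lt C hw1
          refine ⟨N₀, fun N hN => ?_⟩
          rw [dg_self, dg_gt n w (Fin.castSucc_lt_succ (i := j)), inv_inv, norm_pow, norm_pow,
            norm_inv, norm_pow, Fin.val_castSucc]
          have h1 : C ≤ ‖w‖ ^ N := hN₀.le.trans (pow_le_pow_right₀ hw1.le hN)
          have h2 : ((‖w‖ ^ (n - (j : ℕ)))⁻¹) ^ N ≤ 1 := by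
            refine pow_le_one₀ (by positivity) (inv_le_one_of_one_le₀ ?_)
            exact one_le_pow₀ hw1.le
          have h3 : (0 : ℝ) ≤ ((‖w‖ ^ (n - (j : ℕ)))⁻¹) ^ N := by positivity
          have h4 : (0 : ℝ) ≤ ‖w‖ ^ N := by positivity
          calc C * ((‖w‖ ^ (n - (j : ℕ)))⁻¹) ^ N ≤ ‖w‖ ^ N * ((‖w‖ ^ (n - (j : ℕ)))⁻¹) ^ N :=
                mul_le_mul_of_nonneg_right h1 h3
            _ ≤ ‖w‖ ^ N * 1 := mul_le_mul_of_nonneg_left h2 h4
            _ = _ := mul_one _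
      · simp only [if_neg hj]
        exact (fch n hw1 hw).pp j p }

theorem fchInv_b (n : ℕ) {w : k} (hw1 : 1 < ‖w‖) (hw : w ≠ 0) (hn : 0 < n) (N : ℕ) :
    (fchInv n hw1 hw).b ⟨0, hn⟩ N = (tor n hw 0)⁻¹ ^ N := by
  letI : MeasurableSpace (SpecialLinearGroup (Fin (n + 1)) k) := borel _
  haveI : BorelSpace (SpecialLinearGroup (Fin (n + 1)) k) := ⟨rfl⟩
  exact NW.chWInv_b n hw1 hw hn N

end fch

/-! ### Chains of `E` -/

section che

variable {I : Type} [Fintype I] [DecidableEq I] {k : I → Type}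
  [∀ i, NontriviallyNormedField (k i)] {n m : I → ℕ} {E : Type} [Group E]
  [TopologicalSpace E] [MeasurableSpace E] [BorelSpace E]

/-- faithfulness of the action on the points -/
theorem eq_sp {k : Type} [NontriviallyNormedField k] {n : ℕ}
    {ι : SpecialLinearGroup (Fin (n + 1)) k →* E} {a : E →* PG k (n + 1)}
    (hcomp : ∀ g (x : YY k n), a (ι g) • x = g • x) (g : SpecialLinearGroup (Fin (n + 1)) k) :
    a (ι g) = sp k (n + 1) g := by
  apply H789.cmap_injective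
  funext i
  rw [H789.cmap_apply, H789.cmap_apply, hcomp]
  rfl

/-- The chain of `E`. -/
noncomputable def chE (ι : ∀ i, SpecialLinearGroup (Fin (n i)) (k i) →* E)
    (a : ∀ i, E →* PG (k i) (n i)) (hι : ∀ i, Continuous (ι i)) (ha : ∀ i, Continuous (a i))
    (hcomp : ∀ i g, a i (ι i g) = sp (k i) (n i) g)
    (hcomm : ∀ i j, i ≠ j → ∀ g h, Commute (ι i g) (ι j h)) (C : ∀ i, FCh (k i) (n i) (m i))
    {r : ℕ} (e : Fin r → Σ i, Fin (m i)) (he : Function.Injective e)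
    (hmono : ∀ a b, a < b → ∀ (i : I) (u v : Fin (m i)), e a = ⟨i, u⟩ → e b = ⟨i, v⟩ → u < v) :
    HChain E r where
  b x N := ι (e x).1 ((C (e x).1).b (e x).2 N)
  K x := ι (e x).1 '' (C (e x).1).K (e x).2
  compact x := ((C (e x).1).compact (e x).2).image (hι _)
  comm_b x y hxy N M := by
    obtain ⟨i, u, hu⟩ : ∃ i u, e x = ⟨i, u⟩ := ⟨_, _, rfl⟩
    obtain ⟨j, v, hv⟩ : ∃ i u, e y = ⟨i, u⟩ := ⟨_, _, rfl⟩
    rw [hu, hv]
    change Commute (ι i ((C i).b u N)) (ι j ((C j).b v M))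
    by_cases h : i = j
    · subst h
      exact ((C i).comm u v N M).map (ι i)
    · exact hcomm i j h _ _
  comm_K x y hxy N z hz := by
    obtain ⟨i, u, hu⟩ : ∃ i u, e x = ⟨i, u⟩ := ⟨_, _, rfl⟩
    obtain ⟨j, v, hv⟩ : ∃ i u, e y = ⟨i, u⟩ := ⟨_, _, rfl⟩
    rw [hv] at hz
    rw [hu]
    obtain ⟨s, hs, rfl⟩ := hz
    change Commute (ι i ((C i).b u N)) (ι j s)
    by_cases h : i = j
    · subst h
      exact ((C i).comm_K u v (hmono x y hxy i u v hu hv) N s hs).map (ι i)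
    · exact hcomm i j h _ _
  pp x p := by
    obtain ⟨i, u, hu⟩ : ∃ i u, e x = ⟨i, u⟩ := ⟨_, _, rfl⟩
    rw [hu]
    letI : MeasurableSpace (PG (k i) (n i)) := borel _
    haveI : BorelSpace (PG (k i) (n i)) := ⟨rfl⟩
    obtain ⟨N₀, hN⟩ := (C i).pp u p
    refine ⟨N₀, fun N hN' => ?_⟩
    obtain ⟨κ, κ', Bm, Bp, h1, h2, h3, h4, h5, h6, h7⟩ := hN N hN'
    refine ⟨fun l => ι i (κ l), fun l => ι i (κ' l), fun l => a i ⁻¹' Bm l,
      fun l => a i ⁻¹' Bp l, fun l => ⟨_, h1 l, rfl⟩, fun l => ⟨_, h2 l, rfl⟩,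
      fun l => (ha i).measurable (h3 l), fun l => (ha i).measurable (h4 l),
      fun l l' hl => (h5 l l' hl).preimage _, fun l l' hl => (h6 l l' hl).preimage _,
      fun l z hz => ?_⟩
    change a i (ι i (κ l) * ι i ((C i).b u N) * ι i (κ' l) * z) ∈ Bp l
    rw [← map_mul, ← map_mul, map_mul, hcomp]
    exact h7 l (a i z) hz

variable [∀ i, ProperSpace (k i)]

/-- **The chains of `E`**, with the first direction in the factor `i₀`; the directions are the
fundamental coweights of the factors, in the second chain the first one is inverted. -/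
theorem exists_chE {n : I → ℕ} (hn : ∀ i, 0 < n i)
    (ι : ∀ i, SpecialLinearGroup (Fin (n i + 1)) (k i) →* E)
    (a : ∀ i, E →* PG (k i) (n i + 1)) (hι : ∀ i, Continuous (ι i)) (ha : ∀ i, Continuous (a i))
    (hcomp : ∀ i g (x : YY (k i) (n i)), a i (ι i g) • x = g • x)
    (hcomm : ∀ i j, i ≠ j → ∀ g h, Commute (ι i g) (ι j h)) (w : ∀ i, k i)
    (hw1 : ∀ i, 1 < ‖w i‖) (hw : ∀ i, w i ≠ 0) (i₀ : I) :
    ∃ e : Fin (∑ i, n i) ≃ Σ i, Fin (n i), (∀ h, e ⟨0, h⟩ = ⟨i₀, ⟨0, hn i₀⟩⟩) ∧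
      (∃ C : HChain E (∑ i, n i), ∀ x N,
        C.b x N = ι (e x).1 (tor (n (e x).1) (hw (e x).1) (e x).2.castSucc) ^ N) ∧
      ∃ C : HChain E (∑ i, n i), (∀ h N, C.b ⟨0, h⟩ N = (ι i₀ (tor (n i₀) (hw i₀) 0))⁻¹ ^ N) ∧
        ∀ x N, C.b x N = ι (e x).1 (tor (n (e x).1) (hw (e x).1) (e x).2.castSucc) ^ N ∨
          C.b x N = (ι (e x).1 (tor (n (e x).1) (hw (e x).1) (e x).2.castSucc))⁻¹ ^ N := by
  classical
  have hcomp' : ∀ i g, a i (ι i g) = sp (k i) (n i + 1) g := fun i g => eq_sp (hcomp i) g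
  obtain ⟨e, he1, he2⟩ := H739.exists_enum ({i₀} : Finset I) hn
  have h0 : ∀ h : 0 < ∑ i, n i, e ⟨0, h⟩ = ⟨i₀, ⟨0, hn i₀⟩⟩ := by
    intro h
    have h1 := (he2 ⟨0, h⟩).1 (by simp)
    obtain ⟨i, u, hu⟩ : ∃ i u, e ⟨0, h⟩ = ⟨i, u⟩ := ⟨_, _, rfl⟩
    rw [hu] at h1 ⊢
    obtain ⟨h2, h3⟩ := h1
    have h4 : i = i₀ := by simpa using h2
    subst h4
    have h5 : u = ⟨0, hn i⟩ := Fin.ext h3
    rw [h5]
  obtain ⟨C, hC, hC'⟩ : ∃ C : ∀ i, FCh (k i) (n i + 1) (n i),
      (C i₀ = fchInv (n i₀) (hw1 i₀) (hw i₀)) ∧ ∀ i, i ≠ i₀ → C i = fch (n i) (hw1 i) (hw i) :=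
    ⟨Function.update (fun i => fch (n i) (hw1 i) (hw i)) i₀ (fchInv (n i₀) (hw1 i₀) (hw i₀)),
      by simp, fun i hi => by simp [hi]⟩
  refine ⟨e, h0, ⟨chE ι a hι ha hcomp' hcomm (fun i => fch (n i) (hw1 i) (hw i)) e e.injective he1,
    fun x N => ?_⟩, chE ι a hι ha hcomp' hcomm C e e.injective he1, fun h N => ?_, fun x N => ?_⟩
  · change ι (e x).1 ((fch (n (e x).1) (hw1 (e x).1) (hw (e x).1)).b (e x).2 N) = _
    rw [fch_b, map_pow]
  · change ι (e ⟨0, h⟩).1 ((C (e ⟨0, h⟩).1).b (e ⟨0, h⟩).2 N) = _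
    rw [h0 h, hC, fchInv_b, map_pow, map_inv]
  · change ι (e x).1 ((C (e x).1).b (e x).2 N) = _ ∨ ι (e x).1 ((C (e x).1).b (e x).2 N) = _
    obtain ⟨i, u, hu⟩ : ∃ i u, e x = ⟨i, u⟩ := ⟨_, _, rfl⟩
    rw [hu]
    by_cases hi : i = i₀
    · subst hi
      rw [hC]
      have h1 : (fchInv (n i) (hw1 i) (hw i)).b u N = if (u : ℕ) = 0 then
          (tor (n i) (hw i) u.castSucc)⁻¹ ^ N else tor (n i) (hw i) u.castSucc ^ N := rfl
      rw [h1]
      by_cases hu0 : (u : ℕ) = 0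
      · right
        rw [if_pos hu0, map_pow, map_inv]
      · left
        rw [if_neg hu0, map_pow]
    · left
      rw [hC' i hi, fch_b, map_pow]

end che

end Vale.Agent.P092.H776.NE
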