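import Vale.Agent.P092.H776.NG4
import Vale.Agent.P092.H776.NG5
import Vale.Agent.P092.H805.RowN
import Vale.Agent.P092.H337.NGg
import Vale.Agent.P092.SN.Defs

/-!
P092 (helper776), Team N, [N-NRM], part 6: **`nrm` of the engine for every source group `E` with
finitely many commuting factors `SL_(n_i+1)(k_i)`**, in the frame picture, for all jointly proper
targets `q_j : Γ → SL_(n'_j+1)(k'_j)` modulo scalars with `∑ n'_j ≤ ∑ n_i`.
-/

set_option linter.all false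

open scoped InnerProductSpace ENNReal
open Matrix Filter Topology MeasureTheory ContinuousLinearMap

namespace Vale.Agent.P092.H776.NG

open Vale.Agent.P092.H761 (SharpData GChain big mem_big Geo Gaps CovFam)
open Vale.Agent.P092.H515 (GSys start2)
open Vale.Agent.P092.H538 (ind ind_pos ind_neg ind_nonneg abs_ind_le)
open Vale.Agent.P092.H160 Vale.Agent.P092.H432 Vale.Agent.P092.H132
open Vale.Agent.P092.H701 (HChain tor dg)
open Vale.Agent.P092.H933 (LocK)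

/-! ### The abstract form, any finite set of gaps -/

section abs

variable {Γ 𝔾 : Type} [Group Γ] [DecidableEq Γ] [Group 𝔾] {t : ℝ}
  {mass : 𝔾 → (Γ → ℝ) → ℝ} {Cpt : Set 𝔾 → Prop} {Ping : (p : ℕ) → (Fin p → 𝔾) → Prop}
  {m : ℕ} {b : Fin m → ℕ → 𝔾} {𝒦 : Fin m → Set 𝔾} {J : Type} [Fintype J]

theorem nw_gsysJ (h : SharpData t mass Cpt Ping) (hch : GChain Cpt Ping m b 𝒦) (hm : 0 < m)
    (hJ : Fintype.card J ≤ m) {gap : J → Γ → ℝ} {w : Γ → ℝ} (hs : GSys gap w)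
    (hfin : ∀ R : ℝ, {g | w g ≤ R}.Finite) {ε : ℝ} (hε : 0 < ε) :
    ∃ R : ℝ, ∀ N, mass (b ⟨0, hm⟩ N) (ind fun g => g ∈ Bg gap R) ≤ ε := by
  classical
  obtain ⟨cl, -⟩ : ∃ cl : J ≃ Fin (Fintype.card J), True := ⟨Fintype.equivFin J, trivial⟩
  have hg := hs.gaps hfin (fun j : J => cl j)
    (fun R => ⟨R, fun i j hij g hg => by rw [← cl.injective hij]; exact hg⟩)
  obtain ⟨R, hR⟩ := start2 h hg (fun θ _ _ => hs.geo' hfin θ) hch hJ hm hε
  refine ⟨R, fun N => (h.ind_mono _ ?_).trans (hR N)⟩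
  rintro g ⟨i, j, hij, h1, h2⟩
  exact Finset.one_lt_card.2 ⟨cl i, mem_big.2 ⟨_, rfl, h1.le⟩, cl j, mem_big.2 ⟨_, rfl, h2.le⟩,
    fun h => hij (cl.injective h)⟩

end abs

/-! ### `nrm`, any source -/

section nrm

variable {E : Type} [Group E] [TopologicalSpace E] [IsTopologicalGroup E] [LocallyCompactSpace E]
  [SecondCountableTopology E] [T2Space E] [MeasurableSpace E] [BorelSpace E]
  (Λ : Subgroup E) [DiscreteTopology Λ] [MeasurableSpace (E ⧸ Λ)] [BorelSpace (E ⧸ Λ)]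
  (ν : Measure (E ⧸ Λ)) [IsProbabilityMeasure ν] (hν : ∀ g : E, ν.map (fun x => g • x) = ν)
  {Γ Q ι : Type} [Group Γ] [Countable Γ] [Group Q] [Countable Q] [Fintype ι] {t : ℝ}
  {R : Λ → (Ell2 ((Γ × Q) × ι) →L[ℂ] Ell2 ((Γ × Q) × ι))}
  {E0 : Set Λ → (Ell2 ((Γ × Q) × ι) →L[ℂ] Ell2 ((Γ × Q) × ι))}
  {J : Type} [Fintype J] {gap : J → Γ → ℝ} {w : Γ → ℝ} {m : ℕ}

/-- `nrm` along all directions of chains: first directions. -/
theorem nrm_chainJ (hR : ARep t R) (hE : CovFam R E0)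
    (hq : ∀ A (q : Q), E0 A * lx ((1 : Γ), q) = lx ((1 : Γ), q) * E0 A)
    (Ch : HChain E m) (hm : 0 < m) (hJ : Fintype.card J ≤ m) (hs : GSys gap w)
    (hfin : ∀ R : ℝ, {g | w g ≤ R}.Finite) {ε : ℝ} (hε : 0 < ε) :
    ∃ r : ℝ, ∀ N,
      massX (H538.fst (H790.baseL (H85.cdat ν hν).μ (Γ × Q) ι)) (H790.Ri (H85.cdat ν hν) R)
        (Ch.b ⟨0, hm⟩ N) (ind fun γ => γ ∈ Bg gap r) ≤ ε := by
  classical
  have hd := H761.sharpCoef Λ ν hν hR hE hq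
  obtain ⟨r, hr⟩ := nw_gsysJ hd (H261.gchain_of_hchain Ch) hm hJ hs hfin hε
  exact ⟨r, fun N => hr N⟩

theorem nrm_zpowersJ (hR : ARep t R) (hE : CovFam R E0)
    (hq : ∀ A (q : Q), E0 A * lx ((1 : Γ), q) = lx ((1 : Γ), q) * E0 A)
    (Ch Ch' : HChain E m) (hm : 0 < m) {b : E}
    (hC : ∀ N, Ch.b ⟨0, hm⟩ N = b ^ N) (hC' : ∀ N, Ch'.b ⟨0, hm⟩ N = b⁻¹ ^ N)
    (hJ : Fintype.card J ≤ m) (hs : GSys gap w)
    (hfin : ∀ R : ℝ, {g | w g ≤ R}.Finite) {ε : ℝ} (hε : 0 < ε) :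
    ∃ r : ℝ, ∀ u ∈ Subgroup.zpowers b,
      massX (H538.fst (H790.baseL (H85.cdat ν hν).μ (Γ × Q) ι)) (H790.Ri (H85.cdat ν hν) R)
        u (ind fun γ => γ ∈ Bg gap r) ≤ ε := by
  classical
  have hd := H761.sharpCoef Λ ν hν hR hE hq
  obtain ⟨r, hr⟩ := nrm_chainJ Λ ν hν hR hE hq Ch hm hJ hs hfin hε
  obtain ⟨r', hr'⟩ := nrm_chainJ Λ ν hν hR hE hq Ch' hm hJ hs hfin hε
  have mono : ∀ (r₁ r₂ : ℝ) (u : E), r₁ ≤ r₂ →
      massX (H538.fst (H790.baseL (H85.cdat ν hν).μ (Γ × Q) ι)) (H790.Ri (H85.cdat ν hν) R)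
        u (ind fun γ => γ ∈ Bg gap r₂) ≤
      massX (H538.fst (H790.baseL (H85.cdat ν hν).μ (Γ × Q) ι)) (H790.Ri (H85.cdat ν hν) R)
        u (ind fun γ => γ ∈ Bg gap r₁) := fun r₁ r₂ u h =>
    hd.ind_mono u (P := fun γ => γ ∈ Bg gap r₂)
      (Q := fun γ => γ ∈ Bg gap r₁) fun γ hγ => Bg_antitone gap h hγ
  refine ⟨max r r', ?_⟩
  rintro _ ⟨z, rfl⟩
  obtain ⟨N, rfl | rfl⟩ := z.eq_nat_or_neg
  · have h0 := hr N
    rw [hC] at h0
    have h1 := (mono _ _ (b ^ N) (le_max_left r r')).trans h0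
    simpa using h1
  · have h0 := hr' N
    rw [hC'] at h0
    have h1 := (mono _ _ (b⁻¹ ^ N) (le_max_right r r')).trans h0
    simpa using h1

end nrm

/-! ### The letters of `H337.NG` -/

section bridge

variable {k : Type} [NontriviallyNormedField k] {n : ℕ}

theorem mn2_eq (A : Matrix (Fin n) (Fin n) k) : mn2 A = H337.NG.m2 A := by
  have h : (fun i i' j j' => mi A i i' j j' : Fin n → Fin n → Fin n → Fin n → k) =
      fun i i' j j' => H337.NG.mi A i i' j j' := by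
    funext i i' j j'
    change A i j * A i' j' - A i j' * A i' j = A i j * A i' j' - A i' j * A i j'
    ring
  rw [mn2, h]
  rfl

theorem G1_eq (g : SpecialLinearGroup (Fin n) k) : H337.NG.G1 g = G1 g.1 := by
  rw [G1, mn2_eq]
  rfl

theorem G2_eq (g : SpecialLinearGroup (Fin n) k) : H337.NG.G2 g = G2 g.1 := by
  have h : H337.NG.G2 g = ((n : ℝ) - 1) * Real.log (nmx (g⁻¹).1) - Real.log (nmx g.1) := rfl
  rw [h, coe_inv_eq, G2]

theorem G1_inv_eq (g : SpecialLinearGroup (Fin n) k) : H337.NG.G1 g⁻¹ = G1 (g.1)⁻¹ := by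
  rw [G1_eq, coe_inv_eq]

theorem G2_inv_eq (g : SpecialLinearGroup (Fin n) k) : H337.NG.G2 g⁻¹ = G2 (g.1)⁻¹ := by
  rw [G2_eq, coe_inv_eq]

end bridge

/-! ### The final form -/

section fin

open Vale.Agent.P092.RC (GG PG YY ct)
open Vale.Agent.P092.RC (VR arep_VR VR_one KK pic lam₁ lam₂ XX Om Pic)
open Vale.Agent.P092.SR

/-- The wall element of `SN.Defs` is the one of the chain. -/
theorem bw_eq_tor {k : Type} [NontriviallyNormedField k] {N : ℕ} (w : kˣ) :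
    (SN.bw w : GG k N) = tor N (k := k) (w := ((w⁻¹ : kˣ) : k)) (Units.ne_zero _) 0 := by
  apply Subtype.ext
  change Matrix.diagonal _ = Matrix.diagonal _
  congr 1
  funext i
  by_cases hi : i = 0
  · subst hi
    simp [dg]
  · have h1 : (0 : Fin (N + 1)) < i := Fin.pos_of_ne_zero hi
    simp [dg, hi, h1]

variable {I : Type} [Fintype I] [DecidableEq I] {k : I → Type}
  [∀ i, NontriviallyNormedField (k i)] [∀ i, ProperSpace (k i)] {N : I → ℕ}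
  {E : Type} [Group E] [TopologicalSpace E] [IsTopologicalGroup E] [LocallyCompactSpace E]
  [SecondCountableTopology E] [T2Space E] [MeasurableSpace E] [BorelSpace E]
  {Γ : Subgroup E} [DiscreteTopology Γ] [Countable Γ] [MeasurableSpace (E ⧸ Γ)]
  [BorelSpace (E ⧸ Γ)] {ν : Measure (E ⧸ Γ)} [IsProbabilityMeasure ν]
  (hν : ∀ g : E, ν.map (fun x => g • x) = ν)
  {Λ : Type} [Group Λ] [Countable Λ] {α : Γ →* (Ell2 Λ →L[ℂ] Ell2 Λ)} (hα : Frame α)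

/-- **[N-NRM]** One regular set for all factors of the source and of the target. -/
theorem exists_regular (hN : ∀ i, 0 < N i) (ι : ∀ i, GG (k i) (N i) →* E)
    (a : ∀ i, E →* PG (k i) (N i + 1)) (hι : ∀ i, Continuous (ι i)) (ha : ∀ i, Continuous (a i))
    (hcomp : ∀ i g (x : YY (k i) (N i)), a i (ι i g) • x = g • x)
    (hcomm : ∀ i j, i ≠ j → ∀ g h, Commute (ι i g) (ι j h)) (w : ∀ i, (k i)ˣ)
    (hw : ∀ i, ‖(w i : k i)‖ < 1)
    {I' : Type} [Fintype I'] [Nonempty I'] {k' : I' → Type}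
    [∀ j, NontriviallyNormedField (k' j)] [∀ j, ProperSpace (k' j)] {N' : I' → ℕ}
    (hk' : ∀ j, LocK (k' j)) (hN' : ∀ j, 0 < N' j) (hNN : ∑ j, N' j ≤ ∑ i, N i)
    (q : ∀ j, Γ → GG (k' j) (N' j)) (hq : ∀ j, SN.PH (q j))
    (disc : ∀ C : ℝ, {γ : Γ | ∀ j, SN.nm (q j γ) ≤ C}.Finite) :
    ∃ Br : ℝ → Set Γ, Antitone Br ∧
      (∀ (γ : Γ) (r : ℝ), ∃ r', ∀ g ∈ Br r', γ⁻¹ * g ∈ Br r) ∧
      (∀ j (r : ℝ), ∃ r', ∀ γ, r' < H337.NG.G1 (q j γ) → r' < H337.NG.G2 (q j γ) → γ ∈ Br r) ∧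
      (∀ j (r : ℝ), ∃ r', ∀ γ, r' < H337.NG.G1 (ct (q j γ)) → r' < H337.NG.G2 (ct (q j γ)) →
        γ ∈ Br r) ∧
      (∀ i j, i ≠ j → ∀ r : ℝ, ∃ r', ∀ γ, r' < SN.nm (q i γ) → r' < SN.nm (q j γ) →
        γ ∈ Br r) ∧
      ∀ i, ∀ ε : ℝ, 0 < ε → ∃ r : ℝ, ∀ u ∈ Subgroup.zpowers (ι i (SN.bw (w i))),
        H805.RowN.msE hν hα u (Br r) ≤ ε := by
  classical
  obtain ⟨gap, W, hs, hfin, h1, h2, h3⟩ := gsys_fam hk' (fun j => by
    have := hN' j; omega) q hq disc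
  refine ⟨Bg gap, Bg_antitone gap, Bg_trans hs, fun j r => ?_, fun j r => ?_, h3,
    fun i ε hε => ?_⟩
  · obtain ⟨r', hr'⟩ := h1 j r
    exact ⟨r', fun γ a1 a2 => hr' γ (by rwa [← G1_eq]) (by rwa [← G2_eq])⟩
  · obtain ⟨r', hr'⟩ := h2 j r
    refine ⟨r', fun γ a1 a2 => hr' γ ?_ ?_⟩
    · have e : H337.NG.G1 (ct (q j γ)) = H337.NG.G1 (q j γ)⁻¹ := H337.NG.G1_ta (q j γ)
      rwa [← G1_inv_eq, ← e]
    · have e : H337.NG.G2 (ct (q j γ)) = H337.NG.G2 (q j γ)⁻¹ := H337.NG.G2_ta (q j γ)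
      rwa [← G2_inv_eq, ← e]
  · have hw1 : ∀ i, 1 < ‖(((w i)⁻¹ : (k i)ˣ) : k i)‖ := fun i => by
      rw [Units.val_inv_eq_inv_val, norm_inv]
      exact one_lt_inv_iff₀.2 ⟨norm_pos_iff.2 (w i).ne_zero, hw i⟩
    obtain ⟨e, he, ⟨C, hC⟩, C', hC', -⟩ := NE.exists_chE hN ι a hι ha hcomp hcomm
      (fun i => (((w i)⁻¹ : (k i)ˣ) : k i)) hw1 (fun i => Units.ne_zero _) i
    have hm : 0 < ∑ i, N i := lt_of_lt_of_le (hN i)
      (Finset.single_le_sum (f := N) (fun _ _ => Nat.zero_le _) (Finset.mem_univ i))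
    have hJ : Fintype.card (Σ j, Fin (N' j + 1 - 1)) ≤ ∑ i, N i := by
      rw [Fintype.card_sigma]
      refine le_trans (le_of_eq (Finset.sum_congr rfl fun j _ => ?_)) hNN
      rw [Fintype.card_fin]
      omega
    refine nrm_zpowersJ Γ ν hν (arep_VR hα) (H805.RowN.cov_VR hα)
      (fun A q => H805.RowN.cov_lx hα A q) C C' hm (b := ι i (SN.bw (w i))) (fun M => ?_)
      (fun M => ?_) hJ hs hfin hε
    · rw [hC, he]
      change ι i (tor (N i) _ (⟨0, hN i⟩ : Fin (N i)).castSucc) ^ M = _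
      rw [bw_eq_tor]
      rfl
    · rw [hC', bw_eq_tor]

/-- **[N-NRM], one factor**: the regular set of the engine, in the letters of `H337.NG` and of
`H805.RowN.sysNE`. -/
theorem exists_regular_one {k : Type} [NontriviallyNormedField k] [ProperSpace k] {N : ℕ}
    (hk : LocK k) (hN : 0 < N) (ι : GG k N →* E) (a : E →* PG k (N + 1)) (hι : Continuous ι)
    (ha : Continuous a) (hcomp : ∀ g (x : YY k N), a (ι g) • x = g • x) {w : kˣ}
    (hw : ‖(w : k)‖ < 1) (q : Γ → GG k N) (hq : SN.PH q)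
    (disc : ∀ C : ℝ, {γ : Γ | SN.nm (q γ) ≤ C}.Finite) :
    ∃ Br : ℝ → Set Γ, Antitone Br ∧
      (∀ (γ : Γ) (r : ℝ), ∃ r', ∀ g ∈ Br r', γ⁻¹ * g ∈ Br r) ∧
      (∀ r : ℝ, ∃ r', H859.CL.BB (H337.NG.g1 q) (H337.NG.g2 q fun _ => 0) r' ⊆ Br r) ∧
      (∀ r : ℝ, ∃ r', H859.CL.BB (H337.NG.g1 fun γ => ct (q γ))
        (H337.NG.g2 (fun γ => ct (q γ)) fun _ => 0) r' ⊆ Br r) ∧
      ∀ ε : ℝ, 0 < ε → ∃ r : ℝ, ∀ u ∈ Subgroup.zpowers (ι (SN.bw w)),
        H805.RowN.msE hν hα u (Br r) ≤ ε := by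
  obtain ⟨Br, h1, h2, h3, h4, -, h6⟩ := exists_regular (I := Unit) (k := fun _ => k)
    (N := fun _ => N) hν hα (fun _ => hN) (fun _ => ι) (fun _ => a) (fun _ => hι) (fun _ => ha)
    (fun _ => hcomp) (fun i j hij => absurd (Subsingleton.elim i j) hij) (fun _ => w)
    (fun _ => hw) (I' := Unit) (k' := fun _ => k) (N' := fun _ => N) (fun _ => hk)
    (fun _ => hN) le_rfl (fun _ => q) (fun _ => hq)
    (fun C => (disc C).subset fun γ hγ => hγ ())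
  refine ⟨Br, h1, h2, fun r => ?_, fun r => ?_, h6 ()⟩
  · obtain ⟨r', hr'⟩ := h3 () r
    refine ⟨max r' 0, fun γ hγ => hr' γ ((le_max_left _ _).trans_lt hγ.1) ?_⟩
    have h5 : max r' 0 < max (H337.NG.G2 (q γ)) 0 := hγ.2
    rcases lt_max_iff.1 h5 with h | h
    · exact (le_max_left _ _).trans_lt h
    · exact absurd h (not_lt.2 (le_max_right _ _))
  · obtain ⟨r', hr'⟩ := h4 () r
    refine ⟨max r' 0, fun γ hγ => hr' γ ((le_max_left _ _).trans_lt hγ.1) ?_⟩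
    have h5 : max r' 0 < max (H337.NG.G2 (ct (q γ))) 0 := hγ.2
    rcases lt_max_iff.1 h5 with h | h
    · exact (le_max_left _ _).trans_lt h
    · exact absurd h (not_lt.2 (le_max_right _ _))

end fin

end Vale.Agent.P092.H776.NG
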