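import Vale.Agent.P092.H776.NG2
import Vale.Agent.P092.H725.SN.Nrm
import Vale.Agent.P092.SN.Defs

/-!
P092 (helper776), Team N, [KW]: Cartan decomposition of `SL_(N+1)(k)` of a local field in terms of
the conjugates of the powers of one wall element `bw w`.
-/

set_option linter.all false

open Matrix Filter Topology

namespace Vale.Agent.P092.H776.KW

open Vale.Agent.P092.RC (GG)
open Vale.Agent.P092.H933 (LocK BCart gsys_gl)
open Vale.Agent.P092.H776.NG (nmx nmx_le le_nmx det_le)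

variable {k : Type} [NontriviallyNormedField k] {N : ℕ}

/-! ### Diagonal matrices of determinant one -/

/-- the group of diagonals of determinant one -/
def DD (k : Type) [NontriviallyNormedField k] (N : ℕ) : Subgroup (Fin (N + 1) → kˣ) where
  carrier := {δ | ∏ i, δ i = 1}
  one_mem' := by simp
  mul_mem' := by
    intro a b ha hb
    change ∏ i, (a i * b i) = 1
    rw [Finset.prod_mul_distrib, show ∏ i, a i = 1 from ha, show ∏ i, b i = 1 from hb, one_mul]
  inv_mem' := by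
    intro a ha
    change ∏ i, (a i)⁻¹ = 1
    rw [Finset.prod_inv_distrib, show ∏ i, a i = 1 from ha, inv_one]

/-- the diagonal matrices -/
def Dm : DD k N →* GG k N where
  toFun δ := ⟨diagonal fun i => (δ.1 i : k), by
    rw [det_diagonal, ← Units.coe_prod, show ∏ i, δ.1 i = 1 from δ.2, Units.val_one]⟩
  map_one' := by
    apply Subtype.ext
    change (diagonal fun i => ((1 : kˣ) : k)) = 1
    simp
  map_mul' a b := by
    apply Subtype.ext
    change (diagonal fun i => ((a.1 i * b.1 i : kˣ) : k)) = diagonal _ * diagonal _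
    rw [diagonal_mul_diagonal]
    simp

/-- the wall at the position `p` -/
def dw (w : kˣ) (p : Fin (N + 1)) : DD k N :=
  ⟨fun i => w * (if i = p then (w⁻¹) ^ (N + 1) else 1), by
    change ∏ i, (w * (if i = p then (w⁻¹) ^ (N + 1) else 1)) = 1
    rw [Finset.prod_mul_distrib, Finset.prod_const, Finset.card_univ, Fintype.card_fin,
      Finset.prod_ite_eq', if_pos (Finset.mem_univ _), inv_pow, mul_inv_cancel]⟩

theorem dw_self (w : kˣ) (p : Fin (N + 1)) : (dw w p).1 p = w⁻¹ ^ N := by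
  change w * (if p = p then (w⁻¹) ^ (N + 1) else 1) = _
  rw [if_pos rfl, pow_succ', mul_inv_cancel_left]

theorem dw_ne (w : kˣ) {p i : Fin (N + 1)} (h : i ≠ p) : (dw w p).1 i = w := by
  change w * (if i = p then (w⁻¹) ^ (N + 1) else 1) = _
  rw [if_neg h, mul_one]

theorem bw_eq (w : kˣ) : (SN.bw w : GG k N) = Dm (dw w 0) := by
  apply Subtype.ext
  change Matrix.diagonal _ = Matrix.diagonal _
  congr 1
  funext i
  by_cases hi : i = 0
  · subst hi
    rw [dw_self]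
    simp
  · rw [dw_ne w hi, if_neg hi]

/-! ### The signed transpositions -/

/-- the signed transposition `(0 p)` -/
noncomputable def sm (k : Type) [NontriviallyNormedField k] (p : Fin (N + 1)) : GG k N :=
  ⟨(Equiv.swap 0 p).toPEquiv.toMatrix * diagonal fun j => if j = 0 ∧ p ≠ 0 then -1 else 1, by
    rw [det_mul, Matrix.det_permutation, det_diagonal]
    by_cases hp : p = 0
    · subst hp
      simp
    · have h1 : (Equiv.swap (0 : Fin (N + 1)) p).sign = -1 :=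
        Equiv.Perm.sign_swap (fun h => hp h.symm)
      have h2 : ∏ j : Fin (N + 1), (if j = 0 ∧ p ≠ 0 then (-1 : k) else 1) = -1 := by
        rw [Finset.prod_eq_single 0]
        · simp [hp]
        · intro j _ hj
          simp [hj]
        · simp
      rw [h1, h2]
      simp⟩

theorem sm_conj (w : kˣ) (p : Fin (N + 1)) :
    sm k p * Dm (dw w 0) = Dm (dw w p) * sm k p := by
  apply Subtype.ext
  change ((Equiv.swap 0 p).toPEquiv.toMatrix * diagonal fun j => if j = 0 ∧ p ≠ 0 then -1 else 1) *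
    diagonal (fun i => ((dw w 0).1 i : k)) = diagonal (fun i => ((dw w p).1 i : k)) *
    ((Equiv.swap 0 p).toPEquiv.toMatrix * diagonal fun j => if j = 0 ∧ p ≠ 0 then -1 else 1)
  ext i j
  rw [mul_diagonal, diagonal_mul, mul_diagonal]
  have h1 : ((Equiv.swap 0 p).toPEquiv.toMatrix : Matrix (Fin (N + 1)) (Fin (N + 1)) k) i j =
      if Equiv.swap 0 p i = j then 1 else 0 := by
    rw [PEquiv.toMatrix_apply]
    simp [eq_comm]
  rw [h1]
  by_cases h : Equiv.swap 0 p i = j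
  · rw [if_pos h]
    have h2 : (dw w 0).1 j = (dw w p).1 i := by
      subst h
      by_cases hi : i = p
      · subst hi
        rw [Equiv.swap_apply_right, dw_self, dw_self]
      · have h3 : Equiv.swap 0 p i ≠ 0 := by
          intro h4
          apply hi
          have := congrArg (Equiv.swap 0 p) h4
          rwa [Equiv.swap_apply_self, Equiv.swap_apply_left] at this
        rw [dw_ne w h3, dw_ne w hi]
    rw [h2]
    ring
  · rw [if_neg h]
    ring

theorem conj_pow (w : kˣ) (p : Fin (N + 1)) (m : ℤ) :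
    sm k p * SN.bw w ^ m * (sm k p)⁻¹ = Dm (dw w p ^ m) := by
  rw [bw_eq, ← conj_zpow, sm_conj, mul_inv_cancel_right, map_zpow]

theorem prod_eq (w : kˣ) (m : Fin (N + 1) → ℤ) :
    (List.ofFn fun p => sm k p * SN.bw w ^ m p * (sm k p)⁻¹).prod =
      Dm (∏ p, dw w p ^ m p) := by
  have h : (List.ofFn fun p => sm k p * SN.bw w ^ m p * (sm k p)⁻¹) =
      (List.ofFn fun p => dw w p ^ m p).map (Dm (k := k) (N := N)) := by
    rw [List.map_ofFn]
    congr 1
    funext p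
    exact conj_pow w p (m p)
  rw [h, ← map_list_prod, List.prod_ofFn]

theorem prod_zp {ι : Type} (w : kˣ) (m : ι → ℤ) (s : Finset ι) :
    ∏ p ∈ s, w ^ m p = w ^ (∑ p ∈ s, m p) := by
  classical
  induction s using Finset.induction_on with
  | empty => simp
  | insert a s ha ih => rw [Finset.prod_insert ha, Finset.sum_insert ha, ih, _root_.zpow_add]

theorem prod_apply (w : kˣ) (m : Fin (N + 1) → ℤ) (i : Fin (N + 1)) :
    (∏ p, dw w p ^ m p : DD k N).1 i = w ^ (∑ p, m p) * ((w⁻¹) ^ (N + 1)) ^ m i := by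
  have h1 : (∏ p, dw w p ^ m p : DD k N).1 i = ∏ p, ((dw w p).1 i) ^ m p := by
    have h2 : ((∏ p, dw w p ^ m p : DD k N) : Fin (N + 1) → kˣ) = ∏ p, (dw w p).1 ^ m p := by
      rw [Subgroup.val_finset_prod]
      exact Finset.prod_congr rfl fun p _ => Subgroup.coe_zpow _ _ _
    change ((∏ p, dw w p ^ m p : DD k N) : Fin (N + 1) → kˣ) i = _
    rw [h2, Finset.prod_apply]
    rfl
  rw [h1]
  have h3 : ∀ p, ((dw w p).1 i) ^ m p = w ^ m p * (if p = i then ((w⁻¹) ^ (N + 1)) ^ m i else 1) := by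
    intro p
    change (w * (if i = p then (w⁻¹) ^ (N + 1) else 1)) ^ m p = _
    rw [mul_zpow]
    congr 1
    by_cases h : i = p
    · subst h
      rw [if_pos rfl, if_pos rfl]
    · rw [if_neg h, if_neg fun h' => h h'.symm, _root_.one_zpow]
  rw [Finset.prod_congr rfl fun p _ => h3 p, Finset.prod_mul_distrib, Finset.prod_ite_eq',
    if_pos (Finset.mem_univ _)]
  congr 1
  exact prod_zp w m Finset.univ

/-! ### The decomposition of the diagonal matrices -/

/-- Every diagonal is a product of wall elements, up to a bounded diagonal. -/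
theorem diag_bd (w : kˣ) (hw : ‖(w : k)‖ < 1) (δ : DD k N) :
    ∃ m : Fin (N + 1) → ℤ, ∀ i,
      ‖((δ * (∏ p, dw w p ^ m p)⁻¹ : DD k N).1 i : k)‖ ≤ Real.exp ((N + 1) * -Real.log ‖(w : k)‖) := by
  obtain ⟨L, hL⟩ : ∃ L : ℝ, L = -Real.log ‖(w : k)‖ := ⟨_, rfl⟩
  have hw0 : 0 < ‖(w : k)‖ := norm_pos_iff.2 w.ne_zero
  have hL0 : 0 < L := by
    rw [hL]
    exact neg_pos.2 (Real.log_neg hw0 hw)
  have hN : (0 : ℝ) < N + 1 := by positivity
  obtain ⟨x, hx⟩ : ∃ x : Fin (N + 1) → ℝ, x = fun i => Real.log ‖(δ.1 i : k)‖ := ⟨_, rfl⟩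
  have hsum : ∑ i, x i = 0 := by
    have h1 : ∏ i, ‖(δ.1 i : k)‖ = 1 := by
      rw [← norm_prod, ← Units.coe_prod, show ∏ i, δ.1 i = 1 from δ.2, Units.val_one, norm_one]
    have h2 := congrArg Real.log h1
    rw [Real.log_one, Real.log_prod (fun i _ => norm_ne_zero_iff.2 (δ.1 i).ne_zero)] at h2
    rw [hx]
    exact h2
  obtain ⟨m, hm⟩ : ∃ m : Fin (N + 1) → ℤ, m = fun i => round (x i / ((N + 1) * L)) := ⟨_, rfl⟩
  have hmi : ∀ i, |x i - (N + 1) * L * m i| ≤ (N + 1) * L / 2 := by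
    intro i
    have h1 := abs_sub_round (x i / ((N + 1) * L))
    have h2 : x i - (N + 1) * L * m i = (N + 1) * L * (x i / ((N + 1) * L) -
        (round (x i / ((N + 1) * L)) : ℤ)) := by
      rw [hm]
      field_simp
    rw [h2, abs_mul, abs_of_pos (by positivity)]
    calc (N + 1) * L * |x i / ((N + 1) * L) - (round (x i / ((N + 1) * L)) : ℤ)|
        ≤ (N + 1) * L * (1 / 2) := mul_le_mul_of_nonneg_left h1 (by positivity)
      _ = _ := by ring
  have hM : |L * ((∑ i, m i : ℤ) : ℝ)| ≤ (N + 1) * L / 2 := by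
    have h1 : (N + 1) * (L * ((∑ i, m i : ℤ) : ℝ)) = -∑ i, (x i - (N + 1) * L * m i) := by
      rw [Finset.sum_sub_distrib, hsum, ← Finset.mul_sum]
      push_cast
      ring
    have h2 : |(N + 1) * (L * ((∑ i, m i : ℤ) : ℝ))| ≤ (N + 1) * ((N + 1) * L / 2) := by
      rw [h1, abs_neg]
      refine (Finset.abs_sum_le_sum_abs _ _).trans ?_
      refine (Finset.sum_le_sum fun i _ => hmi i).trans ?_
      rw [Finset.sum_const, Finset.card_univ, Fintype.card_fin, nsmul_eq_mul]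
      push_cast
      exact le_rfl
    rw [abs_mul, abs_of_pos hN] at h2
    exact le_of_mul_le_mul_left h2 hN
  refine ⟨m, fun i => ?_⟩
  have h1 : ((δ * (∏ p, dw w p ^ m p)⁻¹ : DD k N).1 i) =
      δ.1 i * (w ^ (∑ p, m p) * ((w⁻¹) ^ (N + 1)) ^ m i)⁻¹ := by
    rw [← prod_apply w m i]
    rfl
  have h2 : 0 < ‖((δ * (∏ p, dw w p ^ m p)⁻¹ : DD k N).1 i : k)‖ :=
    norm_pos_iff.2 (Units.ne_zero _)
  rw [← Real.log_le_iff_le_exp h2, h1, ← hL]
  have h3 : Real.log ‖((δ.1 i * (w ^ (∑ p, m p) * ((w⁻¹) ^ (N + 1)) ^ m i)⁻¹ : kˣ) : k)‖ =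
      x i - (N + 1) * L * m i + L * ((∑ i, m i : ℤ) : ℝ) := by
    have hδ : ‖(δ.1 i : k)‖ ≠ 0 := norm_ne_zero_iff.2 (δ.1 i).ne_zero
    rw [Units.val_mul, Units.val_inv_eq_inv_val, Units.val_mul, Units.val_zpow_eq_zpow_val,
      Units.val_zpow_eq_zpow_val, Units.val_pow_eq_pow_val, Units.val_inv_eq_inv_val, norm_mul,
      norm_inv, norm_mul, norm_zpow, norm_zpow, norm_pow, norm_inv,
      Real.log_mul hδ (inv_ne_zero (mul_ne_zero (zpow_ne_zero _ hw0.ne')
        (zpow_ne_zero _ (pow_ne_zero _ (inv_ne_zero hw0.ne'))))), Real.log_inv,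
      Real.log_mul (zpow_ne_zero _ hw0.ne')
        (zpow_ne_zero _ (pow_ne_zero _ (inv_ne_zero hw0.ne'))), Real.log_zpow, Real.log_zpow,
      Real.log_pow, Real.log_inv, hx, hL]
    push_cast
    ring
  rw [h3]
  have a1 := (abs_le.1 (hmi i)).2
  have a2 := (abs_le.1 hM).2
  linarith

/-! ### The decomposition -/

/-- `c * diagonal` -/
theorem kappa_sl {κ κi : Matrix (Fin (N + 1)) (Fin (N + 1)) k} {C : ℝ} (hC : 1 ≤ C)
    (h : κ * κi = 1) (h1 : ∀ i j, ‖κ i j‖ ≤ C) (h2 : ∀ i j, ‖κi i j‖ ≤ C) :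
    ∃ u : kˣ, (u : k) = κ.det ∧ ‖((u⁻¹ : kˣ) : k)‖ ≤ (N + 1).factorial * C ^ (N + 1) := by
  have h3 : κ.det * κi.det = 1 := by rw [← det_mul, h, det_one]
  refine ⟨⟨κ.det, κi.det, h3, by rw [mul_comm, h3]⟩, rfl, ?_⟩
  exact det_le h2

/-- **Cartan decomposition by wall elements.** -/
theorem kak_walls [ProperSpace k] (hk : LocK k) (w : kˣ) (hw : ‖(w : k)‖ < 1) :
    ∃ (s : Fin (N + 1) → GG k N) (C : Set (GG k N)), IsCompact C ∧
      ∀ g, ∃ m : Fin (N + 1) → ℤ, ∃ c₁ ∈ C, ∃ c₂ ∈ C,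
        g = c₁ * (List.ofFn fun p => s p * SN.bw w ^ m p * (s p)⁻¹).prod * c₂ := by
  classical
  obtain ⟨gap, W, c, C0, -, -, -, hB⟩ := gsys_gl (G := GG k N) (m := fun g => g.1) hk
    (Nat.succ_pos N) (fun g h => rfl) (fun g => by rw [g.2, norm_one])
  obtain ⟨C, hC⟩ : ∃ C, C = max C0 1 := ⟨_, rfl⟩
  have hC1 : 1 ≤ C := hC ▸ le_max_right _ _
  have hCC : C0 ≤ C := hC ▸ le_max_left _ _
  obtain ⟨F, hF⟩ : ∃ F : ℝ, F = (N + 1).factorial * C ^ (N + 1) := ⟨_, rfl⟩
  have hF1 : 1 ≤ F := by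
    rw [hF]
    have h1 : (1 : ℝ) ≤ ((N + 1).factorial : ℝ) := by
      exact_mod_cast Nat.succ_le_of_lt (Nat.factorial_pos (N + 1))
    exact one_le_mul_of_one_le_of_one_le h1 (one_le_pow₀ hC1)
  obtain ⟨X, hX⟩ : ∃ X : ℝ, X = Real.exp ((N + 1) * -Real.log ‖(w : k)‖) := ⟨_, rfl⟩
  have hX1 : 1 ≤ X := by
    rw [hX]
    refine Real.one_le_exp (mul_nonneg (by positivity) ?_)
    exact neg_nonneg.2 (Real.log_nonpos (norm_nonneg _) hw.le)
  refine ⟨sm k, {g | H725.SN.nmm g ≤ X * (F * C)}, H725.SN.isCompact_ball _, fun g => ?_⟩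
  obtain ⟨κ, κi, κ', κi', a, o1, o2, hb, ha, -, hA, -⟩ := hB g
  obtain ⟨u, hu, hui⟩ := kappa_sl hC1 o1 (fun i j => (hb i j).1.trans hCC)
    (fun i j => (hb i j).2.1.trans hCC)
  obtain ⟨v, hv, hvi⟩ := kappa_sl hC1 o2 (fun i j => (hb i j).2.2.1.trans hCC)
    (fun i j => (hb i j).2.2.2.trans hCC)
  -- the corrected factors
  obtain ⟨ζ, hζ⟩ : ∃ ζ : kˣ → Fin (N + 1) → kˣ, ζ = fun u i => if i = 0 then u else 1 := ⟨_, rfl⟩
  have hζp : ∀ u, ∏ i, ζ u i = u := fun u => by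
    rw [hζ]
    simp
  have hdet : ∀ u : kˣ, (diagonal fun i => (ζ u i : k)).det = u := fun u => by
    rw [det_diagonal, ← Units.coe_prod, hζp]
  have hζi : ∀ u : kˣ, (diagonal fun i => (ζ u⁻¹ i : k)) * (diagonal fun i => (ζ u i : k)) = 1 := by
    intro u
    rw [diagonal_mul_diagonal, ← diagonal_one]
    congr 1
    funext i
    rw [← Units.val_mul, hζ]
    by_cases hi : i = 0
    · simp [hi]
    · simp [hi]
  have hζn : ∀ (u : kˣ), ‖((u⁻¹ : kˣ) : k)‖ ≤ F → ∀ i, ‖(ζ u⁻¹ i : k)‖ ≤ F := by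
    intro u hu i
    rw [hζ]
    by_cases hi : i = 0
    · simpa [hi] using hu
    · simpa [hi] using hF1
  obtain ⟨K1, hK1⟩ : ∃ K1 : GG k N, K1.1 = κ * diagonal fun i => (ζ u⁻¹ i : k) :=
    ⟨⟨_, by rw [det_mul, hdet, ← hu, ← Units.val_mul, mul_inv_cancel, Units.val_one]⟩, rfl⟩
  obtain ⟨K2, hK2⟩ : ∃ K2 : GG k N, K2.1 = (diagonal fun i => (ζ v⁻¹ i : k)) * κ' :=
    ⟨⟨_, by rw [det_mul, hdet, ← hv, ← Units.val_mul, inv_mul_cancel, Units.val_one]⟩, rfl⟩
  -- the diagonal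
  obtain ⟨A, hAu⟩ : ∃ A : Fin (N + 1) → kˣ, ∀ i, (A i : k) = a i :=
    ⟨fun i => Units.mk0 (a i) (ha i), fun i => rfl⟩
  have hgK : g.1 = K1.1 * (diagonal fun i => ((ζ u i * A i * ζ v i : kˣ) : k)) * K2.1 := by
    have e1 : (diagonal fun i => ((ζ u i * A i * ζ v i : kˣ) : k)) =
        (diagonal fun i => (ζ u i : k)) * diagonal a * diagonal fun i => (ζ v i : k) := by
      rw [diagonal_mul_diagonal, diagonal_mul_diagonal]
      congr 1
      funext i
      rw [Units.val_mul, Units.val_mul, hAu]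
    have e2 : (diagonal fun i => (ζ v i : k)) * (diagonal fun i => (ζ v⁻¹ i : k)) = 1 := by
      have := hζi v⁻¹
      rwa [inv_inv] at this
    have hA' : g.1 = κ * diagonal a * κ' := hA
    rw [hA', hK1, hK2, e1]
    calc κ * diagonal a * κ' = κ * ((diagonal fun i => (ζ u⁻¹ i : k)) *
          (diagonal fun i => (ζ u i : k))) * diagonal a *
          ((diagonal fun i => (ζ v i : k)) * (diagonal fun i => (ζ v⁻¹ i : k))) * κ' := by
          rw [hζi, e2, mul_one, mul_one]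
      _ = _ := by simp only [mul_assoc]
  have hδ : ∏ i, (ζ u i * A i * ζ v i) = 1 := by
    have h1 : (∏ i, ((ζ u i * A i * ζ v i : kˣ) : k)) = 1 := by
      have h2 := congrArg Matrix.det hgK
      rw [det_mul, det_mul, K1.2, K2.2, one_mul, mul_one, g.2, det_diagonal] at h2
      exact h2.symm
    apply Units.ext
    rw [Units.coe_prod, h1, Units.val_one]
  obtain ⟨δ, hδ'⟩ : ∃ δ : DD k N, ∀ i, δ.1 i = ζ u i * A i * ζ v i := ⟨⟨_, hδ⟩, fun i => rfl⟩
  have hgD : g = K1 * Dm δ * K2 := by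
    apply Subtype.ext
    change g.1 = K1.1 * (diagonal fun i => (δ.1 i : k)) * K2.1
    rw [hgK]
    simp only [hδ']
  obtain ⟨m, hm⟩ := diag_bd w hw δ
  refine ⟨m, K1, ?_, Dm (δ * (∏ p, dw w p ^ m p)⁻¹) * K2, ?_, ?_⟩
  · change nmx K1.1 ≤ _
    refine nmx_le (by positivity) fun i j => ?_
    rw [hK1, mul_diagonal, norm_mul]
    calc ‖κ i j‖ * ‖(ζ u⁻¹ j : k)‖ ≤ C * F :=
          mul_le_mul ((hb i j).1.trans hCC) (hζn u (hF ▸ hui) j) (norm_nonneg _) (by positivity)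
      _ = 1 * (F * C) := by ring
      _ ≤ _ := mul_le_mul_of_nonneg_right hX1 (by positivity)
  · change nmx (Dm (δ * (∏ p, dw w p ^ m p)⁻¹) * K2).1 ≤ _
    refine nmx_le (by positivity) fun i j => ?_
    have e : (Dm (δ * (∏ p, dw w p ^ m p)⁻¹) * K2).1 =
        (diagonal fun i => ((δ * (∏ p, dw w p ^ m p)⁻¹ : DD k N).1 i : k)) *
          ((diagonal fun i => (ζ v⁻¹ i : k)) * κ') := by
      rw [← hK2]
      rfl
    rw [e, diagonal_mul, diagonal_mul, norm_mul, norm_mul]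
    refine mul_le_mul ((hm i).trans (le_of_eq hX.symm)) ?_ (by positivity) (by positivity)
    exact mul_le_mul (hζn v (hF ▸ hvi) i) ((hb i j).2.2.1.trans hCC) (norm_nonneg _)
      (by positivity)
  · rw [prod_eq, hgD, mul_assoc K1 _ (Dm _ * K2), ← mul_assoc (Dm _) (Dm _) K2, ← map_mul,
      ← mul_assoc K1]
    congr 2
    rw [mul_comm δ, mul_inv_cancel_left]

end Vale.Agent.P092.H776.KW
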