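import Vale.Agent.P092.H776.Erg

/-!
P092 (helper776), block ERG-T (core): ergodicity of the comultiplication for corners; the regular
representation is replaced by a unitary representation with vanishing coefficients at infinity.
-/

set_option linter.all false

open scoped InnerProductSpace
open Filter Topology ContinuousLinearMap

namespace Vale.Agent.P092.H776.TC

open Vale.Agent.P092.H160

section core

variable {Λ E : Type} [Group Λ] [NormedAddCommGroup E] [InnerProductSpace ℂ E] [CompleteSpace E]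

/-- A unitary representation `r` with coefficients vanishing at infinity, which is irreducible
together with the unitaries `𝒜`. -/
structure IrrM (r : Λ →* (E →L[ℂ] E)) (𝒜 : Set (E →L[ℂ] E)) : Prop where
  adj_r : ∀ s, adjoint (r s) = r s⁻¹
  mix : ∀ u v, Tendsto (fun s => ⟪u, r s v⟫_ℂ) cofinite (𝓝 0)
  uni : ∀ A ∈ 𝒜, adjoint A * A = 1 ∧ A * adjoint A = 1
  adj : ∀ A ∈ 𝒜, adjoint A ∈ 𝒜
  com : ∀ A ∈ 𝒜, ∀ s, A * r s = r s * A
  irr : ∀ T : E →L[ℂ] E, (∀ s, T * r s = r s * T) → (∀ A ∈ 𝒜, T * A = A * T) →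
    ∃ c : ℂ, T = c • (1 : E →L[ℂ] E)

/-- The class of operators. -/
structure ClsM (r : Λ →* (E →L[ℂ] E)) (ξ : E) (𝒜 : Set (E →L[ℂ] E)) (C : Subgroup Λ)
    (S : E →L[ℂ] E) : Prop where
  ca : ∀ A ∈ 𝒜, S * A = A * S
  cr : ∀ c ∈ C, S * r c = r c * S
  fin : Summable fun i : Λ ⧸ C => ‖S (r (i.out)⁻¹ ξ)‖ ^ 2

variable {r : Λ →* (E →L[ℂ] E)} {ξ : E} {𝒜 : Set (E →L[ℂ] E)} {C : Subgroup Λ} {S : E →L[ℂ] E}

theorem IrrM.r_inner_left (hI : IrrM r 𝒜) (s : Λ) (u v : E) : ⟪r s u, v⟫_ℂ = ⟪u, r s⁻¹ v⟫_ℂ := by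
  rw [← hI.adj_r, adjoint_inner_right]

theorem IrrM.r_apply_inv (hI : IrrM r 𝒜) (s : Λ) (v : E) : r s (r s⁻¹ v) = v := by
  change (r s * r s⁻¹) v = v
  rw [← map_mul, mul_inv_cancel, map_one]; rfl

theorem IrrM.r_inv_apply (hI : IrrM r 𝒜) (s : Λ) (v : E) : r s⁻¹ (r s v) = v := by
  change (r s⁻¹ * r s) v = v
  rw [← map_mul, inv_mul_cancel, map_one]; rfl

theorem IrrM.norm_r (hI : IrrM r 𝒜) (s : Λ) (v : E) : ‖r s v‖ = ‖v‖ := by
  have h1 : ⟪r s v, r s v⟫_ℂ = ⟪v, v⟫_ℂ := by rw [hI.r_inner_left, hI.r_inv_apply]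
  rw [inner_self_eq_norm_sq_to_K, inner_self_eq_norm_sq_to_K] at h1
  have h2 : ‖r s v‖ ^ 2 = ‖v‖ ^ 2 := by exact_mod_cast h1
  exact (pow_left_inj₀ (norm_nonneg _) (norm_nonneg _) two_ne_zero).mp h2

theorem IrrM.norm_map (hI : IrrM r 𝒜) {A : E →L[ℂ] E} (hA : A ∈ 𝒜) (ζ : E) : ‖A ζ‖ = ‖ζ‖ := by
  have h1 : ⟪A ζ, A ζ⟫_ℂ = ⟪ζ, ζ⟫_ℂ := by
    rw [← adjoint_inner_right]
    change ⟪ζ, (adjoint A * A) ζ⟫_ℂ = _
    rw [(hI.uni A hA).1]; rfl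
  rw [inner_self_eq_norm_sq_to_K, inner_self_eq_norm_sq_to_K] at h1
  have h2 : ‖A ζ‖ ^ 2 = ‖ζ‖ ^ 2 := by exact_mod_cast h1
  exact (pow_left_inj₀ (norm_nonneg _) (norm_nonneg _) two_ne_zero).mp h2

/-- the norm on cosets -/
theorem ClsM.norm_coset (hI : IrrM r 𝒜) (hS : ClsM r ξ 𝒜 C S) {a b : Λ} (h : a⁻¹ * b ∈ C) (ζ : E) :
    ‖S (r a⁻¹ ζ)‖ = ‖S (r b⁻¹ ζ)‖ := by
  have h1 : a⁻¹ = (a⁻¹ * b) * b⁻¹ := by group
  rw [h1, map_mul]
  have h2 : S ((r (a⁻¹ * b) * r b⁻¹) ζ) = r (a⁻¹ * b) (S (r b⁻¹ ζ)) := by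
    have := congrArg (fun T : E →L[ℂ] E => T (r b⁻¹ ζ)) (hS.cr _ h)
    exact this
  rw [h2, hI.norm_r]

/-- The quadratic form of an operator in the class is a multiple of the square of the norm. -/
theorem ClsM.form (hI : IrrM r 𝒜) (hξ : ‖ξ‖ = 1) (hS : ClsM r ξ 𝒜 C S) (ζ : E) :
    Summable (fun i : Λ ⧸ C => ‖S (r (i.out)⁻¹ ζ)‖ ^ 2) ∧
      ∑' i : Λ ⧸ C, ‖S (r (i.out)⁻¹ ζ)‖ ^ 2 = N2 r ξ C S * ‖ζ‖ ^ 2 := by
  have hξ0 : ξ ≠ 0 := by
    intro h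
    have := hξ
    rw [h, norm_zero] at this
    exact zero_ne_one this
  obtain ⟨c, hc0, hc⟩ := schur_form (K := E) (I := Λ ⧸ C) (fun i => S * r (i.out)⁻¹)
    ({u | ∃ s, u = r s} ∪ 𝒜) (by
      rintro u (⟨s, rfl⟩ | hA)
      · rw [hI.adj_r, ← map_mul, ← map_mul, inv_mul_cancel, mul_inv_cancel, map_one]
        exact ⟨rfl, rfl⟩
      · exact hI.uni u hA) (by
      rintro u (⟨s, rfl⟩ | hA)
      · exact Or.inl ⟨s⁻¹, hI.adj_r s⟩
      · exact Or.inr (hI.adj u hA)) (fun T hT => hI.irr T (fun s => hT _ (Or.inl ⟨s, rfl⟩))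
        fun A hA => hT A (Or.inr hA)) (by
      rintro u (⟨s, rfl⟩ | hA) ζ
      · rw [qf, qf]
        rw [← (MulAction.toPerm s⁻¹ : Equiv.Perm (Λ ⧸ C)).tsum_eq
          (fun i => ENNReal.ofReal (‖(S * r (i.out)⁻¹) ζ‖ ^ 2))]
        refine tsum_congr fun i => ?_
        congr 2
        change ‖S (r (i.out)⁻¹ (r s ζ))‖ = ‖S (r ((s⁻¹ • i).out)⁻¹ ζ)‖
        have e1 : r (i.out)⁻¹ (r s ζ) = r (s⁻¹ * i.out)⁻¹ ζ := by
          rw [mul_inv_rev, inv_inv, map_mul]; rfl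
        rw [e1]
        refine hS.norm_coset hI ?_ ζ
        rw [← QuotientGroup.eq, QuotientGroup.out_eq']
        have e2 : ((s⁻¹ * i.out : Λ) : Λ ⧸ C) = s⁻¹ • ((i.out : Λ) : Λ ⧸ C) := rfl
        rw [e2, QuotientGroup.out_eq']
      · rw [qf, qf]
        refine tsum_congr fun i => ?_
        congr 2
        change ‖S (r (i.out)⁻¹ (u ζ))‖ = ‖S (r (i.out)⁻¹ ζ)‖
        have e1 : r (i.out)⁻¹ (u ζ) = u (r (i.out)⁻¹ ζ) :=
          (congrArg (fun T : E →L[ℂ] E => T ζ) (hI.com u hA (i.out)⁻¹)).symm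
        have e2 : S (u (r (i.out)⁻¹ ζ)) = u (S (r (i.out)⁻¹ ζ)) :=
          congrArg (fun T : E →L[ℂ] E => T (r (i.out)⁻¹ ζ)) (hS.ca u hA)
        rw [e1, e2, hI.norm_map hA]) hξ0 (qf_ne_top_iff.mpr hS.fin)
  have h1 := (hc ξ).2
  rw [hξ, one_pow, mul_one] at h1
  refine ⟨(hc ζ).1, ?_⟩
  have h2 := (hc ζ).2
  rw [N2]
  have h3 : ∑' i : Λ ⧸ C, ‖S (r (i.out)⁻¹ ξ)‖ ^ 2 = c := h1
  rw [h3]
  exact h2

/-- The norm is at most the Hilbert-Schmidt norm. -/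
theorem ClsM.norm_le (hI : IrrM r 𝒜) (hξ : ‖ξ‖ = 1) (hS : ClsM r ξ 𝒜 C S) (ζ : E) :
    ‖S ζ‖ ^ 2 ≤ N2 r ξ C S * ‖ζ‖ ^ 2 := by
  obtain ⟨h1, h2⟩ := hS.form hI hξ ζ
  rw [← h2]
  have h3 := h1.le_tsum (((1 : Λ) : Λ ⧸ C)) (fun _ _ => by positivity)
  refine le_trans (le_of_eq ?_) h3
  congr 1
  have h4 : ‖S (r (1 : Λ)⁻¹ ζ)‖ = ‖S (r ((((1 : Λ) : Λ ⧸ C)).out)⁻¹ ζ)‖ := by
    refine hS.norm_coset hI ?_ ζ
    rw [← QuotientGroup.eq, QuotientGroup.out_eq']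
  rw [← h4, inv_one, map_one]
  rfl

theorem N2_nonneg : 0 ≤ N2 r ξ C S := tsum_nonneg fun i => by positivity

/-- multiplication by a scalar combination -/
theorem pm_norm (η η' : E) (e : ℝ) (he : e = 1 ∨ e = -1) (hn : ‖η'‖ = ‖η‖) :
    ‖(1 / 2 : ℂ) • (η + (e : ℂ) • η')‖ ^ 2 ≤ (1 / 2) * (‖η‖ ^ 2 + ‖⟪η, η'⟫_ℂ‖) := by
  rw [norm_smul, mul_pow]
  have h1 : ‖η + (e : ℂ) • η'‖ ^ 2 = ‖η‖ ^ 2 + 2 * (e * (⟪η, η'⟫_ℂ).re) + ‖η'‖ ^ 2 := by
    have h2 := norm_add_sq (𝕜 := ℂ) η ((e : ℂ) • η')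
    rw [h2, inner_smul_right, norm_smul, mul_pow]
    have h3 : ‖(e : ℂ)‖ = 1 := by
      rw [Complex.norm_real]
      rcases he with rfl | rfl <;> simp
    rw [h3, one_pow, one_mul]
    congr 2
    change 2 * ((e : ℂ) * ⟪η, η'⟫_ℂ).re = _
    rw [Complex.re_ofReal_mul]
  have h4 : e * (⟪η, η'⟫_ℂ).re ≤ ‖⟪η, η'⟫_ℂ‖ := by
    have h5 := Complex.abs_re_le_norm ⟪η, η'⟫_ℂ
    rw [abs_le] at h5
    rcases he with rfl | rfl
    · rw [one_mul]; exact h5.2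
    · linarith [h5.1]
  have h6 : ‖(1 / 2 : ℂ)‖ = 1 / 2 := by norm_num
  rw [h6, h1, hn]
  nlinarith

/-- The operator `(1 ± w)/2`. -/
noncomputable def Tp (w : E →L[ℂ] E) (e : ℝ) : E →L[ℂ] E :=
  (1 / 2 : ℂ) • (1 + (e : ℂ) • w)

theorem Tp_apply (w : E →L[ℂ] E) (e : ℝ) (ζ : E) :
    Tp w e ζ = (1 / 2 : ℂ) • (ζ + (e : ℂ) • w ζ) := rfl

theorem Tp_comm {w S : E →L[ℂ] E} (h : S * w = w * S) (e : ℝ) : S * Tp w e = Tp w e * S := by
  rw [Tp, mul_smul_comm, smul_mul_assoc, mul_add, add_mul, mul_one, one_mul, mul_smul_comm,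
    smul_mul_assoc, h]

variable {z : Λ}

theorem ClsM.mulT (hI : IrrM r 𝒜) (hS : ClsM r ξ 𝒜 C S) (hz : ∀ c ∈ C, c * z = z * c)
    (hzC : z ∈ C) (k : ℕ) {e : ℝ} (he : e = 1 ∨ e = -1) :
    ClsM r ξ 𝒜 C (S * Tp (r (z ^ k)) e) ∧ N2 r ξ C (S * Tp (r (z ^ k)) e) ≤
      (1 / 2) * (N2 r ξ C S +
        ∑' i : Λ ⧸ C, ‖⟪S (r (i.out)⁻¹ ξ), r (z ^ k) (S (r (i.out)⁻¹ ξ))⟫_ℂ‖) := by
  have hzk : z ^ k ∈ C := C.pow_mem hzC k
  have hzk' : ∀ c ∈ C, c * z ^ k = z ^ k * c := fun c hc =>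
    (Commute.pow_right (show Commute c z from hz c hc) k)
  have e0 : ∀ i : Λ ⧸ C, (S * Tp (r (z ^ k)) e) (r (i.out)⁻¹ ξ) =
      (1 / 2 : ℂ) • (S (r (i.out)⁻¹ ξ) + (e : ℂ) • r (z ^ k) (S (r (i.out)⁻¹ ξ))) := by
    intro i
    rw [Tp_comm (hS.cr _ hzk) e]
    rfl
  have hle : ∀ i : Λ ⧸ C, ‖(S * Tp (r (z ^ k)) e) (r (i.out)⁻¹ ξ)‖ ^ 2 ≤
      (1 / 2) * (‖S (r (i.out)⁻¹ ξ)‖ ^ 2 +
        ‖⟪S (r (i.out)⁻¹ ξ), r (z ^ k) (S (r (i.out)⁻¹ ξ))⟫_ℂ‖) := by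
    intro i
    rw [e0]
    exact pm_norm _ _ e he (hI.norm_r _ _)
  have hcs : ∀ i : Λ ⧸ C, ‖⟪S (r (i.out)⁻¹ ξ), r (z ^ k) (S (r (i.out)⁻¹ ξ))⟫_ℂ‖ ≤
      ‖S (r (i.out)⁻¹ ξ)‖ ^ 2 := by
    intro i
    refine (norm_inner_le_norm _ _).trans ?_
    rw [hI.norm_r, sq]
  have hs1 : Summable fun i : Λ ⧸ C =>
      ‖⟪S (r (i.out)⁻¹ ξ), r (z ^ k) (S (r (i.out)⁻¹ ξ))⟫_ℂ‖ :=
    Summable.of_nonneg_of_le (fun _ => norm_nonneg _) hcs hS.fin
  have hs2 : Summable fun i : Λ ⧸ C => ‖(S * Tp (r (z ^ k)) e) (r (i.out)⁻¹ ξ)‖ ^ 2 :=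
    Summable.of_nonneg_of_le (fun _ => by positivity) hle ((hS.fin.add hs1).mul_left _)
  refine ⟨⟨fun A hA => ?_, fun c hc => ?_, hs2⟩, ?_⟩
  · rw [mul_assoc, ← Tp_comm (hI.com A hA (z ^ k)) e, ← mul_assoc, hS.ca A hA, mul_assoc]
  · have h1 : r c * r (z ^ k) = r (z ^ k) * r c := by rw [← map_mul, ← map_mul, hzk' c hc]
    rw [mul_assoc, ← Tp_comm h1 e, ← mul_assoc, hS.cr c hc, mul_assoc]
  · rw [N2, N2, ← hS.fin.tsum_add hs1, ← tsum_mul_left]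
    exact hs2.tsum_le_tsum hle ((hS.fin.add hs1).mul_left _)

theorem tend_err (hI : IrrM r 𝒜) (hS : ClsM r ξ 𝒜 C S) (hinf : ∀ n : ℕ, 0 < n → z ^ n ≠ 1) :
    Tendsto (fun k : ℕ => ∑' i : Λ ⧸ C,
      ‖⟪S (r (i.out)⁻¹ ξ), r (z ^ k) (S (r (i.out)⁻¹ ξ))⟫_ℂ‖) atTop (𝓝 0) := by
  have hinj : Function.Injective fun k : ℕ => z ^ k := by
    intro a b hab
    by_contra hne
    rcases lt_or_gt_of_ne hne with h | h
    · refine hinf (b - a) (by omega) ?_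
      have h1 : z ^ b = z ^ a * z ^ (b - a) := by rw [← pow_add]; congr 1; omega
      have h2 : z ^ a = z ^ b := hab
      rw [h1] at h2
      exact (mul_eq_left.mp h2.symm)
    · refine hinf (a - b) (by omega) ?_
      have h1 : z ^ a = z ^ b * z ^ (a - b) := by rw [← pow_add]; congr 1; omega
      have h2 : z ^ a = z ^ b := hab
      rw [h1] at h2
      exact (mul_eq_left.mp h2)
  have h0 : (0 : ℝ) = ∑' i : Λ ⧸ C, (0 : ℝ) := by rw [tsum_zero]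
  rw [h0]
  refine tendsto_tsum_of_dominated_convergence hS.fin (fun i => ?_)
    (Eventually.of_forall fun k i => ?_)
  · have h1 := (hI.mix (S (r (i.out)⁻¹ ξ)) (S (r (i.out)⁻¹ ξ))).norm
    rw [norm_zero] at h1
    have h2 := h1.comp hinj.tendsto_cofinite
    rw [Nat.cofinite_eq_atTop] at h2
    exact h2
  · rw [norm_norm]
    refine (norm_inner_le_norm _ _).trans ?_
    rw [hI.norm_r, sq]

theorem parr (η w w' : E) : ‖(1 / 4 : ℂ) • ((2 : ℂ) • η + (w + w'))‖ ^ 2 +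
    ‖(1 / 4 : ℂ) • ((2 : ℂ) • η - (w + w'))‖ ^ 2 = ‖η‖ ^ 2 / 2 + ‖w + w'‖ ^ 2 / 8 := by
  rw [norm_smul, norm_smul, mul_pow, mul_pow]
  have h1 := parallelogram_law_with_norm ℂ ((2 : ℂ) • η) (w + w')
  have h2 : ‖(2 : ℂ) • η‖ = 2 * ‖η‖ := by rw [norm_smul]; norm_num
  rw [h2] at h1
  have h3 : ‖(1 / 4 : ℂ)‖ = 1 / 4 := by norm_num
  rw [h3]
  nlinarith

/-- Operators in the class vanish. -/
theorem ClsM.eq_zero (hI : IrrM r 𝒜) (hξ : ‖ξ‖ = 1) (hz : ∀ c ∈ C, c * z = z * c)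
    (hzC : z ∈ C) (hinf : ∀ n : ℕ, 0 < n → z ^ n ≠ 1) (hS : ClsM r ξ 𝒜 C S) : S = 0 := by
  have key : ∀ n : ℕ, ∀ S : E →L[ℂ] E, ClsM r ξ 𝒜 C S → ∀ ζ : E,
      ‖S ζ‖ ^ 2 ≤ (2 / 3) ^ n * N2 r ξ C S * ‖ζ‖ ^ 2 := by
    intro n
    induction n with
    | zero =>
      intro S hS ζ
      rw [pow_zero, one_mul]
      exact hS.norm_le hI hξ ζ
    | succ n ih =>
      intro S hS ζ
      obtain ⟨η, hη⟩ : ∃ η, η = S ζ := ⟨_, rfl⟩
      obtain ⟨er, her⟩ : ∃ er : ℕ → ℝ, er = fun k : ℕ => ∑' i : Λ ⧸ C,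
        ‖⟪S (r (i.out)⁻¹ ξ), r (z ^ k) (S (r (i.out)⁻¹ ξ))⟫_ℂ‖ := ⟨_, rfl⟩
      have hlim : Tendsto er atTop (𝓝 0) := by rw [her]; exact tend_err hI hS hinf
      -- the inequality for a fixed `k`
      have hk : ∀ k : ℕ, ‖η‖ ^ 2 / 2 + ‖r (z ^ k) η + r (z ^ k)⁻¹ η‖ ^ 2 / 8 ≤
          (2 / 3) ^ n * ((1 / 2) * (N2 r ξ C S + er k)) * ‖ζ‖ ^ 2 := by
        intro k
        have hzk : z ^ k ∈ C := C.pow_mem hzC k
        have hw := hS.cr _ hzk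
        have hw' := hS.cr _ (C.inv_mem hzk)
        -- the vectors `T± * ζ`
        obtain ⟨t, ht⟩ : ∃ t : ℝ → E, t = fun e : ℝ =>
            (1 / 2 : ℂ) • (ζ + (e : ℂ) • r (z ^ k)⁻¹ ζ) := ⟨_, rfl⟩
        have hval : ∀ e : ℝ, (e = 1 ∨ e = -1) → (S * Tp (r (z ^ k)) e) (t e) =
            (1 / 4 : ℂ) • ((2 : ℂ) • η + (e : ℂ) • (r (z ^ k) η + r (z ^ k)⁻¹ η)) := by
          intro e he
          have hee : (e : ℂ) * (e : ℂ) = 1 := by
            rcases he with rfl | rfl <;> norm_num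
          have hwap : S (r (z ^ k) ζ) = r (z ^ k) η := by
            rw [hη]
            exact congrArg (fun T : E →L[ℂ] E => T ζ) hw
          have hwap' : S (r (z ^ k)⁻¹ ζ) = r (z ^ k)⁻¹ η := by
            rw [hη]
            exact congrArg (fun T : E →L[ℂ] E => T ζ) hw'
          have hcan : r (z ^ k) (r (z ^ k)⁻¹ ζ) = ζ := hI.r_apply_inv _ _
          rw [ht]
          change S (Tp (r (z ^ k)) e ((1 / 2 : ℂ) • (ζ + (e : ℂ) • r (z ^ k)⁻¹ ζ))) = _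
          rw [Tp_apply]
          simp only [map_smul, map_add, hcan, hwap, hwap', ← hη]
          simp only [smul_add, smul_smul]
          have e1 : (1 / 2 : ℂ) * (↑e * (1 / 2 * ↑e)) = 1 / 4 := by
            calc (1 / 2 : ℂ) * (↑e * (1 / 2 * ↑e)) = 1 / 4 * ((e : ℂ) * e) := by ring
              _ = _ := by rw [hee, mul_one]
          rw [e1]
          module
        have hb : ∀ e : ℝ, (e = 1 ∨ e = -1) →
            ‖(1 / 4 : ℂ) • ((2 : ℂ) • η + (e : ℂ) • (r (z ^ k) η + r (z ^ k)⁻¹ η))‖ ^ 2 ≤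
            (2 / 3) ^ n * ((1 / 2) * (N2 r ξ C S + er k)) * ‖t e‖ ^ 2 := by
          intro e he
          obtain ⟨h1, h2⟩ := hS.mulT hI hz hzC k he
          rw [← hval e he]
          refine (ih _ h1 (t e)).trans ?_
          have h3 : 0 ≤ ‖t e‖ ^ 2 := by positivity
          have h4 : N2 r ξ C (S * Tp (r (z ^ k)) e) ≤ (1 / 2) * (N2 r ξ C S + er k) := by
            rw [her]; exact h2
          gcongr
        have h5 := hb 1 (Or.inl rfl)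
        have h6 := hb (-1) (Or.inr rfl)
        have h7 : ‖t 1‖ ^ 2 + ‖t (-1)‖ ^ 2 = ‖ζ‖ ^ 2 := by
          rw [ht]
          simp only [norm_smul, mul_pow]
          have h8 := parallelogram_law_with_norm ℂ ζ (r (z ^ k)⁻¹ ζ)
          rw [hI.norm_r] at h8
          have h9 : ‖(1 / 2 : ℂ)‖ = 1 / 2 := by norm_num
          rw [h9]
          have h10 : ζ + ((1 : ℝ) : ℂ) • r (z ^ k)⁻¹ ζ = ζ + r (z ^ k)⁻¹ ζ := by
            rw [Complex.ofReal_one, one_smul]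
          have h11 : ζ + ((-1 : ℝ) : ℂ) • r (z ^ k)⁻¹ ζ = ζ - r (z ^ k)⁻¹ ζ := by
            rw [Complex.ofReal_neg, Complex.ofReal_one, neg_one_smul, sub_eq_add_neg]
          rw [h10, h11]
          nlinarith
        have h12 := parr η (r (z ^ k) η) (r (z ^ k)⁻¹ η)
        rw [Complex.ofReal_one, one_smul] at h5
        rw [Complex.ofReal_neg, Complex.ofReal_one, neg_one_smul, ← sub_eq_add_neg] at h6
        rw [← h12, ← h7, mul_add]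
        exact add_le_add h5 h6
      -- the limit
      have hsq : Tendsto (fun k : ℕ => ‖r (z ^ k) η + r (z ^ k)⁻¹ η‖ ^ 2) atTop
          (𝓝 (2 * ‖η‖ ^ 2)) := by
        have h1 : ∀ k : ℕ, ‖r (z ^ k) η + r (z ^ k)⁻¹ η‖ ^ 2 =
            2 * ‖η‖ ^ 2 + 2 * (⟪r (z ^ k)⁻¹ η, r (z ^ k) η⟫_ℂ).re := by
          intro k
          have h2 := norm_add_sq (𝕜 := ℂ) (r (z ^ k)⁻¹ η) (r (z ^ k) η)
          rw [add_comm, h2, hI.norm_r, hI.norm_r]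
          change ‖η‖ ^ 2 + 2 * (⟪r (z ^ k)⁻¹ η, r (z ^ k) η⟫_ℂ).re + ‖η‖ ^ 2 = _
          ring
        have h2 : ∀ k : ℕ, ⟪r (z ^ k)⁻¹ η, r (z ^ k) η⟫_ℂ = ⟪η, r (z ^ (2 * k)) η⟫_ℂ := by
          intro k
          rw [hI.r_inner_left, inv_inv, two_mul, pow_add, map_mul]
          rfl
        have hinj : Function.Injective fun k : ℕ => z ^ (2 * k) := by
          intro a b hab
          have hab' : z ^ (2 * a) = z ^ (2 * b) := hab
          by_contra hne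
          rcases lt_or_gt_of_ne hne with h | h
          · refine hinf (2 * b - 2 * a) (by omega) ?_
            have h1 : z ^ (2 * b) = z ^ (2 * a) * z ^ (2 * b - 2 * a) := by
              rw [← pow_add]; congr 1; omega
            rw [h1] at hab'
            exact (mul_eq_left.mp hab'.symm)
          · refine hinf (2 * a - 2 * b) (by omega) ?_
            have h1 : z ^ (2 * a) = z ^ (2 * b) * z ^ (2 * a - 2 * b) := by
              rw [← pow_add]; congr 1; omega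
            rw [h1] at hab'
            exact (mul_eq_left.mp hab')
        have h3 := (hI.mix η η).comp hinj.tendsto_cofinite
        rw [Nat.cofinite_eq_atTop] at h3
        have h4 := (Complex.continuous_re.tendsto _).comp h3
        have h5 := (h4.const_mul 2).const_add (2 * ‖η‖ ^ 2)
        rw [Complex.zero_re, mul_zero, add_zero] at h5
        refine h5.congr fun k => ?_
        rw [h1, h2]
        rfl
      have hL : Tendsto (fun k : ℕ => ‖η‖ ^ 2 / 2 + ‖r (z ^ k) η + r (z ^ k)⁻¹ η‖ ^ 2 / 8)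
          atTop (𝓝 (‖η‖ ^ 2 / 2 + (2 * ‖η‖ ^ 2) / 8)) := (hsq.div_const 8).const_add _
      have hR : Tendsto (fun k : ℕ => (2 / 3 : ℝ) ^ n * ((1 / 2) * (N2 r ξ C S + er k)) *
          ‖ζ‖ ^ 2) atTop (𝓝 ((2 / 3 : ℝ) ^ n * ((1 / 2) * (N2 r ξ C S + 0)) * ‖ζ‖ ^ 2)) :=
        (((hlim.const_add _).const_mul _).const_mul _).mul_const _
      have hfin := le_of_tendsto_of_tendsto' hL hR hk
      have e1 : (2 / 3 : ℝ) ^ (n + 1) = (2 / 3) ^ n * (2 / 3) := pow_succ _ _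
      rw [← hη, e1]
      linarith
  ext ζ
  have h1 : ‖S ζ‖ ^ 2 ≤ 0 := by
    have h2 : Tendsto (fun n : ℕ => (2 / 3 : ℝ) ^ n * N2 r ξ C S * ‖ζ‖ ^ 2) atTop
        (𝓝 (0 * N2 r ξ C S * ‖ζ‖ ^ 2)) :=
      ((tendsto_pow_atTop_nhds_zero_of_lt_one (by norm_num) (by norm_num)).mul_const _).mul_const _
    rw [zero_mul, zero_mul] at h2
    exact ge_of_tendsto' h2 fun n => key n S hS ζ
  have h2 : ‖S ζ‖ = 0 := by nlinarith [norm_nonneg (S ζ)]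
  rw [norm_eq_zero.mp h2]; rfl

end core

section final

variable {Λ E HH T : Type} [Group Λ] [NormedAddCommGroup E] [InnerProductSpace ℂ E]
  [CompleteSpace E] [NormedAddCommGroup HH] [InnerProductSpace ℂ HH] [CompleteSpace HH]
  {r : Λ →* (E →L[ℂ] E)} {R : Λ × Λ →* (HH →L[ℂ] HH)}

/-- The data of the comultiplication. -/
structure JDM (r : Λ →* (E →L[ℂ] E)) (R : Λ × Λ →* (HH →L[ℂ] HH))
    (J : Λ → (E →L[ℂ] HH)) (A : T → (E →L[ℂ] E)) (A' : T → (HH →L[ℂ] HH)) : Prop where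
  irr : IrrM r (Set.range A)
  adjR : ∀ p, adjoint (R p) = R p⁻¹
  jj : ∀ s, adjoint (J s) ∘L J s = 1
  orth : ∀ s t, s ≠ t → adjoint (J s) ∘L J t = 0
  ja : ∀ s t, A' t ∘L J s = J s ∘L A t
  adj : ∀ t, ∃ t', adjoint (A t) = A t' ∧ adjoint (A' t) = A' t'
  js : ∀ s, J s = R (1, s)⁻¹ ∘L J 1
  jr : ∀ s c, J s ∘L r c = R (c, c) ∘L J (c⁻¹ * s * c)

variable {J : Λ → (E →L[ℂ] HH)} {A : T → (E →L[ℂ] E)} {A' : T → (HH →L[ℂ] HH)}

theorem JDM.ja' (h : JDM r R J A A') (s : Λ) (t : T) :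
    A t ∘L adjoint (J s) = adjoint (J s) ∘L A' t := by
  obtain ⟨t', h1, h2⟩ := h.adj t
  have h3 := congrArg adjoint (h.ja s t')
  rw [adjoint_comp, adjoint_comp, ← h1, ← h2, adjoint_adjoint, adjoint_adjoint] at h3
  exact h3.symm

theorem JDM.R_inner_left (h : JDM r R J A A') (p : Λ × Λ) (u v : HH) :
    ⟪R p u, v⟫_ℂ = ⟪u, R p⁻¹ v⟫_ℂ := by
  rw [← h.adjR, adjoint_inner_right]

theorem JDM.R_inv_apply (h : JDM r R J A A') (p : Λ × Λ) (v : HH) : R p⁻¹ (R p v) = v := by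
  change (R p⁻¹ * R p) v = v
  rw [← map_mul, inv_mul_cancel, map_one]; rfl

theorem JDM.jr' (h : JDM r R J A A') (s c : Λ) :
    adjoint (J s) ∘L R (c, c)⁻¹ = r c⁻¹ ∘L adjoint (J (c * s * c⁻¹)) := by
  have h3 := congrArg adjoint (h.jr (c * s * c⁻¹) c)
  have h4 : c⁻¹ * (c * s * c⁻¹) * c = s := by group
  rw [adjoint_comp, adjoint_comp, h.adjR, h.irr.adj_r, h4] at h3
  exact h3.symm

/-- Bessel's inequality for the orthogonal ranges of the `J s`. -/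
theorem JDM.bessel (h : JDM r R J A A') (η : HH) :
    Summable fun s : Λ => ‖adjoint (J s) η‖ ^ 2 := by
  classical
  refine summable_of_sum_le (c := ‖η‖ ^ 2) (fun _ => by positivity) fun F => ?_
  have hpr : ∀ s ∈ F, ∀ t ∈ F, ⟪J s (adjoint (J s) η), J t (adjoint (J t) η)⟫_ℂ =
      if s = t then ((‖adjoint (J s) η‖ ^ 2 : ℝ) : ℂ) else 0 := by
    intro s _ t _
    rw [← adjoint_inner_right]
    change ⟪adjoint (J s) η, (adjoint (J s) ∘L J t) (adjoint (J t) η)⟫_ℂ = _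
    split_ifs with hst
    · subst hst
      rw [h.jj]
      change ⟪adjoint (J s) η, adjoint (J s) η⟫_ℂ = _
      rw [inner_self_eq_norm_sq_to_K]; norm_cast
    · rw [h.orth s t hst]
      change ⟪adjoint (J s) η, (0 : E)⟫_ℂ = _
      rw [inner_zero_right]
  set w : HH := ∑ s ∈ F, J s (adjoint (J s) η) with hw
  set a : ℝ := ∑ s ∈ F, ‖adjoint (J s) η‖ ^ 2 with ha
  have h1 : ⟪w, w⟫_ℂ = (a : ℂ) := by
    rw [hw, sum_inner, ha]
    push_cast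
    refine Finset.sum_congr rfl fun s hs => ?_
    rw [inner_sum, Finset.sum_congr rfl fun t ht => hpr s hs t ht, Finset.sum_ite_eq]
    rw [if_pos hs]
    push_cast
    rfl
  have h2 : ⟪η, w⟫_ℂ = (a : ℂ) := by
    rw [hw, inner_sum, ha]
    push_cast
    refine Finset.sum_congr rfl fun s hs => ?_
    rw [← adjoint_inner_left, inner_self_eq_norm_sq_to_K]
    norm_cast
  have h3 : ‖w‖ ^ 2 = a := by
    rw [inner_self_eq_norm_sq_to_K] at h1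
    have h5 : ((‖w‖ ^ 2 : ℝ) : ℂ) = (a : ℂ) := by
      rw [← h1]; push_cast; rfl
    exact Complex.ofReal_injective h5
  have h4 : a ≤ ‖η‖ * ‖w‖ := by
    have h5 := norm_inner_le_norm (𝕜 := ℂ) η w
    rw [h2, Complex.norm_real] at h5
    exact (le_abs_self a).trans h5
  nlinarith [norm_nonneg η, norm_nonneg w, sq_nonneg (‖η‖ - ‖w‖)]

variable {X : HH →L[ℂ] HH} {ξ : E}

/-- The slice operators. -/
theorem JDM.cls (h : JDM r R J A A') (hXR : ∀ p, X * R p = R p * X)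
    (hXA : ∀ t, X * A' t = A' t * X) (ξ : E) (s : Λ) :
    ClsM r ξ (Set.range A) (Subgroup.centralizer {s}) (adjoint (J s) ∘L X ∘L J 1) := by
  have hR : ∀ p v, X (R p v) = R p (X v) := fun p v =>
    congrArg (fun L : HH →L[ℂ] HH => L v) (hXR p)
  have hJ1 : ∀ c v, J 1 (r c v) = R (c, c) (J 1 v) := fun c v => by
    have h1 := congrArg (fun L : E →L[ℂ] HH => L v) (h.jr 1 c)
    have h2 : c⁻¹ * 1 * c = 1 := by group
    rw [h2] at h1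
    exact h1
  have hk : ∀ c v, adjoint (J s) (X (J 1 (r c⁻¹ v))) =
      r c⁻¹ (adjoint (J (c * s * c⁻¹)) (X (J 1 v))) := by
    intro c v
    rw [hJ1, hR]
    have h1 := congrArg (fun L : HH →L[ℂ] E => L (X (J 1 v))) (h.jr' s c)
    exact h1
  refine ⟨?_, fun c hc => ?_, ?_⟩
  · rintro _ ⟨t, rfl⟩
    ext1 ζ
    change adjoint (J s) (X (J 1 (A t ζ))) = A t (adjoint (J s) (X (J 1 ζ)))
    have e1 : J 1 (A t ζ) = A' t (J 1 ζ) :=
      (congrArg (fun L : E →L[ℂ] HH => L ζ) (h.ja 1 t)).symm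
    have e2 : X (A' t (J 1 ζ)) = A' t (X (J 1 ζ)) :=
      congrArg (fun L : HH →L[ℂ] HH => L (J 1 ζ)) (hXA t)
    have e3 : adjoint (J s) (A' t (X (J 1 ζ))) = A t (adjoint (J s) (X (J 1 ζ))) :=
      (congrArg (fun L : HH →L[ℂ] E => L (X (J 1 ζ))) (h.ja' s t)).symm
    rw [e1, e2, e3]
  · ext1 ζ
    change adjoint (J s) (X (J 1 (r c ζ))) = r c (adjoint (J s) (X (J 1 ζ)))
    have h1 := hk c⁻¹ ζ
    rw [inv_inv] at h1
    rw [h1]
    have h2 : c * s = s * c := ((Subgroup.mem_centralizer_iff.mp hc) s rfl).symm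
    have h3 : c⁻¹ * s * c = s := by
      rw [mul_assoc, ← h2, inv_mul_cancel_left]
    rw [h3]
  · have hb := h.bessel (X (J 1 ξ))
    have hinj : Function.Injective (fun i : Λ ⧸ Subgroup.centralizer ({s} : Set Λ) =>
        (i.out * s * i.out⁻¹ : Λ)) := by
      intro i j hij
      have h4 : i.out * s * i.out⁻¹ = j.out * s * j.out⁻¹ := hij
      rw [← QuotientGroup.out_eq' i, ← QuotientGroup.out_eq' j, QuotientGroup.eq,
        Subgroup.mem_centralizer_iff]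
      intro x hx
      have hx' : x = s := hx
      rw [hx']
      calc s * (i.out⁻¹ * j.out) = i.out⁻¹ * (i.out * s * i.out⁻¹) * j.out := by group
        _ = i.out⁻¹ * (j.out * s * j.out⁻¹) * j.out := by rw [h4]
        _ = _ := by group
    refine (hb.comp_injective hinj).congr fun i => ?_
    change ‖adjoint (J (i.out * s * i.out⁻¹)) (X (J 1 ξ))‖ ^ 2 =
      ‖adjoint (J s) (X (J 1 (r (i.out)⁻¹ ξ)))‖ ^ 2
    rw [hk, h.irr.norm_r]

/-- **Ergodicity of the comultiplication** (core, form with a corner). -/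
theorem ergM (h : JDM r R J A A')
    (hT : ∀ s : Λ, s ≠ 1 → ∀ S : E →L[ℂ] E,
      ClsM r ξ (Set.range A) (Subgroup.centralizer {s}) S → S = 0)
    (P' : HH →L[ℂ] HH) (hPX : P' * X = X)
    (tot : ∀ η, P' η = η → (∀ s, adjoint (J s) η = 0) → η = 0)
    (hPJ : ∀ s, P' ∘L J s = J s)
    (hXR : ∀ p, X * R p = R p * X) (hXA : ∀ t, X * A' t = A' t * X) :
    ∃ c : ℂ, ∀ s ζ, X (J s ζ) = c • J s ζ := by
  have hR : ∀ p v, X (R p v) = R p (X v) := fun p v =>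
    congrArg (fun L : HH →L[ℂ] HH => L v) (hXR p)
  have hz : ∀ s : Λ, s ≠ 1 → adjoint (J s) ∘L X ∘L J 1 = 0 := fun s hs =>
    hT s hs _ (h.cls hXR hXA ξ s)
  have h1 := h.cls hXR hXA ξ 1
  obtain ⟨c, hc⟩ := h.irr.irr (adjoint (J 1) ∘L X ∘L J 1) (fun s => h1.cr s (by
      rw [Subgroup.mem_centralizer_iff]
      intro x hx
      have hx' : x = 1 := hx
      rw [hx', one_mul, mul_one])) h1.ca
  have hmain : ∀ ζ, X (J 1 ζ) = c • J 1 ζ := by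
    intro ζ
    refine sub_eq_zero.mp (tot _ ?_ fun s => ?_)
    · have e1 : P' (X (J 1 ζ)) = X (J 1 ζ) :=
        congrArg (fun L : HH →L[ℂ] HH => L (J 1 ζ)) hPX
      have e2 : P' (J 1 ζ) = J 1 ζ := congrArg (fun L : E →L[ℂ] HH => L ζ) (hPJ 1)
      rw [map_sub, map_smul, e1, e2]
    · rw [map_sub, map_smul]
      by_cases hs : s = 1
      · subst hs
        have e1 : adjoint (J 1) (X (J 1 ζ)) = c • ζ :=
          congrArg (fun L : E →L[ℂ] E => L ζ) hc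
        have e2 : adjoint (J 1) (J 1 ζ) = ζ := congrArg (fun L : E →L[ℂ] E => L ζ) (h.jj 1)
        rw [e1, e2, sub_self]
      · have e1 : adjoint (J s) (X (J 1 ζ)) = 0 :=
          congrArg (fun L : E →L[ℂ] E => L ζ) (hz s hs)
        have e2 : adjoint (J s) (J 1 ζ) = 0 :=
          congrArg (fun L : E →L[ℂ] E => L ζ) (h.orth s 1 hs)
        rw [e1, e2, smul_zero, sub_self]
  refine ⟨c, fun s ζ => ?_⟩
  have e1 : J s ζ = R (1, s)⁻¹ (J 1 ζ) := congrArg (fun L : E →L[ℂ] HH => L ζ) (h.js s)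
  rw [e1, hR, hmain, map_smul]

/-- **Ergodicity of the comultiplication** (core, form with a corner), torsion free groups. -/
theorem ergM_tf (h : JDM r R J A A') (hξ : ‖ξ‖ = 1)
    (hinf : ∀ s : Λ, s ≠ 1 → ∀ n : ℕ, 0 < n → s ^ n ≠ 1)
    (P' : HH →L[ℂ] HH) (hPX : P' * X = X)
    (tot : ∀ η, P' η = η → (∀ s, adjoint (J s) η = 0) → η = 0)
    (hPJ : ∀ s, P' ∘L J s = J s)
    (hXR : ∀ p, X * R p = R p * X) (hXA : ∀ t, X * A' t = A' t * X) :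
    ∃ c : ℂ, ∀ s ζ, X (J s ζ) = c • J s ζ := by
  refine ergM h (ξ := ξ) (fun s hs S hS => ?_) P' hPX tot hPJ hXR hXA
  refine ClsM.eq_zero h.irr hξ (z := s) (fun c hc => ?_) ?_ (hinf s hs) hS
  · exact ((Subgroup.mem_centralizer_iff.mp hc) s rfl).symm
  · rw [Subgroup.mem_centralizer_iff]
    rintro _ rfl
    rfl

end final

end Vale.Agent.P092.H776.TC
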