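import Mathlib

/-!
P092 (helper776): Schur's lemma for quadratic forms `ζ ↦ ∑ i, ‖X i ζ‖²` given by families of bounded
operators, invariant under an irreducible set of unitaries.
-/

set_option linter.all false

open scoped InnerProductSpace
open Filter Topology ContinuousLinearMap

namespace Vale.Agent.P092.H776

variable {H K I : Type} [NormedAddCommGroup H] [InnerProductSpace ℂ H] [CompleteSpace H]
  [NormedAddCommGroup K] [InnerProductSpace ℂ K] [CompleteSpace K]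

/-- The quadratic form of a family of bounded operators. -/
noncomputable def qf (X : I → (H →L[ℂ] K)) (ζ : H) : ENNReal :=
  ∑' i, ENNReal.ofReal (‖X i ζ‖ ^ 2)

omit [CompleteSpace H] [CompleteSpace K] in
theorem summable_of_qf {X : I → (H →L[ℂ] K)} {ζ : H} (h : qf X ζ ≠ ⊤) :
    Summable fun i => ‖X i ζ‖ ^ 2 := by
  have h1 := ENNReal.summable_toReal h
  refine h1.congr fun i => ?_
  rw [ENNReal.toReal_ofReal (by positivity)]

omit [CompleteSpace H] [CompleteSpace K] in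
theorem qf_eq_ofReal {X : I → (H →L[ℂ] K)} {ζ : H} (h : Summable fun i => ‖X i ζ‖ ^ 2) :
    qf X ζ = ENNReal.ofReal (∑' i, ‖X i ζ‖ ^ 2) := by
  rw [qf, ENNReal.ofReal_tsum_of_nonneg (fun i => by positivity) h]

omit [CompleteSpace H] [CompleteSpace K] in
theorem qf_ne_top_iff {X : I → (H →L[ℂ] K)} {ζ : H} :
    qf X ζ ≠ ⊤ ↔ Summable fun i => ‖X i ζ‖ ^ 2 :=
  ⟨summable_of_qf, fun h => by rw [qf_eq_ofReal h]; exact ENNReal.ofReal_ne_top⟩

/-- The ambient Hilbert space of the graph. -/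
abbrev GrS (H K I : Type) [NormedAddCommGroup H] [InnerProductSpace ℂ H]
    [NormedAddCommGroup K] [InnerProductSpace ℂ K] : Type :=
  WithLp 2 (H × lp (fun _ : I => K) 2)

/-- The graph. -/
noncomputable def gr (X : I → (H →L[ℂ] K)) : Submodule ℂ (GrS H K I) where
  carrier := {p | ∀ i, p.snd i = X i p.fst}
  add_mem' := by
    intro p q hp hq i
    change p.snd i + q.snd i = X i (p.fst + q.fst)
    rw [hp i, hq i, map_add]
  zero_mem' := by
    intro i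
    change (0 : K) = X i 0
    rw [map_zero]
  smul_mem' := by
    intro c p hp i
    change c • p.snd i = X i (c • p.fst)
    rw [hp i, map_smul]

theorem isClosed_gr (X : I → (H →L[ℂ] K)) : IsClosed ((gr X : Submodule ℂ (GrS H K I)) :
    Set (GrS H K I)) := by
  have h1 : ((gr X : Submodule ℂ (GrS H K I)) : Set (GrS H K I)) =
      ⋂ i, {p : GrS H K I | p.snd i = X i p.fst} := by
    ext p
    simp only [Set.mem_iInter, Set.mem_setOf_eq]
    exact Iff.rfl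
  rw [h1]
  refine isClosed_iInter fun i => ?_
  have h2 : Continuous fun p : GrS H K I => p.snd i := by
    have e1 : Continuous fun v : lp (fun _ : I => K) 2 => v i :=
      ((lp.lipschitzWith_one_eval (E := fun _ : I => K) 2 i)).continuous
    exact e1.comp (WithLp.prod_continuous_ofLp 2 H (lp (fun _ : I => K) 2)).snd
  have h3 : Continuous fun p : GrS H K I => X i p.fst :=
    (X i).continuous.comp (WithLp.prod_continuous_ofLp 2 H (lp (fun _ : I => K) 2)).fst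
  exact isClosed_eq h2 h3

instance (X : I → (H →L[ℂ] K)) : CompleteSpace (gr X) :=
  (isClosed_gr X).completeSpace_coe

/-- The first coordinate. -/
noncomputable def gB (X : I → (H →L[ℂ] K)) : gr X →L[ℂ] H :=
  LinearMap.mkContinuous
    { toFun := fun p => p.1.fst
      map_add' := fun p q => rfl
      map_smul' := fun c p => rfl } 1 (fun p => by
        rw [one_mul]
        have h1 : ‖p.1‖ ^ 2 = ‖p.1.fst‖ ^ 2 + ‖p.1.snd‖ ^ 2 := WithLp.prod_norm_sq_eq_of_L2 p.1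
        have h2 : ‖p.1.fst‖ ^ 2 ≤ ‖p.1‖ ^ 2 := by
          rw [h1]; nlinarith [sq_nonneg ‖p.1.snd‖]
        exact (pow_le_pow_iff_left₀ (norm_nonneg _) (norm_nonneg _) two_ne_zero).mp h2)

theorem gB_apply (X : I → (H →L[ℂ] K)) (p : gr X) : gB X p = p.1.fst := rfl

theorem gr_ext {X : I → (H →L[ℂ] K)} {p q : gr X} (h : gB X p = gB X q) : p = q := by
  have h1 : p.1.fst = q.1.fst := h
  apply Subtype.ext
  apply WithLp.ofLp_injective
  refine Prod.ext h1 ?_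
  change p.1.snd = q.1.snd
  ext i
  rw [p.2 i, q.2 i, h1]

theorem norm_sq_gr {X : I → (H →L[ℂ] K)} (p : gr X) :
    ‖p‖ ^ 2 = ‖gB X p‖ ^ 2 + ∑' i, ‖X i (gB X p)‖ ^ 2 := by
  have h1 : ‖p.1‖ ^ 2 = ‖p.1.fst‖ ^ 2 + ‖p.1.snd‖ ^ 2 := WithLp.prod_norm_sq_eq_of_L2 p.1
  have h2 : ‖p.1.snd‖ ^ 2 = ∑' i, ‖p.1.snd i‖ ^ 2 := by
    have := lp.norm_rpow_eq_tsum (p := 2) (by norm_num) p.1.snd
    simpa using this
  rw [Submodule.coe_norm, h1, h2]
  congr 1
  refine tsum_congr fun i => ?_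
  rw [p.2 i]
  rfl

theorem summable_gr {X : I → (H →L[ℂ] K)} (p : gr X) :
    Summable fun i => ‖X i (gB X p)‖ ^ 2 := by
  have h := lp.memℓp p.1.snd
  rw [memℓp_gen_iff (by norm_num)] at h
  refine h.congr fun i => ?_
  rw [p.2 i]
  simp [gB_apply]

omit [CompleteSpace H] [CompleteSpace K] in
theorem mem2 (X : I → (H →L[ℂ] K)) (ζ : H) (h : Summable fun i => ‖X i ζ‖ ^ 2) :
    Memℓp (fun i => X i ζ) 2 := by
  rw [memℓp_gen_iff (by norm_num)]
  simpa using h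

/-- The element of the graph over a vector of the form domain. -/
noncomputable def mkg (X : I → (H →L[ℂ] K)) (ζ : H) (h : Summable fun i => ‖X i ζ‖ ^ 2) : gr X :=
  ⟨WithLp.toLp 2 (ζ, ⟨fun i => X i ζ, mem2 X ζ h⟩), fun i => rfl⟩

theorem gB_mkg (X : I → (H →L[ℂ] K)) (ζ : H) (h : Summable fun i => ‖X i ζ‖ ^ 2) :
    gB X (mkg X ζ h) = ζ := rfl

section inv

variable {X : I → (H →L[ℂ] K)} {u : H →L[ℂ] H}

/-- The action on the graph of an operator which preserves the norm and the form. -/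
noncomputable def sU (hn : ∀ ζ, ‖u ζ‖ = ‖ζ‖) (hq : ∀ ζ, qf X (u ζ) = qf X ζ) :
    gr X →ₗᵢ[ℂ] gr X where
  toFun p := mkg X (u (gB X p)) (qf_ne_top_iff.mp (by
    rw [hq]; exact qf_ne_top_iff.mpr (summable_gr p)))
  map_add' p q := gr_ext (by
    change u (gB X (p + q)) = u (gB X p) + u (gB X q)
    rw [map_add, map_add])
  map_smul' c p := gr_ext (by
    change u (gB X (c • p)) = c • u (gB X p)
    rw [map_smul, map_smul])
  norm_map' p := by
    have h1 : Summable fun i => ‖X i (u (gB X p))‖ ^ 2 := qf_ne_top_iff.mp (by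
      rw [hq]; exact qf_ne_top_iff.mpr (summable_gr p))
    have h2 : ∑' i, ‖X i (u (gB X p))‖ ^ 2 = ∑' i, ‖X i (gB X p)‖ ^ 2 := by
      have h3 := hq (gB X p)
      rw [qf_eq_ofReal h1, qf_eq_ofReal (summable_gr p)] at h3
      exact (ENNReal.ofReal_eq_ofReal_iff (tsum_nonneg fun i => by positivity)
        (tsum_nonneg fun i => by positivity)).mp h3
    have h3 : ‖mkg X (u (gB X p)) h1‖ ^ 2 = ‖p‖ ^ 2 := by
      rw [norm_sq_gr, norm_sq_gr, gB_mkg, hn, h2]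
    exact (pow_left_inj₀ (norm_nonneg _) (norm_nonneg _) two_ne_zero).mp h3

theorem gB_sU (hn : ∀ ζ, ‖u ζ‖ = ‖ζ‖) (hq : ∀ ζ, qf X (u ζ) = qf X ζ) (p : gr X) :
    gB X (sU hn hq p) = u (gB X p) := rfl

end inv

/-- Schur's lemma for quadratic forms. -/
theorem schur_form (X : I → (H →L[ℂ] K)) (𝒰 : Set (H →L[ℂ] H))
    (hu : ∀ u ∈ 𝒰, adjoint u * u = 1 ∧ u * adjoint u = 1)
    (hadj : ∀ u ∈ 𝒰, adjoint u ∈ 𝒰)
    (irr : ∀ T : H →L[ℂ] H, (∀ u ∈ 𝒰, T * u = u * T) → ∃ c : ℂ, T = c • (1 : H →L[ℂ] H))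
    (hq : ∀ u ∈ 𝒰, ∀ ζ, qf X (u ζ) = qf X ζ) {ζ₀ : H} (h0 : ζ₀ ≠ 0) (hf : qf X ζ₀ ≠ ⊤) :
    ∃ c : ℝ, 0 ≤ c ∧ ∀ ζ, Summable (fun i => ‖X i ζ‖ ^ 2) ∧ ∑' i, ‖X i ζ‖ ^ 2 = c * ‖ζ‖ ^ 2 := by
  have hn : ∀ u ∈ 𝒰, ∀ ζ, ‖u ζ‖ = ‖ζ‖ := by
    intro u hu' ζ
    have h1 : ⟪u ζ, u ζ⟫_ℂ = ⟪ζ, ζ⟫_ℂ := by
      rw [← adjoint_inner_right]
      change ⟪ζ, (adjoint u * u) ζ⟫_ℂ = _
      rw [(hu u hu').1]; rfl
    rw [inner_self_eq_norm_sq_to_K, inner_self_eq_norm_sq_to_K] at h1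
    have h2 : ‖u ζ‖ ^ 2 = ‖ζ‖ ^ 2 := by exact_mod_cast h1
    exact (pow_left_inj₀ (norm_nonneg _) (norm_nonneg _) two_ne_zero).mp h2
  obtain ⟨B, hB⟩ : ∃ B, B = gB X := ⟨_, rfl⟩
  have hcomm : ∀ u ∈ 𝒰, (B ∘L adjoint B) * u = u * (B ∘L adjoint B) := by
    intro u hu'
    have hkey : ∀ ζ, adjoint B (u ζ) = sU (hn u hu') (hq u hu') (adjoint B ζ) := by
      intro ζ
      refine ext_inner_right ℂ fun p => ?_
      have e1 : p = sU (hn u hu') (hq u hu')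
          (sU (hn _ (hadj u hu')) (hq _ (hadj u hu')) p) := by
        refine gr_ext ?_
        rw [gB_sU, gB_sU]
        change _ = (u * adjoint u) (gB X p)
        rw [(hu u hu').2]; rfl
      obtain ⟨q, hqq⟩ : ∃ q, q = sU (hn _ (hadj u hu')) (hq _ (hadj u hu')) p := ⟨_, rfl⟩
      rw [← hqq] at e1
      rw [e1, (sU (hn u hu') (hq u hu')).inner_map_map, adjoint_inner_left, adjoint_inner_left,
        hB, gB_sU]
      have h2 : ⟪u ζ, u (gB X q)⟫_ℂ = ⟪ζ, gB X q⟫_ℂ := by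
        rw [← adjoint_inner_right]
        change ⟪ζ, (adjoint u * u) (gB X q)⟫_ℂ = _
        rw [(hu u hu').1]; rfl
      exact h2
    ext1 ζ
    change B (adjoint B (u ζ)) = u (B (adjoint B ζ))
    rw [hkey, hB, gB_sU]
  obtain ⟨c, hc⟩ := irr _ hcomm
  have hBB : ∀ ζ, B (adjoint B ζ) = c • ζ := fun ζ => by
    have := congrArg (fun T : H →L[ℂ] H => T ζ) hc
    exact this
  have hB1 : ∀ p : gr X, adjoint B (B p) = c • p := by
    intro p
    refine gr_ext ?_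
    rw [← hB, hBB, map_smul]
  have hnorm : ∀ p : gr X, (‖B p‖ ^ 2 : ℝ) = c.re * ‖p‖ ^ 2 := by
    intro p
    have h1 : ⟪B p, B p⟫_ℂ = c * ⟪p, p⟫_ℂ := by
      rw [← adjoint_inner_right, hB1]
      exact inner_smul_right (𝕜 := ℂ) p p c
    have h2 : ⟪B p, B p⟫_ℂ = ((‖B p‖ ^ 2 : ℝ) : ℂ) := by
      rw [inner_self_eq_norm_sq_to_K]; norm_cast
    have h3 : ⟪p, p⟫_ℂ = ((‖p‖ ^ 2 : ℝ) : ℂ) := by
      have := inner_self_eq_norm_sq_to_K (𝕜 := ℂ) p
      rw [this]; norm_cast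
    rw [h2, h3] at h1
    have h4 := congrArg Complex.re h1
    rwa [Complex.ofReal_re, Complex.re_mul_ofReal] at h4
  have hp0 := summable_of_qf hf
  have hc0 : c ≠ 0 := by
    rintro rfl
    have h1 := hnorm (mkg X ζ₀ hp0)
    rw [hB, gB_mkg] at h1
    simp at h1
    exact h0 h1
  have hcr : 0 < c.re := by
    have h1 := hnorm (mkg X ζ₀ hp0)
    rw [hB, gB_mkg] at h1
    have h2 : 0 < ‖ζ₀‖ ^ 2 := by positivity
    by_contra h3
    push Not at h3
    nlinarith [sq_nonneg ‖mkg X ζ₀ hp0‖]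
  have hcr1 : c.re ≤ 1 := by
    have h1 := hnorm (mkg X ζ₀ hp0)
    rw [norm_sq_gr, ← hB] at h1
    have h2 : 0 ≤ ∑' i, ‖X i (B (mkg X ζ₀ hp0))‖ ^ 2 := tsum_nonneg fun i => by positivity
    have h3 : 0 < ‖B (mkg X ζ₀ hp0)‖ ^ 2 := by
      rw [hB, gB_mkg]; positivity
    by_contra h4
    push Not at h4
    nlinarith
  refine ⟨c.re⁻¹ - 1, ?_, fun ζ => ?_⟩
  · have := one_le_inv₀ hcr |>.mpr hcr1
    linarith
  · have h1 : B (c⁻¹ • adjoint B ζ) = ζ := by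
      rw [map_smul, hBB, smul_smul, inv_mul_cancel₀ hc0, one_smul]
    obtain ⟨p, hp⟩ : ∃ p, p = c⁻¹ • adjoint B ζ := ⟨_, rfl⟩
    rw [← hp] at h1
    have h2 := summable_gr p
    have h3 := hnorm p
    rw [norm_sq_gr, ← hB] at h3
    rw [← hB] at h2
    rw [h1] at h2 h3
    refine ⟨h2, ?_⟩
    have h4 : c.re⁻¹ * ‖ζ‖ ^ 2 = ‖ζ‖ ^ 2 + ∑' i, ‖X i ζ‖ ^ 2 := by
      rw [inv_mul_eq_iff_eq_mul₀ hcr.ne']
      exact h3
    rw [sub_mul, h4]
    ring

end Vale.Agent.P092.H776
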