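import Vale.Agent.P092.H776.Schur
import Vale.Agent.P092.H160.Mult

/-!
P092 (helper776), block B-ERG: ergodicity of the comultiplication.
-/

set_option linter.all false

open scoped InnerProductSpace
open Filter Topology ContinuousLinearMap

namespace Vale.Agent.P092.H776

open Vale.Agent.P092.H160

section aux

variable {Λ H : Type} [Group Λ] [NormedAddCommGroup H] [InnerProductSpace ℂ H] [CompleteSpace H]
  {r : Λ →* (H →L[ℂ] H)} {ξ : H}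

/-- Coefficients of a representation with a cyclic trace vector vanish at infinity. -/
theorem reg_coeff_tendsto (hr : RegRep r ξ) (u v : H) :
    Tendsto (fun s : Λ => ⟪u, r s v⟫_ℂ) cofinite (𝓝 0) := by
  have hb : ∀ a : Λ, ∀ v, Tendsto (fun s : Λ => ⟪v, r s (r a ξ)⟫_ℂ) cofinite (𝓝 0) := by
    intro a v
    have h2 := (hr.summable_coeff v).tendsto_cofinite_zero
    have h3 := (Real.continuous_sqrt.tendsto 0).comp h2
    rw [Real.sqrt_zero] at h3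
    have h4 : Tendsto (fun g => ⟪r g ξ, v⟫_ℂ) cofinite (𝓝 0) := by
      rw [tendsto_zero_iff_norm_tendsto_zero]
      refine h3.congr fun y => ?_
      simp only [Function.comp_apply]
      exact Real.sqrt_sq (norm_nonneg _)
    have h5 := h4.comp (mul_left_injective a).tendsto_cofinite
    rw [tendsto_zero_iff_norm_tendsto_zero] at h5 ⊢
    refine h5.congr fun s => ?_
    rw [Function.comp_apply, map_mul, ← norm_inner_symm]
    rfl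
  have hs : ∀ s : Finset Λ, ∀ c : Λ → ℂ,
      Tendsto (fun x : Λ => ⟪u, r x (∑ a ∈ s, c a • r a ξ)⟫_ℂ) cofinite (𝓝 0) := by
    intro s c
    simp only [map_sum, map_smul, inner_sum, inner_smul_right]
    have : Tendsto (fun x : Λ => ∑ a ∈ s, c a * ⟪u, r x (r a ξ)⟫_ℂ)
        cofinite (𝓝 (∑ a ∈ s, c a * 0)) :=
      tendsto_finsetSum s fun a _ => (hb a u).const_mul _
    simpa using this
  rw [Metric.tendsto_nhds]
  intro ε hε
  have h0 : HasSum (fun g => ⟪r g ξ, v⟫_ℂ • r g ξ) v := by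
    have := hr.basis.hasSum_repr v
    simpa only [hr.basis_apply, HilbertBasis.repr_apply_apply] using this
  have h1 := h0.eventually (Metric.ball_mem_nhds v (ε := ε / (2 * (‖u‖ + 1)))
    (by positivity))
  obtain ⟨s, hs'⟩ := h1.exists
  have h2 := (Metric.tendsto_nhds.mp (hs s fun a => ⟪r a ξ, v⟫_ℂ)) (ε / 2) (by positivity)
  filter_upwards [h2] with x hx
  rw [dist_zero_right] at hx ⊢
  have h3 : ⟪u, r x v⟫_ℂ = ⟪u, r x (v - ∑ a ∈ s, ⟪r a ξ, v⟫_ℂ • r a ξ)⟫_ℂ +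
      ⟪u, r x (∑ a ∈ s, ⟪r a ξ, v⟫_ℂ • r a ξ)⟫_ℂ := by
    rw [← inner_add_right, ← map_add, sub_add_cancel]
  rw [h3]
  have hs'' : ‖v - ∑ a ∈ s, ⟪r a ξ, v⟫_ℂ • r a ξ‖ < ε / (2 * (‖u‖ + 1)) := by
    rw [← dist_eq_norm, dist_comm]
    exact hs'
  have h4 : ‖⟪u, r x (v - ∑ a ∈ s, ⟪r a ξ, v⟫_ℂ • r a ξ)⟫_ℂ‖ ≤ ε / 2 := by
    calc ‖⟪u, r x (v - ∑ a ∈ s, ⟪r a ξ, v⟫_ℂ • r a ξ)⟫_ℂ‖
        ≤ ‖u‖ * ‖r x (v - ∑ a ∈ s, ⟪r a ξ, v⟫_ℂ • r a ξ)‖ := norm_inner_le_norm _ _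
      _ ≤ (‖u‖ + 1) * (ε / (2 * (‖u‖ + 1))) := by
          rw [hr.norm_map]
          gcongr
          linarith
      _ = ε / 2 := by field_simp
  calc _ ≤ ‖⟪u, r x (v - ∑ a ∈ s, ⟪r a ξ, v⟫_ℂ • r a ξ)⟫_ℂ‖ +
        ‖⟪u, r x (∑ a ∈ s, ⟪r a ξ, v⟫_ℂ • r a ξ)⟫_ℂ‖ := norm_add_le _ _
    _ < ε := by linarith

theorem reg_hasSum_normSq (hr : RegRep r ξ) (v : H) :
    HasSum (fun g => ‖⟪r g ξ, v⟫_ℂ‖ ^ 2) (‖v‖ ^ 2) := by
  have h1 := Complex.hasSum_re (hr.hasSum_inner v v)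
  have h4 : (⟪v, v⟫_ℂ).re = ‖v‖ ^ 2 := by
    rw [inner_self_eq_norm_sq_to_K]; norm_cast
  rw [h4] at h1
  have h5 : (fun g => (⟪v, r g ξ⟫_ℂ * ⟪r g ξ, v⟫_ℂ).re) = fun g => ‖⟪r g ξ, v⟫_ℂ‖ ^ 2 := by
    funext g
    rw [← inner_conj_symm v, ← Complex.normSq_eq_conj_mul_self, Complex.ofReal_re,
      Complex.normSq_eq_norm_sq]
  rw [h5] at h1
  exact h1

theorem reg_ext_op {F : Type} [NormedAddCommGroup F] [InnerProductSpace ℂ F] [CompleteSpace F]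
    (hr : RegRep r ξ) {S T : H →L[ℂ] F} (h1 : ∀ g, S (r g ξ) = T (r g ξ)) : S = T := by
  have h2 : adjoint (S - T) = 0 := by
    ext1 v
    refine hr.total _ fun g => ?_
    rw [adjoint_inner_right, sub_apply, h1, sub_self, inner_zero_left]
  have h3 : S - T = 0 := by
    rw [← adjoint_adjoint (S - T), h2, map_zero]
  exact sub_eq_zero.mp h3

end aux

section core

variable {Λ H : Type} [Group Λ] [NormedAddCommGroup H] [InnerProductSpace ℂ H] [CompleteSpace H]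

/-- The class of operators of block (c). -/
structure Cls (r : Λ →* (H →L[ℂ] H)) (ξ : H) (𝒜 : Set (H →L[ℂ] H)) (C : Subgroup Λ)
    (S : H →L[ℂ] H) : Prop where
  ca : ∀ A ∈ 𝒜, S * A = A * S
  cr : ∀ c ∈ C, S * r c = r c * S
  fin : Summable fun i : Λ ⧸ C => ‖S (r (i.out)⁻¹ ξ)‖ ^ 2

/-- The square of the Hilbert-Schmidt norm. -/
noncomputable def N2 (r : Λ →* (H →L[ℂ] H)) (ξ : H) (C : Subgroup Λ) (S : H →L[ℂ] H) : ℝ :=
  ∑' i : Λ ⧸ C, ‖S (r (i.out)⁻¹ ξ)‖ ^ 2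

/-- The standing hypotheses. -/
structure Irr (r : Λ →* (H →L[ℂ] H)) (ξ : H) (𝒜 : Set (H →L[ℂ] H)) : Prop where
  reg : RegRep r ξ
  uni : ∀ A ∈ 𝒜, adjoint A * A = 1 ∧ A * adjoint A = 1
  adj : ∀ A ∈ 𝒜, adjoint A ∈ 𝒜
  com : ∀ A ∈ 𝒜, ∀ s, A * r s = r s * A
  irr : ∀ T : H →L[ℂ] H, (∀ s, T * r s = r s * T) → (∀ A ∈ 𝒜, T * A = A * T) →
    ∃ c : ℂ, T = c • (1 : H →L[ℂ] H)

variable {r : Λ →* (H →L[ℂ] H)} {ξ : H} {𝒜 : Set (H →L[ℂ] H)} {C : Subgroup Λ} {S : H →L[ℂ] H}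

theorem Irr.norm_map (hI : Irr r ξ 𝒜) {A : H →L[ℂ] H} (hA : A ∈ 𝒜) (ζ : H) : ‖A ζ‖ = ‖ζ‖ := by
  have h1 : ⟪A ζ, A ζ⟫_ℂ = ⟪ζ, ζ⟫_ℂ := by
    rw [← adjoint_inner_right]
    change ⟪ζ, (adjoint A * A) ζ⟫_ℂ = _
    rw [(hI.uni A hA).1]; rfl
  rw [inner_self_eq_norm_sq_to_K, inner_self_eq_norm_sq_to_K] at h1
  have h2 : ‖A ζ‖ ^ 2 = ‖ζ‖ ^ 2 := by exact_mod_cast h1
  exact (pow_left_inj₀ (norm_nonneg _) (norm_nonneg _) two_ne_zero).mp h2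

/-- the norm on cosets -/
theorem Cls.norm_coset (hI : Irr r ξ 𝒜) (hS : Cls r ξ 𝒜 C S) {a b : Λ} (h : a⁻¹ * b ∈ C) (ζ : H) :
    ‖S (r a⁻¹ ζ)‖ = ‖S (r b⁻¹ ζ)‖ := by
  have h1 : a⁻¹ = (a⁻¹ * b) * b⁻¹ := by group
  rw [h1, map_mul]
  have h2 : S ((r (a⁻¹ * b) * r b⁻¹) ζ) = r (a⁻¹ * b) (S (r b⁻¹ ζ)) := by
    have := congrArg (fun T : H →L[ℂ] H => T (r b⁻¹ ζ)) (hS.cr _ h)
    exact this
  rw [h2, hI.reg.norm_map]

/-- The quadratic form of an operator in the class is a multiple of the square of the norm. -/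
theorem Cls.form (hI : Irr r ξ 𝒜) (hS : Cls r ξ 𝒜 C S) (ζ : H) :
    Summable (fun i : Λ ⧸ C => ‖S (r (i.out)⁻¹ ζ)‖ ^ 2) ∧
      ∑' i : Λ ⧸ C, ‖S (r (i.out)⁻¹ ζ)‖ ^ 2 = N2 r ξ C S * ‖ζ‖ ^ 2 := by
  have hξ0 : ξ ≠ 0 := by
    intro h
    have := hI.reg.norm_one
    rw [h, norm_zero] at this
    exact zero_ne_one this
  obtain ⟨c, hc0, hc⟩ := schur_form (K := H) (I := Λ ⧸ C) (fun i => S * r (i.out)⁻¹)
    ({u | ∃ s, u = r s} ∪ 𝒜) (by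
      rintro u (⟨s, rfl⟩ | hA)
      · rw [hI.reg.adj, ← map_mul, ← map_mul, inv_mul_cancel, mul_inv_cancel, map_one]
        exact ⟨rfl, rfl⟩
      · exact hI.uni u hA) (by
      rintro u (⟨s, rfl⟩ | hA)
      · exact Or.inl ⟨s⁻¹, hI.reg.adj s⟩
      · exact Or.inr (hI.adj u hA)) (fun T hT => hI.irr T (fun s => hT _ (Or.inl ⟨s, rfl⟩))
        fun A hA => hT A (Or.inr hA)) (by
      rintro u (⟨s, rfl⟩ | hA) ζ
      · rw [qf, qf]
        rw [← (MulAction.toPerm s⁻¹ : Equiv.Perm (Λ ⧸ C)).tsum_eq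
          (fun i => ENNReal.ofReal (‖(S * r (i.out)⁻¹) ζ‖ ^ 2))]
        refine tsum_congr fun i => ?_
        congr 2
        change ‖S (r (i.out)⁻¹ (r s ζ))‖ = ‖S (r ((s⁻¹ • i).out)⁻¹ ζ)‖
        have e1 : r (i.out)⁻¹ (r s ζ) = r (s⁻¹ * i.out)⁻¹ ζ := by
          rw [mul_inv_rev, inv_inv, map_mul]; rfl
        rw [e1]
        refine hS.norm_coset hI ?_ ζ
        rw [← QuotientGroup.eq, QuotientGroup.out_eq']
        have e2 : ((s⁻¹ * i.out : Λ) : Λ ⧸ C) = s⁻¹ • ((i.out : Λ) : Λ ⧸ C) := rfl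
        rw [e2, QuotientGroup.out_eq']
      · rw [qf, qf]
        refine tsum_congr fun i => ?_
        congr 2
        change ‖S (r (i.out)⁻¹ (u ζ))‖ = ‖S (r (i.out)⁻¹ ζ)‖
        have e1 : r (i.out)⁻¹ (u ζ) = u (r (i.out)⁻¹ ζ) :=
          (congrArg (fun T : H →L[ℂ] H => T ζ) (hI.com u hA (i.out)⁻¹)).symm
        have e2 : S (u (r (i.out)⁻¹ ζ)) = u (S (r (i.out)⁻¹ ζ)) :=
          congrArg (fun T : H →L[ℂ] H => T (r (i.out)⁻¹ ζ)) (hS.ca u hA)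
        rw [e1, e2, hI.norm_map hA]) hξ0 (qf_ne_top_iff.mpr hS.fin)
  have h1 := (hc ξ).2
  rw [hI.reg.norm_one, one_pow, mul_one] at h1
  refine ⟨(hc ζ).1, ?_⟩
  have h2 := (hc ζ).2
  rw [N2]
  have h3 : ∑' i : Λ ⧸ C, ‖S (r (i.out)⁻¹ ξ)‖ ^ 2 = c := h1
  rw [h3]
  exact h2

/-- The norm is at most the Hilbert-Schmidt norm. -/
theorem Cls.norm_le (hI : Irr r ξ 𝒜) (hS : Cls r ξ 𝒜 C S) (ζ : H) :
    ‖S ζ‖ ^ 2 ≤ N2 r ξ C S * ‖ζ‖ ^ 2 := by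
  obtain ⟨h1, h2⟩ := hS.form hI ζ
  rw [← h2]
  have h3 := h1.le_tsum (((1 : Λ) : Λ ⧸ C)) (fun _ _ => by positivity)
  refine le_trans (le_of_eq ?_) h3
  congr 1
  have h4 : ‖S (r (1 : Λ)⁻¹ ζ)‖ = ‖S (r ((((1 : Λ) : Λ ⧸ C)).out)⁻¹ ζ)‖ := by
    refine hS.norm_coset hI ?_ ζ
    rw [← QuotientGroup.eq, QuotientGroup.out_eq']
  rw [← h4, inv_one, map_one]
  rfl

theorem N2_nonneg : 0 ≤ N2 r ξ C S := tsum_nonneg fun i => by positivity

/-- multiplication by a scalar combination -/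
theorem pm_norm (η η' : H) (e : ℝ) (he : e = 1 ∨ e = -1) (hn : ‖η'‖ = ‖η‖) :
    ‖(1 / 2 : ℂ) • (η + (e : ℂ) • η')‖ ^ 2 ≤ (1 / 2) * (‖η‖ ^ 2 + ‖⟪η, η'⟫_ℂ‖) := by
  rw [norm_smul, mul_pow]
  have h1 : ‖η + (e : ℂ) • η'‖ ^ 2 = ‖η‖ ^ 2 + 2 * (e * (⟪η, η'⟫_ℂ).re) + ‖η'‖ ^ 2 := by
    have h2 := norm_add_sq (𝕜 := ℂ) η ((e : ℂ) • η')
    rw [h2, inner_smul_right, norm_smul, mul_pow]
    have h3 : ‖(e : ℂ)‖ = 1 := by
      rw [Complex.norm_real]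
      rcases he with rfl | rfl <;> simp
    rw [h3, one_pow, one_mul]
    congr 2
    change 2 * ((e : ℂ) * ⟪η, η'⟫_ℂ).re = _
    rw [Complex.re_ofReal_mul]
  have h4 : e * (⟪η, η'⟫_ℂ).re ≤ ‖⟪η, η'⟫_ℂ‖ := by
    have h5 := Complex.abs_re_le_norm ⟪η, η'⟫_ℂ
    rw [abs_le] at h5
    rcases he with rfl | rfl
    · rw [one_mul]; exact h5.2
    · linarith [h5.1]
  have h6 : ‖(1 / 2 : ℂ)‖ = 1 / 2 := by norm_num
  rw [h6, h1, hn]
  nlinarith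

/-- The operator `(1 ± w)/2`. -/
noncomputable def Tp (w : H →L[ℂ] H) (e : ℝ) : H →L[ℂ] H :=
  (1 / 2 : ℂ) • (1 + (e : ℂ) • w)

theorem Tp_apply (w : H →L[ℂ] H) (e : ℝ) (ζ : H) :
    Tp w e ζ = (1 / 2 : ℂ) • (ζ + (e : ℂ) • w ζ) := rfl

theorem Tp_comm {w S : H →L[ℂ] H} (h : S * w = w * S) (e : ℝ) : S * Tp w e = Tp w e * S := by
  rw [Tp, mul_smul_comm, smul_mul_assoc, mul_add, add_mul, mul_one, one_mul, mul_smul_comm,
    smul_mul_assoc, h]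

variable {z : Λ}

theorem Cls.mulT (hI : Irr r ξ 𝒜) (hS : Cls r ξ 𝒜 C S) (hz : ∀ c ∈ C, c * z = z * c)
    (hzC : z ∈ C) (k : ℕ) {e : ℝ} (he : e = 1 ∨ e = -1) :
    Cls r ξ 𝒜 C (S * Tp (r (z ^ k)) e) ∧ N2 r ξ C (S * Tp (r (z ^ k)) e) ≤
      (1 / 2) * (N2 r ξ C S +
        ∑' i : Λ ⧸ C, ‖⟪S (r (i.out)⁻¹ ξ), r (z ^ k) (S (r (i.out)⁻¹ ξ))⟫_ℂ‖) := by
  have hzk : z ^ k ∈ C := C.pow_mem hzC k
  have hzk' : ∀ c ∈ C, c * z ^ k = z ^ k * c := fun c hc =>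
    (Commute.pow_right (show Commute c z from hz c hc) k)
  have e0 : ∀ i : Λ ⧸ C, (S * Tp (r (z ^ k)) e) (r (i.out)⁻¹ ξ) =
      (1 / 2 : ℂ) • (S (r (i.out)⁻¹ ξ) + (e : ℂ) • r (z ^ k) (S (r (i.out)⁻¹ ξ))) := by
    intro i
    rw [Tp_comm (hS.cr _ hzk) e]
    rfl
  have hle : ∀ i : Λ ⧸ C, ‖(S * Tp (r (z ^ k)) e) (r (i.out)⁻¹ ξ)‖ ^ 2 ≤
      (1 / 2) * (‖S (r (i.out)⁻¹ ξ)‖ ^ 2 +
        ‖⟪S (r (i.out)⁻¹ ξ), r (z ^ k) (S (r (i.out)⁻¹ ξ))⟫_ℂ‖) := by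
    intro i
    rw [e0]
    exact pm_norm _ _ e he (hI.reg.norm_map _ _)
  have hcs : ∀ i : Λ ⧸ C, ‖⟪S (r (i.out)⁻¹ ξ), r (z ^ k) (S (r (i.out)⁻¹ ξ))⟫_ℂ‖ ≤
      ‖S (r (i.out)⁻¹ ξ)‖ ^ 2 := by
    intro i
    refine (norm_inner_le_norm _ _).trans ?_
    rw [hI.reg.norm_map, sq]
  have hs1 : Summable fun i : Λ ⧸ C =>
      ‖⟪S (r (i.out)⁻¹ ξ), r (z ^ k) (S (r (i.out)⁻¹ ξ))⟫_ℂ‖ :=
    Summable.of_nonneg_of_le (fun _ => norm_nonneg _) hcs hS.fin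
  have hs2 : Summable fun i : Λ ⧸ C => ‖(S * Tp (r (z ^ k)) e) (r (i.out)⁻¹ ξ)‖ ^ 2 :=
    Summable.of_nonneg_of_le (fun _ => by positivity) hle ((hS.fin.add hs1).mul_left _)
  refine ⟨⟨fun A hA => ?_, fun c hc => ?_, hs2⟩, ?_⟩
  · rw [mul_assoc, ← Tp_comm (hI.com A hA (z ^ k)) e, ← mul_assoc, hS.ca A hA, mul_assoc]
  · have h1 : r c * r (z ^ k) = r (z ^ k) * r c := by rw [← map_mul, ← map_mul, hzk' c hc]
    rw [mul_assoc, ← Tp_comm h1 e, ← mul_assoc, hS.cr c hc, mul_assoc]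
  · rw [N2, N2, ← hS.fin.tsum_add hs1, ← tsum_mul_left]
    exact hs2.tsum_le_tsum hle ((hS.fin.add hs1).mul_left _)

theorem tend_err (hI : Irr r ξ 𝒜) (hS : Cls r ξ 𝒜 C S) (hinf : ∀ n : ℕ, 0 < n → z ^ n ≠ 1) :
    Tendsto (fun k : ℕ => ∑' i : Λ ⧸ C,
      ‖⟪S (r (i.out)⁻¹ ξ), r (z ^ k) (S (r (i.out)⁻¹ ξ))⟫_ℂ‖) atTop (𝓝 0) := by
  have hinj : Function.Injective fun k : ℕ => z ^ k := by
    intro a b hab
    by_contra hne
    rcases lt_or_gt_of_ne hne with h | h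
    · refine hinf (b - a) (by omega) ?_
      have h1 : z ^ b = z ^ a * z ^ (b - a) := by rw [← pow_add]; congr 1; omega
      have h2 : z ^ a = z ^ b := hab
      rw [h1] at h2
      exact (mul_eq_left.mp h2.symm)
    · refine hinf (a - b) (by omega) ?_
      have h1 : z ^ a = z ^ b * z ^ (a - b) := by rw [← pow_add]; congr 1; omega
      have h2 : z ^ a = z ^ b := hab
      rw [h1] at h2
      exact (mul_eq_left.mp h2)
  have h0 : (0 : ℝ) = ∑' i : Λ ⧸ C, (0 : ℝ) := by rw [tsum_zero]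
  rw [h0]
  refine tendsto_tsum_of_dominated_convergence hS.fin (fun i => ?_)
    (Eventually.of_forall fun k i => ?_)
  · have h1 := (reg_coeff_tendsto hI.reg (S (r (i.out)⁻¹ ξ)) (S (r (i.out)⁻¹ ξ))).norm
    rw [norm_zero] at h1
    have h2 := h1.comp hinj.tendsto_cofinite
    rw [Nat.cofinite_eq_atTop] at h2
    exact h2
  · rw [norm_norm]
    refine (norm_inner_le_norm _ _).trans ?_
    rw [hI.reg.norm_map, sq]

theorem parr (η w w' : H) : ‖(1 / 4 : ℂ) • ((2 : ℂ) • η + (w + w'))‖ ^ 2 +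
    ‖(1 / 4 : ℂ) • ((2 : ℂ) • η - (w + w'))‖ ^ 2 = ‖η‖ ^ 2 / 2 + ‖w + w'‖ ^ 2 / 8 := by
  rw [norm_smul, norm_smul, mul_pow, mul_pow]
  have h1 := parallelogram_law_with_norm ℂ ((2 : ℂ) • η) (w + w')
  have h2 : ‖(2 : ℂ) • η‖ = 2 * ‖η‖ := by rw [norm_smul]; norm_num
  rw [h2] at h1
  have h3 : ‖(1 / 4 : ℂ)‖ = 1 / 4 := by norm_num
  rw [h3]
  nlinarith

/-- Operators in the class vanish. -/
theorem Cls.eq_zero (hI : Irr r ξ 𝒜) (hz : ∀ c ∈ C, c * z = z * c)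
    (hzC : z ∈ C) (hinf : ∀ n : ℕ, 0 < n → z ^ n ≠ 1) (hS : Cls r ξ 𝒜 C S) : S = 0 := by
  have key : ∀ n : ℕ, ∀ S : H →L[ℂ] H, Cls r ξ 𝒜 C S → ∀ ζ : H,
      ‖S ζ‖ ^ 2 ≤ (2 / 3) ^ n * N2 r ξ C S * ‖ζ‖ ^ 2 := by
    intro n
    induction n with
    | zero =>
      intro S hS ζ
      rw [pow_zero, one_mul]
      exact hS.norm_le hI ζ
    | succ n ih =>
      intro S hS ζ
      obtain ⟨η, hη⟩ : ∃ η, η = S ζ := ⟨_, rfl⟩
      obtain ⟨er, her⟩ : ∃ er : ℕ → ℝ, er = fun k : ℕ => ∑' i : Λ ⧸ C,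
        ‖⟪S (r (i.out)⁻¹ ξ), r (z ^ k) (S (r (i.out)⁻¹ ξ))⟫_ℂ‖ := ⟨_, rfl⟩
      have hlim : Tendsto er atTop (𝓝 0) := by rw [her]; exact tend_err hI hS hinf
      -- the inequality for a fixed `k`
      have hk : ∀ k : ℕ, ‖η‖ ^ 2 / 2 + ‖r (z ^ k) η + r (z ^ k)⁻¹ η‖ ^ 2 / 8 ≤
          (2 / 3) ^ n * ((1 / 2) * (N2 r ξ C S + er k)) * ‖ζ‖ ^ 2 := by
        intro k
        have hzk : z ^ k ∈ C := C.pow_mem hzC k
        have hw := hS.cr _ hzk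
        have hw' := hS.cr _ (C.inv_mem hzk)
        -- the vectors `T± * ζ`
        obtain ⟨t, ht⟩ : ∃ t : ℝ → H, t = fun e : ℝ =>
            (1 / 2 : ℂ) • (ζ + (e : ℂ) • r (z ^ k)⁻¹ ζ) := ⟨_, rfl⟩
        have hval : ∀ e : ℝ, (e = 1 ∨ e = -1) → (S * Tp (r (z ^ k)) e) (t e) =
            (1 / 4 : ℂ) • ((2 : ℂ) • η + (e : ℂ) • (r (z ^ k) η + r (z ^ k)⁻¹ η)) := by
          intro e he
          have hee : (e : ℂ) * (e : ℂ) = 1 := by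
            rcases he with rfl | rfl <;> norm_num
          have hwap : S (r (z ^ k) ζ) = r (z ^ k) η := by
            rw [hη]
            exact congrArg (fun T : H →L[ℂ] H => T ζ) hw
          have hwap' : S (r (z ^ k)⁻¹ ζ) = r (z ^ k)⁻¹ η := by
            rw [hη]
            exact congrArg (fun T : H →L[ℂ] H => T ζ) hw'
          have hcan : r (z ^ k) (r (z ^ k)⁻¹ ζ) = ζ := hI.reg.apply_inv _ _
          rw [ht]
          change S (Tp (r (z ^ k)) e ((1 / 2 : ℂ) • (ζ + (e : ℂ) • r (z ^ k)⁻¹ ζ))) = _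
          rw [Tp_apply]
          simp only [map_smul, map_add, hcan, hwap, hwap', ← hη]
          simp only [smul_add, smul_smul]
          have e1 : (1 / 2 : ℂ) * (↑e * (1 / 2 * ↑e)) = 1 / 4 := by
            calc (1 / 2 : ℂ) * (↑e * (1 / 2 * ↑e)) = 1 / 4 * ((e : ℂ) * e) := by ring
              _ = _ := by rw [hee, mul_one]
          rw [e1]
          module
        have hb : ∀ e : ℝ, (e = 1 ∨ e = -1) →
            ‖(1 / 4 : ℂ) • ((2 : ℂ) • η + (e : ℂ) • (r (z ^ k) η + r (z ^ k)⁻¹ η))‖ ^ 2 ≤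
            (2 / 3) ^ n * ((1 / 2) * (N2 r ξ C S + er k)) * ‖t e‖ ^ 2 := by
          intro e he
          obtain ⟨h1, h2⟩ := hS.mulT hI hz hzC k he
          rw [← hval e he]
          refine (ih _ h1 (t e)).trans ?_
          have h3 : 0 ≤ ‖t e‖ ^ 2 := by positivity
          have h4 : N2 r ξ C (S * Tp (r (z ^ k)) e) ≤ (1 / 2) * (N2 r ξ C S + er k) := by
            rw [her]; exact h2
          gcongr
        have h5 := hb 1 (Or.inl rfl)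
        have h6 := hb (-1) (Or.inr rfl)
        have h7 : ‖t 1‖ ^ 2 + ‖t (-1)‖ ^ 2 = ‖ζ‖ ^ 2 := by
          rw [ht]
          simp only [norm_smul, mul_pow]
          have h8 := parallelogram_law_with_norm ℂ ζ (r (z ^ k)⁻¹ ζ)
          rw [hI.reg.norm_map] at h8
          have h9 : ‖(1 / 2 : ℂ)‖ = 1 / 2 := by norm_num
          rw [h9]
          have h10 : ζ + ((1 : ℝ) : ℂ) • r (z ^ k)⁻¹ ζ = ζ + r (z ^ k)⁻¹ ζ := by
            rw [Complex.ofReal_one, one_smul]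
          have h11 : ζ + ((-1 : ℝ) : ℂ) • r (z ^ k)⁻¹ ζ = ζ - r (z ^ k)⁻¹ ζ := by
            rw [Complex.ofReal_neg, Complex.ofReal_one, neg_one_smul, sub_eq_add_neg]
          rw [h10, h11]
          nlinarith
        have h12 := parr η (r (z ^ k) η) (r (z ^ k)⁻¹ η)
        rw [Complex.ofReal_one, one_smul] at h5
        rw [Complex.ofReal_neg, Complex.ofReal_one, neg_one_smul, ← sub_eq_add_neg] at h6
        rw [← h12, ← h7, mul_add]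
        exact add_le_add h5 h6
      -- the limit
      have hsq : Tendsto (fun k : ℕ => ‖r (z ^ k) η + r (z ^ k)⁻¹ η‖ ^ 2) atTop
          (𝓝 (2 * ‖η‖ ^ 2)) := by
        have h1 : ∀ k : ℕ, ‖r (z ^ k) η + r (z ^ k)⁻¹ η‖ ^ 2 =
            2 * ‖η‖ ^ 2 + 2 * (⟪r (z ^ k)⁻¹ η, r (z ^ k) η⟫_ℂ).re := by
          intro k
          have h2 := norm_add_sq (𝕜 := ℂ) (r (z ^ k)⁻¹ η) (r (z ^ k) η)
          rw [add_comm, h2, hI.reg.norm_map, hI.reg.norm_map]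
          change ‖η‖ ^ 2 + 2 * (⟪r (z ^ k)⁻¹ η, r (z ^ k) η⟫_ℂ).re + ‖η‖ ^ 2 = _
          ring
        have h2 : ∀ k : ℕ, ⟪r (z ^ k)⁻¹ η, r (z ^ k) η⟫_ℂ = ⟪η, r (z ^ (2 * k)) η⟫_ℂ := by
          intro k
          rw [hI.reg.inner_left, inv_inv, two_mul, pow_add, map_mul]
          rfl
        have hinj : Function.Injective fun k : ℕ => z ^ (2 * k) := by
          intro a b hab
          have hab' : z ^ (2 * a) = z ^ (2 * b) := hab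
          by_contra hne
          rcases lt_or_gt_of_ne hne with h | h
          · refine hinf (2 * b - 2 * a) (by omega) ?_
            have h1 : z ^ (2 * b) = z ^ (2 * a) * z ^ (2 * b - 2 * a) := by
              rw [← pow_add]; congr 1; omega
            rw [h1] at hab'
            exact (mul_eq_left.mp hab'.symm)
          · refine hinf (2 * a - 2 * b) (by omega) ?_
            have h1 : z ^ (2 * a) = z ^ (2 * b) * z ^ (2 * a - 2 * b) := by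
              rw [← pow_add]; congr 1; omega
            rw [h1] at hab'
            exact (mul_eq_left.mp hab')
        have h3 := (reg_coeff_tendsto hI.reg η η).comp hinj.tendsto_cofinite
        rw [Nat.cofinite_eq_atTop] at h3
        have h4 := (Complex.continuous_re.tendsto _).comp h3
        have h5 := (h4.const_mul 2).const_add (2 * ‖η‖ ^ 2)
        rw [Complex.zero_re, mul_zero, add_zero] at h5
        refine h5.congr fun k => ?_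
        rw [h1, h2]
        rfl
      have hL : Tendsto (fun k : ℕ => ‖η‖ ^ 2 / 2 + ‖r (z ^ k) η + r (z ^ k)⁻¹ η‖ ^ 2 / 8)
          atTop (𝓝 (‖η‖ ^ 2 / 2 + (2 * ‖η‖ ^ 2) / 8)) := (hsq.div_const 8).const_add _
      have hR : Tendsto (fun k : ℕ => (2 / 3 : ℝ) ^ n * ((1 / 2) * (N2 r ξ C S + er k)) *
          ‖ζ‖ ^ 2) atTop (𝓝 ((2 / 3 : ℝ) ^ n * ((1 / 2) * (N2 r ξ C S + 0)) * ‖ζ‖ ^ 2)) :=
        (((hlim.const_add _).const_mul _).const_mul _).mul_const _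
      have hfin := le_of_tendsto_of_tendsto' hL hR hk
      have e1 : (2 / 3 : ℝ) ^ (n + 1) = (2 / 3) ^ n * (2 / 3) := pow_succ _ _
      rw [← hη, e1]
      linarith
  ext ζ
  have h1 : ‖S ζ‖ ^ 2 ≤ 0 := by
    have h2 : Tendsto (fun n : ℕ => (2 / 3 : ℝ) ^ n * N2 r ξ C S * ‖ζ‖ ^ 2) atTop
        (𝓝 (0 * N2 r ξ C S * ‖ζ‖ ^ 2)) :=
      ((tendsto_pow_atTop_nhds_zero_of_lt_one (by norm_num) (by norm_num)).mul_const _).mul_const _
    rw [zero_mul, zero_mul] at h2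
    exact ge_of_tendsto' h2 fun n => key n S hS ζ
  have h2 : ‖S ζ‖ = 0 := by nlinarith [norm_nonneg (S ζ)]
  rw [norm_eq_zero.mp h2]; rfl

end core

section final

variable {Λ H HH T : Type} [Group Λ] [NormedAddCommGroup H] [InnerProductSpace ℂ H]
  [CompleteSpace H] [NormedAddCommGroup HH] [InnerProductSpace ℂ HH] [CompleteSpace HH]
  {r : Λ →* (H →L[ℂ] H)} {ξ : H} {R : Λ × Λ →* (HH →L[ℂ] HH)} {Ξ : HH}

/-- The data of the comultiplication: `J s` maps `v_p` to `v_p ⊗ v_{ps}`. -/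
structure JData (r : Λ →* (H →L[ℂ] H)) (ξ : H) (R : Λ × Λ →* (HH →L[ℂ] HH)) (Ξ : HH)
    (J : Λ → (H →L[ℂ] HH)) (A : T → (H →L[ℂ] H)) (A' : T → (HH →L[ℂ] HH)) : Prop where
  reg : RegRep R Ξ
  irr : Irr r ξ (Set.range A)
  jv : ∀ s p, J s (r p⁻¹ ξ) = R (p, p * s)⁻¹ Ξ
  ja : ∀ s t, A' t ∘L J s = J s ∘L A t
  adj : ∀ t, ∃ t', adjoint (A t) = A t' ∧ adjoint (A' t) = A' t'

variable {J : Λ → (H →L[ℂ] HH)} {A : T → (H →L[ℂ] H)} {A' : T → (HH →L[ℂ] HH)}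

theorem JData.j_one (h : JData r ξ R Ξ J A A') (s : Λ) : J s ξ = R (1, s)⁻¹ Ξ := by
  have := h.jv s 1
  rw [inv_one, map_one, one_mul] at this
  exact this

/-- `J s` intertwines the right multiplications by the centralizer of `s`. -/
theorem JData.jr (h : JData r ξ R Ξ J A A') {s c : Λ} (hc : c * s = s * c) :
    J s ∘L r c = R (c, c) ∘L J s := by
  refine reg_ext_op h.irr.reg fun p => ?_
  rw [comp_apply, comp_apply]
  have e1 : r c (r p ξ) = r (p⁻¹ * c⁻¹)⁻¹ ξ := by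
    rw [← mul_ap, ← map_mul]
    congr 2
    group
  have e2 : r p ξ = r (p⁻¹)⁻¹ ξ := by rw [inv_inv]
  rw [e1, e2, h.jv, h.jv, ← mul_ap, ← map_mul]
  congr 2
  rw [Prod.inv_mk, Prod.inv_mk, Prod.mk_mul_mk]
  have h1 : c⁻¹ * s = s * c⁻¹ := by
    rw [inv_mul_eq_iff_eq_mul, ← mul_assoc, hc, mul_inv_cancel_right]
  refine Prod.ext ?_ ?_
  · change (p⁻¹ * c⁻¹)⁻¹ = c * p⁻¹⁻¹
    group
  · change (p⁻¹ * c⁻¹ * s)⁻¹ = c * (p⁻¹ * s)⁻¹
    rw [mul_assoc, h1]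
    group

theorem JData.ja' (h : JData r ξ R Ξ J A A') (s : Λ) (t : T) :
    A t ∘L adjoint (J s) = adjoint (J s) ∘L A' t := by
  obtain ⟨t', h1, h2⟩ := h.adj t
  have h3 := congrArg adjoint (h.ja s t')
  rw [adjoint_comp, adjoint_comp, ← h1, ← h2, adjoint_adjoint, adjoint_adjoint] at h3
  exact h3.symm

theorem JData.jr' (h : JData r ξ R Ξ J A A') {s c : Λ} (hc : c * s = s * c) :
    r c ∘L adjoint (J s) = adjoint (J s) ∘L R (c, c) := by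
  have hc' : c⁻¹ * s = s * c⁻¹ := by
    rw [inv_mul_eq_iff_eq_mul, ← mul_assoc, hc, mul_inv_cancel_right]
  have h3 := congrArg adjoint (h.jr hc')
  rw [adjoint_comp, adjoint_comp, h.irr.reg.adj, h.reg.adj, inv_inv] at h3
  have h4 : ((c⁻¹, c⁻¹) : Λ × Λ)⁻¹ = (c, c) := by
    rw [Prod.inv_mk, inv_inv]
  rw [h4] at h3
  exact h3

variable {X : HH →L[ℂ] HH}

/-- The slice operators of `X`. -/
theorem JData.cls (h : JData r ξ R Ξ J A A') (hXR : ∀ p, X * R p = R p * X)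
    (hXA : ∀ t, X * A' t = A' t * X) (s : Λ) :
    Cls r ξ (Set.range A) (Subgroup.centralizer {s}) (adjoint (J s) ∘L X ∘L J 1) := by
  have hcs : ∀ c ∈ Subgroup.centralizer ({s} : Set Λ), c * s = s * c := by
    intro c hc
    exact ((Subgroup.mem_centralizer_iff.mp hc) s rfl).symm
  refine ⟨?_, fun c hc => ?_, ?_⟩
  · rintro _ ⟨t, rfl⟩
    ext1 ζ
    change adjoint (J s) (X (J 1 (A t ζ))) = A t (adjoint (J s) (X (J 1 ζ)))
    have e1 : J 1 (A t ζ) = A' t (J 1 ζ) :=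
      (congrArg (fun L : H →L[ℂ] HH => L ζ) (h.ja 1 t)).symm
    have e2 : X (A' t (J 1 ζ)) = A' t (X (J 1 ζ)) :=
      congrArg (fun L : HH →L[ℂ] HH => L (J 1 ζ)) (hXA t)
    have e3 : adjoint (J s) (A' t (X (J 1 ζ))) = A t (adjoint (J s) (X (J 1 ζ))) :=
      (congrArg (fun L : HH →L[ℂ] H => L (X (J 1 ζ))) (h.ja' s t)).symm
    rw [e1, e2, e3]
  · ext1 ζ
    change adjoint (J s) (X (J 1 (r c ζ))) = r c (adjoint (J s) (X (J 1 ζ)))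
    have e1 : J 1 (r c ζ) = R (c, c) (J 1 ζ) :=
      congrArg (fun L : H →L[ℂ] HH => L ζ) (h.jr (s := 1) (c := c) (by rw [mul_one, one_mul]))
    have e2 : X (R (c, c) (J 1 ζ)) = R (c, c) (X (J 1 ζ)) :=
      congrArg (fun L : HH →L[ℂ] HH => L (J 1 ζ)) (hXR (c, c))
    have e3 : adjoint (J s) (R (c, c) (X (J 1 ζ))) = r c (adjoint (J s) (X (J 1 ζ))) :=
      (congrArg (fun L : HH →L[ℂ] H => L (X (J 1 ζ))) (h.jr' (hcs c hc))).symm
    rw [e1, e2, e3]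
  · -- the coefficients
    have hco : ∀ a q : Λ, ⟪r q⁻¹ ξ, (adjoint (J s) ∘L X ∘L J 1) (r a⁻¹ ξ)⟫_ℂ =
        ⟪R (q * a⁻¹, q * a⁻¹ * (a * s * a⁻¹))⁻¹ Ξ, X Ξ⟫_ℂ := by
      intro a q
      change ⟪r q⁻¹ ξ, adjoint (J s) (X (J 1 (r a⁻¹ ξ)))⟫_ℂ = _
      rw [adjoint_inner_right, h.jv, h.jv, mul_one]
      have e2 : X (R (a, a)⁻¹ Ξ) = R (a, a)⁻¹ (X Ξ) :=
        congrArg (fun L : HH →L[ℂ] HH => L Ξ) (hXR (a, a)⁻¹)
      rw [e2, h.reg.inner_right, ← mul_ap, ← map_mul, inv_inv]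
      congr 4
      rw [Prod.inv_mk, Prod.inv_mk, Prod.mk_mul_mk]
      refine Prod.ext ?_ ?_
      · change a * q⁻¹ = (q * a⁻¹)⁻¹
        group
      · change a * (q * s)⁻¹ = (q * a⁻¹ * (a * s * a⁻¹))⁻¹
        group
    have hn : ∀ a : Λ, HasSum (fun q : Λ =>
        ‖⟪R (q, q * (a * s * a⁻¹))⁻¹ Ξ, X Ξ⟫_ℂ‖ ^ 2)
        (‖(adjoint (J s) ∘L X ∘L J 1) (r a⁻¹ ξ)‖ ^ 2) := by
      intro a
      have h1 := reg_hasSum_normSq h.irr.reg ((adjoint (J s) ∘L X ∘L J 1) (r a⁻¹ ξ))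
      rw [← ((Equiv.mulRight a).trans (Equiv.inv Λ)).hasSum_iff] at h1
      have h5 : ((fun g => ‖⟪r g ξ, (adjoint (J s) ∘L X ∘L J 1) (r a⁻¹ ξ)⟫_ℂ‖ ^ 2) ∘
          ((Equiv.mulRight a).trans (Equiv.inv Λ))) = fun q : Λ =>
          ‖⟪R (q, q * (a * s * a⁻¹))⁻¹ Ξ, X Ξ⟫_ℂ‖ ^ 2 := by
        funext q
        change ‖⟪r (q * a)⁻¹ ξ, (adjoint (J s) ∘L X ∘L J 1) (r a⁻¹ ξ)⟫_ℂ‖ ^ 2 = _
        rw [hco, mul_inv_cancel_right]
      rw [h5] at h1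
      exact h1
    have htot := (reg_hasSum_normSq h.reg (X Ξ)).summable
    have hinj : Function.Injective (fun x : (Λ ⧸ Subgroup.centralizer ({s} : Set Λ)) × Λ =>
        ((x.2, x.2 * (x.1.out * s * x.1.out⁻¹))⁻¹ : Λ × Λ)) := by
      rintro ⟨i, q⟩ ⟨j, q'⟩ hij
      have h1 := inv_injective hij
      have h2 : q = q' := congrArg Prod.fst h1
      have h3 : q * (i.out * s * i.out⁻¹) = q' * (j.out * s * j.out⁻¹) := congrArg Prod.snd h1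
      subst h2
      have h4 : i.out * s * i.out⁻¹ = j.out * s * j.out⁻¹ := mul_left_cancel h3
      have h5 : i = j := by
        rw [← QuotientGroup.out_eq' i, ← QuotientGroup.out_eq' j, QuotientGroup.eq,
          Subgroup.mem_centralizer_iff]
        intro x hx
        have hx' : x = s := hx
        rw [hx']
        calc s * (i.out⁻¹ * j.out) = i.out⁻¹ * (i.out * s * i.out⁻¹) * j.out := by group
          _ = i.out⁻¹ * (j.out * s * j.out⁻¹) * j.out := by rw [h4]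
          _ = _ := by group
      rw [h5]
    have hsum := (htot.comp_injective hinj).prod
    refine hsum.congr fun i => ?_
    exact (hn i.out).tsum_eq

/-- Elements of infinite order: the class of operators is zero. -/
theorem cls_zero_of_order {𝒜 : Set (H →L[ℂ] H)} (hI : Irr r ξ 𝒜) {s : Λ}
    (hinf : ∀ n : ℕ, 0 < n → s ^ n ≠ 1) {S : H →L[ℂ] H}
    (hS : Cls r ξ 𝒜 (Subgroup.centralizer {s}) S) : S = 0 := by
  refine hS.eq_zero hI (z := s) (fun c hc => ?_) ?_ hinf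
  · exact ((Subgroup.mem_centralizer_iff.mp hc) s rfl).symm
  · rw [Subgroup.mem_centralizer_iff]
    rintro _ rfl
    rfl

/-- **Ergodicity of the comultiplication**, from the vanishing of the classes of operators of the
centralizers of the nontrivial elements. -/
theorem erg_of (h : JData r ξ R Ξ J A A')
    (hT : ∀ s : Λ, s ≠ 1 → ∀ S : H →L[ℂ] H,
      Cls r ξ (Set.range A) (Subgroup.centralizer {s}) S → S = 0)
    (hXR : ∀ p, X * R p = R p * X) (hXA : ∀ t, X * A' t = A' t * X) :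
    ∃ c : ℂ, X = c • (1 : HH →L[ℂ] HH) := by
  have hz : ∀ s : Λ, s ≠ 1 → adjoint (J s) ∘L X ∘L J 1 = 0 := fun s hs =>
    hT s hs _ (h.cls hXR hXA s)
  -- the diagonal slice is scalar
  obtain ⟨c, hc⟩ := h.irr.irr (adjoint (J 1) ∘L X ∘L J 1) (fun s => by
      ext1 ζ
      change adjoint (J 1) (X (J 1 (r s ζ))) = r s (adjoint (J 1) (X (J 1 ζ)))
      have e1 : J 1 (r s ζ) = R (s, s) (J 1 ζ) :=
        congrArg (fun L : H →L[ℂ] HH => L ζ) (h.jr (s := 1) (c := s) (by rw [mul_one, one_mul]))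
      have e2 : X (R (s, s) (J 1 ζ)) = R (s, s) (X (J 1 ζ)) :=
        congrArg (fun L : HH →L[ℂ] HH => L (J 1 ζ)) (hXR (s, s))
      have e3 : adjoint (J 1) (R (s, s) (X (J 1 ζ))) = r s (adjoint (J 1) (X (J 1 ζ))) :=
        (congrArg (fun L : HH →L[ℂ] H => L (X (J 1 ζ)))
          (h.jr' (s := 1) (c := s) (by rw [mul_one, one_mul]))).symm
      rw [e1, e2, e3]) (fun A₀ hA₀ => (h.cls hXR hXA 1).ca A₀ hA₀)
  refine ⟨c, h.reg.ext_cmm (fun p => hXR p) (fun p => by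
    rw [smul_mul_assoc, mul_smul_comm, one_mul, mul_one]) ?_⟩
  refine h.reg.ext_vec fun g => ?_
  obtain ⟨⟨p, q⟩, rfl⟩ : ∃ g', g = g'⁻¹ := ⟨g⁻¹, (inv_inv g).symm⟩
  have h1 : ⟪R (p, q)⁻¹ Ξ, X Ξ⟫_ℂ =
      ⟪r p⁻¹ ξ, (adjoint (J (p⁻¹ * q)) ∘L X ∘L J 1) ξ⟫_ℂ := by
    change _ = ⟪r p⁻¹ ξ, adjoint (J (p⁻¹ * q)) (X (J 1 ξ))⟫_ℂ
    rw [adjoint_inner_right, h.jv, mul_inv_cancel_left, h.j_one]
    have h2 : ((1, 1) : Λ × Λ)⁻¹ = 1 := by
      rw [Prod.inv_mk, inv_one]; rfl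
    rw [h2, map_one]
    rfl
  rw [h1]
  change _ = ⟪R (p, q)⁻¹ Ξ, c • Ξ⟫_ℂ
  rw [inner_smul_right]
  by_cases hpq : p⁻¹ * q = 1
  · have hq : q = p := by
      rw [inv_mul_eq_one] at hpq; exact hpq.symm
    subst hq
    rw [inv_mul_cancel, hc]
    change ⟪r q⁻¹ ξ, c • ξ⟫_ℂ = _
    rw [inner_smul_right]
    congr 1
    by_cases hp : q = 1
    · subst hp
      have h2 : ((1, 1) : Λ × Λ)⁻¹ = 1 := by
        rw [Prod.inv_mk, inv_one]; rfl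
      rw [h2, inv_one, map_one, map_one]
      change ⟪ξ, ξ⟫_ℂ = ⟪Ξ, Ξ⟫_ℂ
      rw [inner_self_eq_norm_sq_to_K, inner_self_eq_norm_sq_to_K, h.irr.reg.norm_one,
        h.reg.norm_one]
    · rw [← inner_conj_symm, h.irr.reg.inner_zero _ (inv_ne_one.mpr hp), ← inner_conj_symm,
        h.reg.inner_zero _ (fun h3 => hp ?_)]
      have h4 := congrArg Prod.fst h3
      exact inv_eq_one.mp h4
  · rw [hz _ hpq, zero_apply, inner_zero_right, ← inner_conj_symm, h.reg.inner_zero _ (fun h3 => ?_),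
      map_zero, mul_zero]
    refine hpq ?_
    have h4 : ((p, q) : Λ × Λ) = 1 := inv_eq_one.mp h3
    have h5 : p = 1 := congrArg Prod.fst h4
    have h6 : q = 1 := congrArg Prod.snd h4
    rw [h5, h6, inv_one, one_mul]

/-- **Ergodicity of the comultiplication** of a torsion free group. -/
theorem erg (h : JData r ξ R Ξ J A A') (hinf : ∀ s : Λ, s ≠ 1 → ∀ n : ℕ, 0 < n → s ^ n ≠ 1)
    (hXR : ∀ p, X * R p = R p * X) (hXA : ∀ t, X * A' t = A' t * X) :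
    ∃ c : ℂ, X = c • (1 : HH →L[ℂ] HH) :=
  erg_of h (fun s hs _ hS => cls_zero_of_order h.irr (hinf s hs) hS) hXR hXA

end final

end Vale.Agent.P092.H776
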