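import Vale.Agent.P092.H933.Cart

/-!
P092 (helper776), Team N, [N-GAP] (A), part 1: the sizes `nmx` (entries) and `mn2` (2x2 minors) of a
matrix compared with the gaps of its bounded Cartan decomposition, any local field, any size.
-/

set_option linter.all false

namespace Vale.Agent.P092.H776.NG

open Matrix
open Vale.Agent.P092.H933 (BCart)

variable {n : ℕ} {k : Type} [NormedField k]

/-- the maximum of the norms of the entries -/
noncomputable def nmx (A : Matrix (Fin n) (Fin n) k) : ℝ := ‖(fun i j => A i j : Fin n → Fin n → k)‖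

/-- the 2x2 minor with rows `i, i'` and columns `j, j'` -/
def mi (A : Matrix (Fin n) (Fin n) k) (i i' j j' : Fin n) : k := A i j * A i' j' - A i j' * A i' j

/-- the maximum of the norms of the 2x2 minors -/
noncomputable def mn2 (A : Matrix (Fin n) (Fin n) k) : ℝ :=
  ‖(fun i i' j j' => mi A i i' j j' : Fin n → Fin n → Fin n → Fin n → k)‖

theorem nmx_nonneg (A : Matrix (Fin n) (Fin n) k) : 0 ≤ nmx A := norm_nonneg _

theorem mn2_nonneg (A : Matrix (Fin n) (Fin n) k) : 0 ≤ mn2 A := norm_nonneg _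

theorem le_nmx (A : Matrix (Fin n) (Fin n) k) (i j : Fin n) : ‖A i j‖ ≤ nmx A :=
  (norm_le_pi_norm (fun j => A i j) j).trans
    (norm_le_pi_norm (fun i j => A i j : Fin n → Fin n → k) i)

theorem nmx_le {A : Matrix (Fin n) (Fin n) k} {r : ℝ} (hr : 0 ≤ r) (h : ∀ i j, ‖A i j‖ ≤ r) :
    nmx A ≤ r :=
  (pi_norm_le_iff_of_nonneg hr).2 fun i => (pi_norm_le_iff_of_nonneg hr).2 fun j => h i j

theorem le_mn2 (A : Matrix (Fin n) (Fin n) k) (i i' j j' : Fin n) : ‖mi A i i' j j'‖ ≤ mn2 A :=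
  ((norm_le_pi_norm (fun j' => mi A i i' j j') j').trans
    ((norm_le_pi_norm (fun j j' => mi A i i' j j' : Fin n → Fin n → k) j).trans
      ((norm_le_pi_norm (fun i' j j' => mi A i i' j j' : Fin n → Fin n → Fin n → k) i').trans
        (norm_le_pi_norm (fun i i' j j' => mi A i i' j j' :
          Fin n → Fin n → Fin n → Fin n → k) i))))

theorem nmx_tr (A : Matrix (Fin n) (Fin n) k) : nmx Aᵀ = nmx A :=
  le_antisymm (nmx_le (nmx_nonneg _) fun i j => le_nmx A j i)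
    (nmx_le (nmx_nonneg _) fun i j => le_nmx Aᵀ j i)

theorem mn2_le {A : Matrix (Fin n) (Fin n) k} {r : ℝ} (hr : 0 ≤ r)
    (h : ∀ i i' j j', ‖mi A i i' j j'‖ ≤ r) : mn2 A ≤ r :=
  (pi_norm_le_iff_of_nonneg hr).2 fun i => (pi_norm_le_iff_of_nonneg hr).2 fun i' =>
    (pi_norm_le_iff_of_nonneg hr).2 fun j => (pi_norm_le_iff_of_nonneg hr).2 fun j' => h i i' j j'

theorem mi_tr (A : Matrix (Fin n) (Fin n) k) (i i' j j' : Fin n) :
    mi Aᵀ i i' j j' = mi A j j' i i' := by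
  simp only [mi, transpose_apply]
  ring

theorem mn2_tr (A : Matrix (Fin n) (Fin n) k) : mn2 Aᵀ = mn2 A :=
  le_antisymm (mn2_le (mn2_nonneg _) fun i i' j j' => by rw [mi_tr]; exact le_mn2 A _ _ _ _)
    (mn2_le (mn2_nonneg _) fun i i' j j' => by
      have h := le_mn2 Aᵀ j j' i i'
      rwa [mi_tr] at h)

/-! ### Products with bounded matrices -/

/-- entries of `κ * diagonal a * κ'` -/
theorem entry_le {κ κ' : Matrix (Fin n) (Fin n) k} {a : Fin n → k} {C s : ℝ} (hC : 0 ≤ C)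
    (h1 : ∀ i j, ‖κ i j‖ ≤ C) (h2 : ∀ i j, ‖κ' i j‖ ≤ C) (ha : ∀ i, ‖a i‖ ≤ s) :
    nmx (κ * diagonal a * κ') ≤ n * C ^ 2 * s := by
  rcases Nat.eq_zero_or_pos n with hn | hn
  · subst hn
    have : nmx (κ * diagonal a * κ') ≤ 0 := nmx_le le_rfl fun i => i.elim0
    refine this.trans ?_
    simp
  have hs : 0 ≤ s := (norm_nonneg _).trans (ha ⟨0, hn⟩)
  refine nmx_le (by positivity) fun i j => ?_
  have e : (κ * diagonal a * κ') i j = ∑ l, κ i l * a l * κ' l j := by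
    rw [Matrix.mul_apply]
    refine Finset.sum_congr rfl fun l _ => ?_
    rw [Matrix.mul_diagonal]
  rw [e]
  refine (norm_sum_le _ _).trans ?_
  have h3 : ∀ l ∈ Finset.univ, ‖κ i l * a l * κ' l j‖ ≤ C ^ 2 * s := by
    intro l _
    rw [norm_mul, norm_mul]
    calc ‖κ i l‖ * ‖a l‖ * ‖κ' l j‖ ≤ C * s * C := by
          gcongr
          · exact h1 i l
          · exact ha l
          · exact h2 l j
      _ = C ^ 2 * s := by ring
  refine (Finset.sum_le_sum h3).trans ?_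
  rw [Finset.sum_const, Finset.card_univ, Fintype.card_fin, nsmul_eq_mul]
  exact le_of_eq (by ring)

/-- entries of `L * A * L'` -/
theorem diag_le {A L L' : Matrix (Fin n) (Fin n) k} {a : Fin n → k} {C : ℝ} (hC : 0 ≤ C)
    (h1 : ∀ i j, ‖L i j‖ ≤ C) (h2 : ∀ i j, ‖L' i j‖ ≤ C) (hd : L * A * L' = diagonal a)
    (l : Fin n) : ‖a l‖ ≤ n ^ 2 * C ^ 2 * nmx A := by
  have e : a l = ∑ j, ∑ i, L l i * A i j * L' j l := by
    have h3 : a l = (L * A * L') l l := by rw [hd, diagonal_apply_eq]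
    rw [h3, Matrix.mul_apply]
    refine Finset.sum_congr rfl fun j _ => ?_
    rw [Matrix.mul_apply, Finset.sum_mul]
  rw [e]
  refine (norm_sum_le _ _).trans ?_
  have h3 : ∀ j ∈ Finset.univ, ‖∑ i, L l i * A i j * L' j l‖ ≤ n * (C ^ 2 * nmx A) := by
    intro j _
    refine (norm_sum_le _ _).trans ?_
    have h4 : ∀ i ∈ Finset.univ, ‖L l i * A i j * L' j l‖ ≤ C ^ 2 * nmx A := by
      intro i _
      rw [norm_mul, norm_mul]
      have n0 := nmx_nonneg A
      calc ‖L l i‖ * ‖A i j‖ * ‖L' j l‖ ≤ C * nmx A * C := by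
            gcongr
            · exact h1 l i
            · exact le_nmx A i j
            · exact h2 j l
        _ = C ^ 2 * nmx A := by ring
    refine (Finset.sum_le_sum h4).trans ?_
    rw [Finset.sum_const, Finset.card_univ, Fintype.card_fin, nsmul_eq_mul]
  refine (Finset.sum_le_sum h3).trans ?_
  rw [Finset.sum_const, Finset.card_univ, Fintype.card_fin, nsmul_eq_mul]
  exact le_of_eq (by ring)

/-- 2x2 minors of `L * A * L'` -/
theorem minor_le {A L L' : Matrix (Fin n) (Fin n) k} {a : Fin n → k} {C : ℝ} (hC : 0 ≤ C)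
    (h1 : ∀ i j, ‖L i j‖ ≤ C) (h2 : ∀ i j, ‖L' i j‖ ≤ C) (hd : L * A * L' = diagonal a)
    {p q : Fin n} (hpq : p ≠ q) : ‖a p * a q‖ ≤ n ^ 4 * C ^ 4 * mn2 A := by
  have e0 : ∀ x y : Fin n, (L * A * L') x y = ∑ i, ∑ j, L x i * A i j * L' j y := by
    intro x y
    rw [Matrix.mul_apply]
    rw [Finset.sum_comm]
    refine Finset.sum_congr rfl fun j _ => ?_
    rw [Matrix.mul_apply, Finset.sum_mul]
  have e : a p * a q = ∑ i, ∑ j, ∑ i', ∑ j', L p i * L q i' * L' j p * L' j' q * mi A i i' j j' := by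
    have h3 : a p * a q = (L * A * L') p p * (L * A * L') q q -
        (L * A * L') p q * (L * A * L') q p := by
      rw [hd, diagonal_apply_eq, diagonal_apply_eq, diagonal_apply_ne _ hpq, zero_mul, sub_zero]
    have h4 : (L * A * L') p p * (L * A * L') q q =
        ∑ i, ∑ j, ∑ i', ∑ j', (L p i * A i j * L' j p) * (L q i' * A i' j' * L' j' q) := by
      rw [e0, e0, Finset.sum_mul]
      refine Finset.sum_congr rfl fun i _ => ?_
      rw [Finset.sum_mul]
      refine Finset.sum_congr rfl fun j _ => ?_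
      rw [Finset.mul_sum]
      refine Finset.sum_congr rfl fun i' _ => ?_
      rw [Finset.mul_sum]
    have h5 : (L * A * L') p q * (L * A * L') q p =
        ∑ i, ∑ j, ∑ i', ∑ j', (L p i * A i j' * L' j' q) * (L q i' * A i' j * L' j p) := by
      rw [e0, e0, Finset.sum_mul]
      refine Finset.sum_congr rfl fun i _ => ?_
      rw [Finset.sum_mul]
      have h6 : ∀ j', L p i * A i j' * L' j' q * (∑ i', ∑ j, L q i' * A i' j * L' j p) =
          ∑ j, ∑ i', L p i * A i j' * L' j' q * (L q i' * A i' j * L' j p) := by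
        intro j'
        rw [Finset.mul_sum, Finset.sum_comm]
        refine Finset.sum_congr rfl fun i' _ => ?_
        rw [Finset.mul_sum]
      rw [Finset.sum_congr rfl fun j' _ => h6 j', Finset.sum_comm]
      refine Finset.sum_congr rfl fun j _ => ?_
      rw [Finset.sum_comm]
    rw [h3, h4, h5, ← Finset.sum_sub_distrib]
    refine Finset.sum_congr rfl fun i _ => ?_
    rw [← Finset.sum_sub_distrib]
    refine Finset.sum_congr rfl fun j _ => ?_
    rw [← Finset.sum_sub_distrib]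
    refine Finset.sum_congr rfl fun i' _ => ?_
    rw [← Finset.sum_sub_distrib]
    refine Finset.sum_congr rfl fun j' _ => ?_
    unfold mi
    ring
  rw [e]
  have step : ∀ (f : Fin n → k) (B : ℝ), (∀ i, ‖f i‖ ≤ B) → ‖∑ i, f i‖ ≤ n * B := by
    intro f B hf
    refine (norm_sum_le _ _).trans ((Finset.sum_le_sum fun i _ => hf i).trans ?_)
    rw [Finset.sum_const, Finset.card_univ, Fintype.card_fin, nsmul_eq_mul]
  have h7 : ‖∑ i, ∑ j, ∑ i', ∑ j', L p i * L q i' * L' j p * L' j' q * mi A i i' j j'‖ ≤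
      n * (n * (n * (n * (C * C * C * C * mn2 A)))) := by
    refine step _ _ fun i => step _ _ fun j => step _ _ fun i' => step _ _ fun j' => ?_
    rw [norm_mul, norm_mul, norm_mul, norm_mul]
    have := h1 p i
    have := h1 q i'
    have := h2 j p
    have := h2 j' q
    have := le_mn2 A i i' j j'
    gcongr
  exact h7.trans (le_of_eq (by ring))

/-! ### Determinants -/

theorem det_le {κ : Matrix (Fin n) (Fin n) k} {C : ℝ} (h : ∀ i j, ‖κ i j‖ ≤ C) :
    ‖κ.det‖ ≤ (n.factorial : ℝ) * C ^ n := by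
  rw [Matrix.det_apply]
  refine (norm_sum_le _ _).trans ?_
  have h1 : ∀ σ ∈ (Finset.univ : Finset (Equiv.Perm (Fin n))),
      ‖Equiv.Perm.sign σ • ∏ i, κ (σ i) i‖ ≤ C ^ n := by
    intro σ _
    have h2 : ‖Equiv.Perm.sign σ • ∏ i, κ (σ i) i‖ = ‖∏ i, κ (σ i) i‖ := by
      rcases Int.units_eq_one_or (Equiv.Perm.sign σ) with h | h
      · rw [h, one_smul]
      · rw [h, Units.neg_smul, one_smul, norm_neg]
    rw [h2, norm_prod]
    calc ∏ i, ‖κ (σ i) i‖ ≤ ∏ _i : Fin n, C :=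
          Finset.prod_le_prod (fun i _ => norm_nonneg _) fun i _ => h _ _
      _ = C ^ n := by rw [Finset.prod_const, Finset.card_univ, Fintype.card_fin]
  refine (Finset.sum_le_sum h1).trans ?_
  rw [Finset.sum_const, Finset.card_univ, Fintype.card_perm, Fintype.card_fin, nsmul_eq_mul]

/-- The product of the diagonal entries is bounded above and below. -/
theorem prod_le {A κ κi κ' κi' : Matrix (Fin n) (Fin n) k} {a : Fin n → k} {C : ℝ}
    (o1 : κ * κi = 1) (o2 : κ' * κi' = 1)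
    (hb : ∀ i j, ‖κ i j‖ ≤ C ∧ ‖κi i j‖ ≤ C ∧ ‖κ' i j‖ ≤ C ∧ ‖κi' i j‖ ≤ C)
    (hA : A = κ * diagonal a * κ') (hdet : ‖A.det‖ = 1) :
    1 ≤ ((n.factorial : ℝ) * C ^ n) ^ 2 * ∏ i, ‖a i‖ ∧
      ∏ i, ‖a i‖ ≤ ((n.factorial : ℝ) * C ^ n) ^ 2 := by
  have e1 : ‖κ.det‖ * ‖κi.det‖ = 1 := by
    rw [← norm_mul, ← Matrix.det_mul, o1, Matrix.det_one, norm_one]
  have e2 : ‖κ'.det‖ * ‖κi'.det‖ = 1 := by
    rw [← norm_mul, ← Matrix.det_mul, o2, Matrix.det_one, norm_one]
  have e3 : ‖κ.det‖ * (∏ i, ‖a i‖) * ‖κ'.det‖ = 1 := by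
    rw [← hdet, hA, Matrix.det_mul, Matrix.det_mul, Matrix.det_diagonal, norm_mul, norm_mul,
      norm_prod]
  obtain ⟨D, hD⟩ : ∃ D, D = (n.factorial : ℝ) * C ^ n := ⟨_, rfl⟩
  have d1 : ‖κ.det‖ ≤ D := hD ▸ det_le fun i j => (hb i j).1
  have d2 : ‖κi.det‖ ≤ D := hD ▸ det_le fun i j => (hb i j).2.1
  have d3 : ‖κ'.det‖ ≤ D := hD ▸ det_le fun i j => (hb i j).2.2.1
  have d4 : ‖κi'.det‖ ≤ D := hD ▸ det_le fun i j => (hb i j).2.2.2
  rw [← hD]
  have hP : 0 ≤ ∏ i, ‖a i‖ := Finset.prod_nonneg fun i _ => norm_nonneg _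
  have hD0 : 0 ≤ D := (norm_nonneg _).trans d1
  constructor
  · calc (1 : ℝ) = ‖κ.det‖ * (∏ i, ‖a i‖) * ‖κ'.det‖ := e3.symm
      _ ≤ D * (∏ i, ‖a i‖) * D := by gcongr
      _ = D ^ 2 * ∏ i, ‖a i‖ := by ring
  · have e4 : ∏ i, ‖a i‖ = ‖κi.det‖ * ‖κi'.det‖ := by
      calc ∏ i, ‖a i‖ = (‖κ.det‖ * ‖κi.det‖) * (∏ i, ‖a i‖) * (‖κ'.det‖ * ‖κi'.det‖) := by
            rw [e1, e2, one_mul, mul_one]
        _ = (‖κ.det‖ * (∏ i, ‖a i‖) * ‖κ'.det‖) * (‖κi.det‖ * ‖κi'.det‖) := by ring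
        _ = _ := by rw [e3, one_mul]
    rw [e4, sq]
    gcongr

/-- inverse of a bounded Cartan decomposition -/
theorem inv_eq {A κ κi κ' κi' : Matrix (Fin n) (Fin n) k} {a : Fin n → k}
    (o1 : κ * κi = 1) (o2 : κ' * κi' = 1) (ha : ∀ i, a i ≠ 0)
    (hA : A = κ * diagonal a * κ') : A⁻¹ = κi' * diagonal (fun i => (a i)⁻¹) * κi := by
  refine Matrix.inv_eq_right_inv ?_
  rw [hA]
  have h1 : diagonal a * diagonal (fun i => (a i)⁻¹) = (1 : Matrix (Fin n) (Fin n) k) := by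
    rw [diagonal_mul_diagonal]
    have : (fun i => a i * (a i)⁻¹) = fun _ => (1 : k) := funext fun i => mul_inv_cancel₀ (ha i)
    rw [this, diagonal_one]
  calc κ * diagonal a * κ' * (κi' * diagonal (fun i => (a i)⁻¹) * κi)
      = κ * diagonal a * (κ' * κi') * diagonal (fun i => (a i)⁻¹) * κi := by
        simp only [Matrix.mul_assoc]
    _ = κ * (diagonal a * diagonal (fun i => (a i)⁻¹)) * κi := by
        rw [o2, Matrix.mul_one]
        simp only [Matrix.mul_assoc]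
    _ = 1 := by rw [h1, Matrix.mul_one, o1]

end Vale.Agent.P092.H776.NG
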