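import Vale.Agent.P092.H776.NG1

/-!
P092 (helper776), Team N, [N-GAP] (A), part 2: if both of `G1`, `G2` are large, then two different
gaps of the bounded Cartan decomposition are large.
-/

set_option linter.all false

namespace Vale.Agent.P092.H776.NG

open Matrix
open Vale.Agent.P092.H933 (BCart)

variable {n : ℕ} {k : Type} [NormedField k]

/-- the logarithm of the quotient of the first two singular values, up to a constant -/
noncomputable def G1 (A : Matrix (Fin n) (Fin n) k) : ℝ :=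
  2 * Real.log (nmx A) - Real.log (mn2 A)

/-- the sum of the logarithms of the quotients of the singular values `2, .., n` by the last one, up
to a constant -/
noncomputable def G2 (A : Matrix (Fin n) (Fin n) k) : ℝ :=
  ((n : ℝ) - 1) * Real.log (nmx A⁻¹) - Real.log (nmx A)

theorem G1_tr (A : Matrix (Fin n) (Fin n) k) : G1 Aᵀ = G1 A := by
  rw [G1, G1, nmx_tr, mn2_tr]

theorem G2_tr (A : Matrix (Fin n) (Fin n) k) : G2 Aᵀ = G2 A := by
  rw [G2, G2, nmx_tr, ← Matrix.transpose_nonsing_inv, nmx_tr]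

/-- A bounded Cartan decomposition, without the order. -/
def Dec (A : Matrix (Fin n) (Fin n) k) (a : Fin n → k) (C : ℝ) : Prop :=
  ∃ (κ κi κ' κi' : Matrix (Fin n) (Fin n) k),
    κ * κi = 1 ∧ κ' * κi' = 1 ∧
    (∀ i j, ‖κ i j‖ ≤ C ∧ ‖κi i j‖ ≤ C ∧ ‖κ' i j‖ ≤ C ∧ ‖κi' i j‖ ≤ C) ∧
    (∀ i, a i ≠ 0) ∧ A = κ * diagonal a * κ'

theorem Dec.inv {A : Matrix (Fin n) (Fin n) k} {a : Fin n → k} {C : ℝ} (h : Dec A a C) :
    Dec A⁻¹ (fun i => (a i)⁻¹) C := by
  obtain ⟨κ, κi, κ', κi', o1, o2, hb, ha, hA⟩ := h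
  have o1' : κi * κ = 1 := mul_eq_one_comm.1 o1
  have o2' : κi' * κ' = 1 := mul_eq_one_comm.1 o2
  exact ⟨κi', κ', κi, κ, o2', o1', fun i j => ⟨(hb i j).2.2.2, (hb i j).2.2.1, (hb i j).2.1,
    (hb i j).1⟩, fun i => inv_ne_zero (ha i), inv_eq o1 o2 ha hA⟩

section dec

variable {A : Matrix (Fin n) (Fin n) k} {a : Fin n → k} {C : ℝ}

theorem Dec.bounds (h : Dec A a C) (hC : 0 ≤ C) :
    (∀ s, (∀ i, ‖a i‖ ≤ s) → nmx A ≤ n * C ^ 2 * s) ∧
    (∀ l, ‖a l‖ ≤ n ^ 2 * C ^ 2 * nmx A) ∧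
    (∀ p q, p ≠ q → ‖a p * a q‖ ≤ n ^ 4 * C ^ 4 * mn2 A) := by
  obtain ⟨κ, κi, κ', κi', o1, o2, hb, ha, hA⟩ := h
  have o1' : κi * κ = 1 := mul_eq_one_comm.1 o1
  have hd : κi * A * κi' = diagonal a := by
    rw [hA]
    calc κi * (κ * diagonal a * κ') * κi' = (κi * κ) * diagonal a * (κ' * κi') := by
          simp only [Matrix.mul_assoc]
      _ = diagonal a := by rw [o1', o2, Matrix.one_mul, Matrix.mul_one]
  refine ⟨fun s hs => ?_, fun l => ?_, fun p q hpq => ?_⟩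
  · rw [hA]
    exact entry_le hC (fun i j => (hb i j).1) (fun i j => (hb i j).2.2.1) hs
  · exact diag_le hC (fun i j => (hb i j).2.1) (fun i j => (hb i j).2.2.2) hd l
  · exact minor_le hC (fun i j => (hb i j).2.1) (fun i j => (hb i j).2.2.2) hd hpq

/-- Upper bound of `G1`. -/
theorem Dec.G1_le (h : Dec A a C) (hC : 1 ≤ C) (hn : 0 < n) {p q : Fin n} (hpq : p ≠ q)
    (hp : ∀ i, ‖a i‖ ≤ ‖a p‖) :
    G1 A ≤ Real.log ‖a p‖ - Real.log ‖a q‖ +
      (2 * Real.log (n * C ^ 2) + Real.log (n ^ 4 * C ^ 4)) := by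
  have hC0 : 0 ≤ C := zero_le_one.trans hC
  have hCp : 0 < C := zero_lt_one.trans_le hC
  have hnp : (0 : ℝ) < n := by exact_mod_cast hn
  obtain ⟨h1, h2, h3⟩ := h.bounds hC0
  have ha : ∀ i, 0 < ‖a i‖ := by
    obtain ⟨κ, κi, κ', κi', o1, o2, hb, ha, hA⟩ := h
    exact fun i => norm_pos_iff.2 (ha i)
  have b1 := h1 _ hp
  have b2 := h2 p
  have b3 := h3 p q hpq
  have c2 : (0 : ℝ) < n ^ 2 * C ^ 2 := by positivity
  have c4 : (0 : ℝ) < n ^ 4 * C ^ 4 := by positivity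
  have c1 : (0 : ℝ) < n * C ^ 2 := by positivity
  have pA : 0 < nmx A := by
    by_contra h0
    push Not at h0
    have : n ^ 2 * C ^ 2 * nmx A ≤ 0 := mul_nonpos_of_nonneg_of_nonpos c2.le h0
    exact absurd (b2.trans this) (not_le.2 (ha p))
  have pm : 0 < mn2 A := by
    by_contra h0
    push Not at h0
    have h4 : n ^ 4 * C ^ 4 * mn2 A ≤ 0 := mul_nonpos_of_nonneg_of_nonpos c4.le h0
    have h5 : 0 < ‖a p * a q‖ := by rw [norm_mul]; exact mul_pos (ha p) (ha q)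
    exact absurd (b3.trans h4) (not_le.2 h5)
  have l1 : Real.log (nmx A) ≤ Real.log (n * C ^ 2) + Real.log ‖a p‖ := by
    rw [← Real.log_mul c1.ne' (ha p).ne']
    exact Real.log_le_log pA b1
  have l3 : Real.log ‖a p‖ + Real.log ‖a q‖ ≤ Real.log (n ^ 4 * C ^ 4) + Real.log (mn2 A) := by
    rw [← Real.log_mul (ha p).ne' (ha q).ne', ← Real.log_mul c4.ne' pm.ne', ← norm_mul]
    exact Real.log_le_log (by rw [norm_mul]; exact mul_pos (ha p) (ha q)) b3
  rw [G1]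
  linarith

/-- The sum of the logarithms is bounded. -/
theorem Dec.sum_log (h : Dec A a C) (hC : 1 ≤ C) (hdet : ‖A.det‖ = 1) :
    |∑ i, Real.log ‖a i‖| ≤ 2 * Real.log ((n.factorial : ℝ) * C ^ n) := by
  obtain ⟨κ, κi, κ', κi', o1, o2, hb, ha, hA⟩ := h
  obtain ⟨h1, h2⟩ := prod_le o1 o2 hb hA hdet
  have hp : 0 < ∏ i, ‖a i‖ := Finset.prod_pos fun i _ => norm_pos_iff.2 (ha i)
  have hD : 0 < (n.factorial : ℝ) * C ^ n := by
    have : 0 < C := zero_lt_one.trans_le hC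
    have : (0 : ℝ) < n.factorial := by exact_mod_cast n.factorial_pos
    positivity
  have e : ∑ i, Real.log ‖a i‖ = Real.log (∏ i, ‖a i‖) :=
    (Real.log_prod fun i _ => (norm_pos_iff.2 (ha i)).ne').symm
  rw [e, abs_le]
  constructor
  · have h3 := Real.log_le_log zero_lt_one h1
    rw [Real.log_one, Real.log_mul (pow_ne_zero _ hD.ne') hp.ne', Real.log_pow] at h3
    push_cast at h3
    linarith
  · have h3 := Real.log_le_log hp h2
    rw [Real.log_pow] at h3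
    push_cast at h3
    exact h3

/-- Upper bound of `G2`. -/
theorem Dec.G2_le (h : Dec A a C) (hC : 1 ≤ C) (hn : 0 < n) (hdet : ‖A.det‖ = 1) {p l : Fin n}
    (hl : ∀ i, ‖a l‖ ≤ ‖a i‖) :
    G2 A ≤ ∑ i ∈ Finset.univ.erase p, (Real.log ‖a i‖ - Real.log ‖a l‖) +
      (((n : ℝ) - 1) * Real.log (n * C ^ 2) + Real.log (n ^ 2 * C ^ 2) +
        2 * Real.log ((n.factorial : ℝ) * C ^ n)) := by
  have hC0 : 0 ≤ C := zero_le_one.trans hC
  have hCp : 0 < C := zero_lt_one.trans_le hC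
  have hnp : (0 : ℝ) < n := by exact_mod_cast hn
  have hn1 : (0 : ℝ) ≤ (n : ℝ) - 1 := by
    have : (1 : ℝ) ≤ n := by exact_mod_cast hn
    linarith
  have ha : ∀ i, 0 < ‖a i‖ := by
    obtain ⟨κ, κi, κ', κi', o1, o2, hb, ha, hA⟩ := h
    exact fun i => norm_pos_iff.2 (ha i)
  obtain ⟨h1, h2, -⟩ := h.bounds hC0
  obtain ⟨h1', h2', -⟩ := h.inv.bounds hC0
  have hinv : ∀ i, ‖(a i)⁻¹‖ = ‖a i‖⁻¹ := fun i => norm_inv _
  have b1 := h1' (‖a l‖⁻¹) fun i => by
    rw [hinv]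
    exact inv_anti₀ (ha l) (hl i)
  have b2 := h2' l
  have b3 := h2 p
  have c2 : (0 : ℝ) < n ^ 2 * C ^ 2 := by positivity
  have c1 : (0 : ℝ) < n * C ^ 2 := by positivity
  have pA : 0 < nmx A := by
    by_contra h0
    push Not at h0
    have : n ^ 2 * C ^ 2 * nmx A ≤ 0 := mul_nonpos_of_nonneg_of_nonpos c2.le h0
    exact absurd (b3.trans this) (not_le.2 (ha p))
  have pAi : 0 < nmx A⁻¹ := by
    by_contra h0
    push Not at h0
    have h4 : n ^ 2 * C ^ 2 * nmx A⁻¹ ≤ 0 := mul_nonpos_of_nonneg_of_nonpos c2.le h0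
    rw [hinv] at b2
    exact absurd (b2.trans h4) (not_le.2 (inv_pos.2 (ha l)))
  have l1 : Real.log (nmx A⁻¹) ≤ Real.log (n * C ^ 2) - Real.log ‖a l‖ := by
    have h5 := Real.log_le_log pAi b1
    rw [Real.log_mul c1.ne' (inv_pos.2 (ha l)).ne', Real.log_inv] at h5
    linarith
  have l2 : Real.log ‖a p‖ ≤ Real.log (n ^ 2 * C ^ 2) + Real.log (nmx A) := by
    rw [← Real.log_mul c2.ne' pA.ne']
    exact Real.log_le_log (ha p) b3
  have l3 := (abs_le.1 (h.sum_log hC hdet)).1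
  have e1 : ∑ i, Real.log ‖a i‖ = Real.log ‖a p‖ +
      ∑ i ∈ Finset.univ.erase p, Real.log ‖a i‖ :=
    (Finset.add_sum_erase _ _ (Finset.mem_univ p)).symm
  have e2 : ∑ i ∈ Finset.univ.erase p, (Real.log ‖a i‖ - Real.log ‖a l‖) =
      ∑ i ∈ Finset.univ.erase p, Real.log ‖a i‖ - ((n : ℝ) - 1) * Real.log ‖a l‖ := by
    rw [Finset.sum_sub_distrib, Finset.sum_const, Finset.card_erase_of_mem (Finset.mem_univ p),
      Finset.card_univ, Fintype.card_fin, nsmul_eq_mul, Nat.cast_sub hn, Nat.cast_one]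
  have l4 := mul_le_mul_of_nonneg_left l1 hn1
  rw [G2, e2]
  rw [e1] at l3
  nlinarith [l4, l2, l3]

end dec

/-! ### Two gaps -/

/-- pigeonhole for telescoping sums -/
theorem pig (f : ℕ → ℝ) {a b : ℕ} (hab : a ≤ b) {s : ℝ} (h : ((b : ℝ) - a) * s < f a - f b) :
    ∃ j, a ≤ j ∧ j < b ∧ s < f j - f (j + 1) := by
  by_contra hc
  push Not at hc
  have h1 : ∀ m, a ≤ m → m ≤ b → f a - f m ≤ ((m : ℝ) - a) * s := by
    intro m ham
    induction m, ham using Nat.le_induction with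
    | base => intro _; simp
    | succ m ham ih =>
      intro hmb
      have h2 := ih (by omega)
      have h3 := hc m ham (by omega)
      push_cast
      nlinarith
  exact absurd (h1 b hab le_rfl) (not_le.2 h)

/-- **Two large gaps.** -/
theorem two_gaps (hn : 2 ≤ n) {c : ℝ} (hc : 0 < c) (C R : ℝ) :
    ∃ r : ℝ, ∀ (A : Matrix (Fin n) (Fin n) k) (x : Fin (n - 1) → ℝ), ‖A.det‖ = 1 →
      BCart A x c C → (r < G1 A ∧ r < G2 A) ∨ (r < G1 A⁻¹ ∧ r < G2 A⁻¹) →
      ∃ i j : Fin (n - 1), i ≠ j ∧ R ≤ x i ∧ R ≤ x j := by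
  obtain ⟨C', hC'⟩ : ∃ C', C' = max C 1 := ⟨_, rfl⟩
  have hC1 : 1 ≤ C' := hC' ▸ le_max_right _ _
  have hCC : C ≤ C' := hC' ▸ le_max_left _ _
  obtain ⟨K1, hK1⟩ : ∃ K1 : ℝ, K1 = 2 * Real.log (n * C' ^ 2) + Real.log (n ^ 4 * C' ^ 4) :=
    ⟨_, rfl⟩
  obtain ⟨K2, hK2⟩ : ∃ K2 : ℝ, K2 = ((n : ℝ) - 1) * Real.log (n * C' ^ 2) +
      Real.log (n ^ 2 * C' ^ 2) + 2 * Real.log ((n.factorial : ℝ) * C' ^ n) := ⟨_, rfl⟩
  obtain ⟨s, hs⟩ : ∃ s : ℝ, s = max ((R + C) / c) 0 := ⟨_, rfl⟩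
  have hs0 : 0 ≤ s := hs ▸ le_max_right _ _
  have hs1 : ∀ y, s < y → R + C ≤ c * y := by
    intro y hy
    have h1 : (R + C) / c ≤ y := (le_max_left _ _).trans (hs ▸ hy.le)
    rw [div_le_iff₀ hc] at h1
    linarith
  have hnR : (2 : ℝ) ≤ n := by exact_mod_cast hn
  refine ⟨max (s + K1) (((n : ℝ) - 1) * (((n : ℝ) - 1) * s) + K2), ?_⟩
  intro A x hdet hB hG
  obtain ⟨κ, κi, κ', κi', a, o1, o2, hb, ha, hanti, hA, hx⟩ := hB
  have hdec : Dec A a C' := ⟨κ, κi, κ', κi', o1, o2, fun i j => ⟨(hb i j).1.trans hCC,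
    (hb i j).2.1.trans hCC, (hb i j).2.2.1.trans hCC, (hb i j).2.2.2.trans hCC⟩, ha, hA⟩
  have hap : ∀ i, 0 < ‖a i‖ := fun i => norm_pos_iff.2 (ha i)
  have hdeti : ‖A⁻¹.det‖ = 1 := by
    have h1 : A⁻¹.det = (A.det)⁻¹ := by
      rw [Matrix.det_nonsing_inv, Ring.inverse_eq_inv']
    rw [h1, norm_inv, hdet, inv_one]
  -- the function of the logarithms
  obtain ⟨f, hf⟩ : ∃ f : ℕ → ℝ, f = fun i => if h : i < n then Real.log ‖a ⟨i, h⟩‖ else 0 :=
    ⟨_, rfl⟩
  have hfi : ∀ i (h : i < n), f i = Real.log ‖a ⟨i, h⟩‖ := fun i h => by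
    rw [hf]
    exact dif_pos h
  have hfa : ∀ i j, i ≤ j → j < n → f j ≤ f i := by
    intro i j hij hj
    rw [hfi i (by omega), hfi j hj]
    exact Real.log_le_log (hap _) (hanti (show (⟨i, by omega⟩ : Fin n) ≤ ⟨j, hj⟩ from hij))
  have hxj : ∀ j (hj : j + 1 < n), s < f j - f (j + 1) → R ≤ x ⟨j, by omega⟩ := by
    intro j hj h
    have h1 := hx ⟨j, by omega⟩
    have h2 := (abs_le.1 h1).1
    have h3 := hs1 _ h
    rw [hfi j (by omega), hfi (j + 1) hj] at h3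
    dsimp only at h2
    linarith
  rcases hG with ⟨g1, g2⟩ | ⟨g1, g2⟩
  · -- first and another gap
    have h0 : (⟨0, by omega⟩ : Fin n) ≠ ⟨1, by omega⟩ := fun h => by
      have := Fin.mk.inj h
      omega
    have u1 := hdec.G1_le hC1 (by omega) h0 (fun i => hanti (show (⟨0, by omega⟩ : Fin n) ≤ i from
      Nat.zero_le _))
    rw [← hK1, ← hfi 0 (by omega), ← hfi 1 (by omega)] at u1
    have u2 := hdec.G2_le hC1 (by omega) hdet (p := ⟨0, by omega⟩) (l := ⟨n - 1, by omega⟩)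
      (fun i => hanti (show i ≤ (⟨n - 1, by omega⟩ : Fin n) from by
        have := i.2
        change (i : ℕ) ≤ n - 1
        omega))
    rw [← hK2, ← hfi (n - 1) (by omega)] at u2
    have v1 : s < f 0 - f (0 + 1) := by
      have := (le_max_left _ _).trans_lt g1
      linarith
    have v2 : ∑ i ∈ Finset.univ.erase (⟨0, by omega⟩ : Fin n), (Real.log ‖a i‖ - f (n - 1)) ≤
        ((n : ℝ) - 1) * (f 1 - f (n - 1)) := by
      have h2 : ∀ i ∈ Finset.univ.erase (⟨0, by omega⟩ : Fin n),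
          Real.log ‖a i‖ - f (n - 1) ≤ f 1 - f (n - 1) := by
        intro i hi
        have h3 : (i : ℕ) ≠ 0 := fun h => (Finset.mem_erase.1 hi).1 (Fin.ext h)
        have h4 := hfa 1 i (by omega) i.2
        rw [hfi i i.2] at h4
        exact sub_le_sub_right h4 _
      refine (Finset.sum_le_sum h2).trans ?_
      rw [Finset.sum_const, Finset.card_erase_of_mem (Finset.mem_univ _), Finset.card_univ,
        Fintype.card_fin, nsmul_eq_mul, Nat.cast_sub (by omega), Nat.cast_one]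
    have v3 : ((n : ℝ) - 1) * s < f 1 - f (n - 1) := by
      have h5 := (le_max_right _ _).trans_lt g2
      have h6 : ((n : ℝ) - 1) * (((n : ℝ) - 1) * s) < ((n : ℝ) - 1) * (f 1 - f (n - 1)) := by
        linarith
      exact lt_of_mul_lt_mul_left h6 (by linarith)
    obtain ⟨j, hj1, hj2, hj3⟩ := pig f (a := 1) (b := n - 1) (by omega) (s := s) (by
      rw [Nat.cast_sub (by omega)]
      push_cast
      nlinarith)
    refine ⟨⟨0, by omega⟩, ⟨j, by omega⟩, ?_, hxj 0 (by omega) v1, hxj j (by omega) hj3⟩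
    intro h
    have := Fin.mk.inj h
    omega
  · -- last and another gap
    have h0 : (⟨n - 1, by omega⟩ : Fin n) ≠ ⟨n - 2, by omega⟩ := fun h => by
      have := Fin.mk.inj h
      omega
    have hinv : ∀ i, ‖(a i)⁻¹‖ = ‖a i‖⁻¹ := fun i => norm_inv _
    have u1 := hdec.inv.G1_le hC1 (by omega) h0 (fun i => by
      rw [hinv, hinv]
      refine inv_anti₀ (hap _) (hanti (show i ≤ (⟨n - 1, by omega⟩ : Fin n) from ?_))
      have := i.2
      change (i : ℕ) ≤ n - 1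
      omega)
    simp only [hinv, Real.log_inv] at u1
    rw [← hK1, ← hfi (n - 1) (by omega), ← hfi (n - 2) (by omega)] at u1
    have u2 := hdec.inv.G2_le hC1 (by omega) hdeti (p := ⟨n - 1, by omega⟩)
      (l := ⟨0, by omega⟩) (fun i => by
        rw [hinv, hinv]
        exact inv_anti₀ (hap _) (hanti (show (⟨0, by omega⟩ : Fin n) ≤ i from Nat.zero_le _)))
    simp only [hinv, Real.log_inv] at u2
    rw [← hK2, ← hfi 0 (by omega)] at u2
    have v1 : s < f (n - 2) - f (n - 2 + 1) := by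
      have := (le_max_left _ _).trans_lt g1
      have e : n - 2 + 1 = n - 1 := by omega
      rw [e]
      linarith
    have v2 : ∑ i ∈ Finset.univ.erase (⟨n - 1, by omega⟩ : Fin n), (-Real.log ‖a i‖ - -f 0) ≤
        ((n : ℝ) - 1) * (f 0 - f (n - 2)) := by
      have h2 : ∀ i ∈ Finset.univ.erase (⟨n - 1, by omega⟩ : Fin n),
          -Real.log ‖a i‖ - -f 0 ≤ f 0 - f (n - 2) := by
        intro i hi
        have h3 : (i : ℕ) ≠ n - 1 := fun h => (Finset.mem_erase.1 hi).1 (Fin.ext h)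
        have h4 := hfa i (n - 2) (by have := i.2; omega) (by omega)
        rw [hfi i i.2] at h4
        linarith
      refine (Finset.sum_le_sum h2).trans ?_
      rw [Finset.sum_const, Finset.card_erase_of_mem (Finset.mem_univ _), Finset.card_univ,
        Fintype.card_fin, nsmul_eq_mul, Nat.cast_sub (by omega), Nat.cast_one]
    have v3 : ((n : ℝ) - 1) * s < f 0 - f (n - 2) := by
      have h5 := (le_max_right _ _).trans_lt g2
      have h6 : ((n : ℝ) - 1) * (((n : ℝ) - 1) * s) < ((n : ℝ) - 1) * (f 0 - f (n - 2)) := by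
        linarith
      exact lt_of_mul_lt_mul_left h6 (by linarith)
    obtain ⟨j, hj1, hj2, hj3⟩ := pig f (a := 0) (b := n - 2) (by omega) (s := s) (by
      rw [Nat.cast_sub (by omega)]
      push_cast
      nlinarith)
    refine ⟨⟨n - 2, by omega⟩, ⟨j, by omega⟩, ?_, hxj (n - 2) (by omega) v1,
      hxj j (by omega) hj3⟩
    intro h
    have := Fin.mk.inj h
    omega

end Vale.Agent.P092.H776.NG
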