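import Vale.Agent.P092.H541.ChainInv

/-!
P092 (helper776), Team D, [D-NW]: the chains of `SL_{n+1}(k)` which start with the wall element
`tor 0 = diag (w ^ n, w⁻¹, …, w⁻¹)` or its inverse, for a prescribed `w`, `‖w‖ > 1`.
-/

set_option linter.all false

open Filter Topology Matrix

namespace Vale.Agent.P092.H776.NW

open Vale.Agent.P092.H701 Vale.Agent.P092.H541

variable {k : Type*} [NontriviallyNormedField k]

/-- The chain of `SL_{n+1}(k)` with first direction `tor 0`, for any `w`. -/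
noncomputable def chW [ProperSpace k] (n : ℕ) {w : k} (hw1 : 1 < ‖w‖) (hw : w ≠ 0)
    [MeasurableSpace (SpecialLinearGroup (Fin (n + 1)) k)]
    [OpensMeasurableSpace (SpecialLinearGroup (Fin (n + 1)) k)] :
    HChain (SpecialLinearGroup (Fin (n + 1)) k) n :=
  { b := fun j N => tor n hw j.castSucc ^ N
    K := fun j => (slRow (k := k) (Fin.castSucc_lt_succ (i := j)).ne).K
    compact := fun j => RowPair.isCompact_K _
    comm_b := fun i j _ N M => (tor_comm n hw i.castSucc j.castSucc).pow_pow N M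
    comm_K := by
      intro i j hij N x hx
      have h1 : i.castSucc < j.castSucc := hij
      have h2 : i.castSucc < j.succ := h1.trans (Fin.castSucc_lt_succ (i := j))
      have e : dg n w i.castSucc j.castSucc = dg n w i.castSucc j.succ := by
        rw [dg_gt n w h1, dg_gt n w h2]
      have h3 : (j.castSucc : Fin (n + 1)) ≠ j.succ := (Fin.castSucc_lt_succ (i := j)).ne
      rcases hx with ⟨t, -, rfl⟩ | ⟨t, -, rfl⟩
      · exact (tor_elem n hw i.castSucc h3 e t).pow_left N
      · exact (tor_elem n hw i.castSucc h3.symm e.symm t).pow_left N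
    pp := by
      intro j p
      refine RowPair.pp (slRow (k := k) (Fin.castSucc_lt_succ (i := j)).ne)
        (fun N => tor n hw j.castSucc ^ N)
        (fun N => (dg n w j.castSucc j.castSucc) ^ N) (fun N => (dg n w j.castSucc j.succ) ^ N)
        (fun N x => tor_pow_row n hw _ _ N x) (fun N x => tor_pow_row n hw _ _ N x) ?_ ?_ p
      · intro N
        rw [dg_self]
        exact pow_ne_zero _ (pow_ne_zero _ hw)
      · intro C
        obtain ⟨N₀, hN₀⟩ := pow_unbounded_of_one_lt C hw1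
        refine ⟨N₀, fun N hN => ?_⟩
        rw [dg_self, dg_gt n w (Fin.castSucc_lt_succ (i := j)), norm_pow, norm_pow, norm_pow,
          norm_inv, Fin.val_castSucc]
        have h1 : C ≤ ‖w‖ ^ N := hN₀.le.trans (pow_le_pow_right₀ hw1.le hN)
        have h2 : ‖w‖⁻¹ ^ N ≤ 1 := pow_le_one₀ (by positivity) (inv_le_one_of_one_le₀ hw1.le)
        have h3 : (‖w‖ ^ N) ≤ (‖w‖ ^ (n - (j : ℕ))) ^ N := by
          apply pow_le_pow_left₀ (by positivity)
          exact le_self_pow₀ hw1.le (by have := j.2; omega)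
        have h4 : (0 : ℝ) ≤ ‖w‖⁻¹ ^ N := by positivity
        have h5 : (0 : ℝ) ≤ ‖w‖ ^ N := by positivity
        calc C * ‖w‖⁻¹ ^ N ≤ ‖w‖ ^ N * ‖w‖⁻¹ ^ N := mul_le_mul_of_nonneg_right h1 h4
          _ ≤ ‖w‖ ^ N * 1 := mul_le_mul_of_nonneg_left h2 h5
          _ ≤ _ := by rw [mul_one]; exact h3 }

/-- The chain of `SL_{n+1}(k)` with first direction `(tor 0)⁻¹`, for any `w`. -/
noncomputable def chWInv [ProperSpace k] (n : ℕ) {w : k} (hw1 : 1 < ‖w‖) (hw : w ≠ 0)
    [MeasurableSpace (SpecialLinearGroup (Fin (n + 1)) k)]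
    [OpensMeasurableSpace (SpecialLinearGroup (Fin (n + 1)) k)] :
    HChain (SpecialLinearGroup (Fin (n + 1)) k) n :=
  { b := fun j N => if (j : ℕ) = 0 then (tor n hw j.castSucc)⁻¹ ^ N else tor n hw j.castSucc ^ N
    K := fun j => if (j : ℕ) = 0 then
        (slRow (k := k) (Fin.castSucc_lt_succ (i := j)).ne').K
      else (slRow (k := k) (Fin.castSucc_lt_succ (i := j)).ne).K
    compact := fun j => by
      split_ifs
      · exact RowPair.isCompact_K _
      · exact RowPair.isCompact_K _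
    comm_b := fun i j _ N M => by
      have h := tor_comm n hw i.castSucc j.castSucc
      split_ifs
      · exact (h.inv_inv).pow_pow N M
      · exact (h.inv_left).pow_pow N M
      · exact (h.inv_right).pow_pow N M
      · exact h.pow_pow N M
    comm_K := by
      intro i j hij N x hx
      have h1 : i.castSucc < j.castSucc := hij
      have h2 : i.castSucc < j.succ := h1.trans (Fin.castSucc_lt_succ (i := j))
      have e : dg n w i.castSucc j.castSucc = dg n w i.castSucc j.succ := by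
        rw [dg_gt n w h1, dg_gt n w h2]
      have h3 : (j.castSucc : Fin (n + 1)) ≠ j.succ := (Fin.castSucc_lt_succ (i := j)).ne
      have hj : (j : ℕ) ≠ 0 := by
        have : (i : ℕ) < (j : ℕ) := hij
        omega
      rw [if_neg hj] at hx
      have hc : Commute (tor n hw i.castSucc) x := by
        rcases hx with ⟨t, -, rfl⟩ | ⟨t, -, rfl⟩
        · exact tor_elem n hw i.castSucc h3 e t
        · exact tor_elem n hw i.castSucc h3.symm e.symm t
      split_ifs
      · exact (hc.inv_left).pow_left N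
      · exact hc.pow_left N
    pp := by
      intro j p
      by_cases hj : (j : ℕ) = 0
      · simp only [if_pos hj]
        refine RowPair.pp (slRow (k := k) (Fin.castSucc_lt_succ (i := j)).ne')
          (fun N => (tor n hw j.castSucc)⁻¹ ^ N)
          (fun N => ((dg n w j.castSucc j.succ)⁻¹) ^ N)
          (fun N => ((dg n w j.castSucc j.castSucc)⁻¹) ^ N)
          (fun N x => tor_inv_pow_row n hw _ _ N x) (fun N x => tor_inv_pow_row n hw _ _ N x) ?_ ?_ p
        · intro N
          rw [dg_gt n w (Fin.castSucc_lt_succ (i := j)), inv_inv]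
          exact pow_ne_zero _ hw
        · intro C
          obtain ⟨N₀, hN₀⟩ := pow_unbounded_of_one_lt C hw1
          refine ⟨N₀, fun N hN => ?_⟩
          rw [dg_self, dg_gt n w (Fin.castSucc_lt_succ (i := j)), inv_inv, norm_pow, norm_pow,
            norm_inv, norm_pow, Fin.val_castSucc]
          have h1 : C ≤ ‖w‖ ^ N := hN₀.le.trans (pow_le_pow_right₀ hw1.le hN)
          have h2 : ((‖w‖ ^ (n - (j : ℕ)))⁻¹) ^ N ≤ 1 := by
            refine pow_le_one₀ (by positivity) (inv_le_one_of_one_le₀ ?_)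
            exact one_le_pow₀ hw1.le
          have h4 : (0 : ℝ) ≤ ((‖w‖ ^ (n - (j : ℕ)))⁻¹) ^ N := by positivity
          have h5 : (0 : ℝ) ≤ ‖w‖ ^ N := by positivity
          calc C * ((‖w‖ ^ (n - (j : ℕ)))⁻¹) ^ N ≤ ‖w‖ ^ N * ((‖w‖ ^ (n - (j : ℕ)))⁻¹) ^ N :=
                mul_le_mul_of_nonneg_right h1 h4
            _ ≤ ‖w‖ ^ N * 1 := mul_le_mul_of_nonneg_left h2 h5
            _ = _ := mul_one _
      · simp only [if_neg hj]
        exact (chW n hw1 hw).pp j p }

theorem chW_b [ProperSpace k] (n : ℕ) {w : k} (hw1 : 1 < ‖w‖) (hw : w ≠ 0)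
    [MeasurableSpace (SpecialLinearGroup (Fin (n + 1)) k)]
    [OpensMeasurableSpace (SpecialLinearGroup (Fin (n + 1)) k)] (h0 : 0 < n) (N : ℕ) :
    (chW (k := k) n hw1 hw).b ⟨0, h0⟩ N = tor n hw 0 ^ N := rfl

theorem chWInv_b [ProperSpace k] (n : ℕ) {w : k} (hw1 : 1 < ‖w‖) (hw : w ≠ 0)
    [MeasurableSpace (SpecialLinearGroup (Fin (n + 1)) k)]
    [OpensMeasurableSpace (SpecialLinearGroup (Fin (n + 1)) k)] (h0 : 0 < n) (N : ℕ) :
    (chWInv (k := k) n hw1 hw).b ⟨0, h0⟩ N = (tor n hw 0)⁻¹ ^ N := by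
  have h : (chWInv (k := k) n hw1 hw).b ⟨0, h0⟩ N = if ((⟨0, h0⟩ : Fin n) : ℕ) = 0 then
    (tor n hw (Fin.castSucc ⟨0, h0⟩))⁻¹ ^ N else tor n hw (Fin.castSucc ⟨0, h0⟩) ^ N := rfl
  rw [h, if_pos rfl]
  rfl

end Vale.Agent.P092.H776.NW
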