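import Vale.Agent.P092.H761.CoarseD
import Vale.Agent.P092.H538.Fst
import Vale.Agent.P092.H859.CLB
import Vale.Agent.P092.H776.NW0

/-!
P092 (helper776), Team D, [D-NW]: near-wall mass. Along the first direction of a chain of length
`≥ 2` (the wall element of `SL_3`), the mass of the elements of `Γ ⊂ SL_3(ℝ)` with two large gaps
is small, uniformly: the field `nrm` of `H859.CL.Sys`.
-/

set_option linter.all false

open Matrix Filter Topology MeasureTheory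

namespace Vale.Agent.P092.H776.NW

open Vale.Agent.P092.H761 (SharpData GChain big mem_big Geo Gaps CovFam)
open Vale.Agent.P092.H944 (hs gap sv isSVD la)
open Vale.Agent.P092.H515 (GSys EmbW gsys_all isCompact_hs_le start2)
open Vale.Agent.P092.H538 (ind ind_pos ind_neg ind_nonneg abs_ind_le)
open Vale.Agent.P092.H859.CL (BB)
open Vale.Agent.P092.H160 Vale.Agent.P092.H432 Vale.Agent.P092.H132
open Vale.Agent.P092.H701 (HChain tor)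

/-! ### The abstract form -/

section abs

variable {Γ 𝔾 : Type} [Group Γ] [DecidableEq Γ] [Group 𝔾] {t : ℝ}
  {mass : 𝔾 → (Γ → ℝ) → ℝ} {Cpt : Set 𝔾 → Prop} {Ping : (p : ℕ) → (Fin p → 𝔾) → Prop}
  {m : ℕ} {b : Fin m → ℕ → 𝔾} {𝒦 : Fin m → Set 𝔾} {n : ℕ}

theorem hs_finite (φ : Γ →* SpecialLinearGroup (Fin (n + 1)) ℝ)
    (hφ : ∀ K : Set (SpecialLinearGroup (Fin (n + 1)) ℝ), IsCompact K → {x | φ x ∈ K}.Finite)
    (R : ℝ) : {g : Γ | hs (φ g : Matrix (Fin (n + 1)) (Fin (n + 1)) ℝ) ≤ R}.Finite := by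
  have h3 : Topology.IsClosedEmbedding (fun g : SpecialLinearGroup (Fin (n + 1)) ℝ =>
      (g : Matrix (Fin (n + 1)) (Fin (n + 1)) ℝ)) :=
    Matrix.SpecialLinearGroup.isClosedEmbedding_val
  exact hφ _ (h3.isCompact_preimage (isCompact_hs_le R))

/-- **Near-wall, `SL_{n+1}(ℝ)`**: along the first direction of a chain of length `≥ n`, the mass
of the elements with two gaps `≥ R` is small. -/
theorem nw_abs (h : SharpData t mass Cpt Ping) (hch : GChain Cpt Ping m b 𝒦) (hm : 0 < m)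
    (hnm : n ≤ m) (φ : Γ →* SpecialLinearGroup (Fin (n + 1)) ℝ)
    (hφ : ∀ K : Set (SpecialLinearGroup (Fin (n + 1)) ℝ), IsCompact K → {x | φ x ∈ K}.Finite)
    {ε : ℝ} (hε : 0 < ε) : ∃ R : ℝ, ∀ N, mass (b ⟨0, hm⟩ N) (ind fun g => ∃ i j : ℕ, i < n ∧ j < n ∧
      i ≠ j ∧ R ≤ gap i (φ g : Matrix (Fin (n + 1)) (Fin (n + 1)) ℝ) ∧
      R ≤ gap j (φ g : Matrix (Fin (n + 1)) (Fin (n + 1)) ℝ)) ≤ ε := by
  classical
  have hE : EmbW (fun g : SpecialLinearGroup (Fin (n + 1)) ℝ =>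
      (g : Matrix (Fin (n + 1)) (Fin (n + 1)) ℝ)) :=
    ⟨fun g h => Or.inl (Matrix.SpecialLinearGroup.coe_mul g h), fun g => by
      rw [g.det_coe]; norm_num⟩
  have hsys := (gsys_all (Nat.succ_pos n) hE).comap φ
  have hg := hsys.gaps (hs_finite φ hφ) (fun j : Fin (n + 1 - 1) => j)
    (fun R => ⟨R, fun i j hij g hg => by rw [← hij]; exact hg⟩)
  obtain ⟨R, hR⟩ := start2 h hg (fun θ _ _ => hsys.geo' (hs_finite φ hφ) θ) hch
    (by omega) hm hε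
  refine ⟨R, fun N => (h.ind_mono _ ?_).trans (hR N)⟩
  rintro g ⟨i, j, hi, hj, hij, h1, h2⟩
  have hne : (⟨i, by omega⟩ : Fin (n + 1 - 1)) ≠ ⟨j, by omega⟩ := fun h => hij (Fin.mk.inj h)
  refine Finset.one_lt_card.2 ⟨⟨i, by omega⟩, mem_big.2 ⟨_, rfl, h1⟩, ⟨j, by omega⟩,
    mem_big.2 ⟨_, rfl, h2⟩, hne⟩

end abs

/-! ### `nrm` -/

/-- The first gap. -/
noncomputable def g1 {Γ : Type} [Group Γ] (q : Γ →* SpecialLinearGroup (Fin 3) ℝ) (γ : Γ) : ℝ :=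
  gap 0 (q γ : Matrix (Fin 3) (Fin 3) ℝ)

/-- The second gap. -/
noncomputable def g2 {Γ : Type} [Group Γ] (q : Γ →* SpecialLinearGroup (Fin 3) ℝ) (γ : Γ) : ℝ :=
  gap 1 (q γ : Matrix (Fin 3) (Fin 3) ℝ)

section nrm

variable {E : Type} [Group E] [TopologicalSpace E] [IsTopologicalGroup E] [LocallyCompactSpace E]
  [SecondCountableTopology E] [T2Space E] [MeasurableSpace E] [BorelSpace E]
  (Λ : Subgroup E) [DiscreteTopology Λ] [MeasurableSpace (E ⧸ Λ)] [BorelSpace (E ⧸ Λ)]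
  (ν : Measure (E ⧸ Λ)) [IsProbabilityMeasure ν] (hν : ∀ g : E, ν.map (fun x => g • x) = ν)
  {Γ Q ι : Type} [Group Γ] [Countable Γ] [Group Q] [Countable Q] [Fintype ι] {t : ℝ}
  {R : Λ → (Ell2 ((Γ × Q) × ι) →L[ℂ] Ell2 ((Γ × Q) × ι))}
  {E0 : Set Λ → (Ell2 ((Γ × Q) × ι) →L[ℂ] Ell2 ((Γ × Q) × ι))}

/-- `nrm` along one direction. -/
theorem nrm_chain (hR : ARep t R) (hE : CovFam R E0)
    (hq : ∀ A (q : Q), E0 A * lx ((1 : Γ), q) = lx ((1 : Γ), q) * E0 A)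
    {m : ℕ} (C : HChain E m) (hm : 0 < m) (h2 : 2 ≤ m) (q : Γ →* SpecialLinearGroup (Fin 3) ℝ)
    (hφ : ∀ K : Set (SpecialLinearGroup (Fin 3) ℝ), IsCompact K → {x | q x ∈ K}.Finite)
    {ε : ℝ} (hε : 0 < ε) : ∃ r : ℝ, ∀ N,
      massX (H538.fst (H790.baseL (H85.cdat ν hν).μ (Γ × Q) ι)) (H790.Ri (H85.cdat ν hν) R)
        (C.b ⟨0, hm⟩ N) (ind fun γ => γ ∈ BB (g1 q) (g2 q) r) ≤ ε := by
  classical
  have hd := H761.sharpCoef Λ ν hν hR hE hq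
  obtain ⟨r, hr⟩ := nw_abs hd (H261.gchain_of_hchain C) hm h2 q hφ hε
  refine ⟨r, fun N => ?_⟩
  refine le_trans ?_ (hr N)
  refine hd.ind_mono (C.b ⟨0, hm⟩ N) (P := fun γ => γ ∈ BB (g1 q) (g2 q) r) ?_
  intro γ hγ
  exact ⟨0, 1, by norm_num, by norm_num, by norm_num, hγ.1.le, hγ.2.le⟩

/-- **`nrm`** for the group generated by the wall element `b`. -/
theorem nrm_zpowers (hR : ARep t R) (hE : CovFam R E0)
    (hq : ∀ A (q : Q), E0 A * lx ((1 : Γ), q) = lx ((1 : Γ), q) * E0 A)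
    {m : ℕ} (C C' : HChain E m) (hm : 0 < m) (h2 : 2 ≤ m) {b : E}
    (hC : ∀ N, C.b ⟨0, hm⟩ N = b ^ N) (hC' : ∀ N, C'.b ⟨0, hm⟩ N = b⁻¹ ^ N)
    (q : Γ →* SpecialLinearGroup (Fin 3) ℝ)
    (hφ : ∀ K : Set (SpecialLinearGroup (Fin 3) ℝ), IsCompact K → {x | q x ∈ K}.Finite)
    {ε : ℝ} (hε : 0 < ε) : ∃ r : ℝ, ∀ u ∈ Subgroup.zpowers b,
      massX (H538.fst (H790.baseL (H85.cdat ν hν).μ (Γ × Q) ι)) (H790.Ri (H85.cdat ν hν) R)
        u (ind fun γ => γ ∈ BB (g1 q) (g2 q) r) ≤ ε := by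
  classical
  have hd := H761.sharpCoef Λ ν hν hR hE hq
  obtain ⟨r, hr⟩ := nrm_chain Λ ν hν hR hE hq C hm h2 q hφ hε
  obtain ⟨r', hr'⟩ := nrm_chain Λ ν hν hR hE hq C' hm h2 q hφ hε
  have mono : ∀ (r₁ r₂ : ℝ) (u : E), r₁ ≤ r₂ →
      massX (H538.fst (H790.baseL (H85.cdat ν hν).μ (Γ × Q) ι)) (H790.Ri (H85.cdat ν hν) R)
        u (ind fun γ => γ ∈ BB (g1 q) (g2 q) r₂) ≤
      massX (H538.fst (H790.baseL (H85.cdat ν hν).μ (Γ × Q) ι)) (H790.Ri (H85.cdat ν hν) R)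
        u (ind fun γ => γ ∈ BB (g1 q) (g2 q) r₁) := fun r₁ r₂ u h =>
    hd.ind_mono u (P := fun γ => γ ∈ BB (g1 q) (g2 q) r₂)
      (Q := fun γ => γ ∈ BB (g1 q) (g2 q) r₁) fun γ hγ => H859.CL.BB_mono h hγ
  refine ⟨max r r', ?_⟩
  rintro _ ⟨z, rfl⟩
  obtain ⟨N, rfl | rfl⟩ := z.eq_nat_or_neg
  · have h0 := hr N
    rw [hC] at h0
    have h1 := (mono _ _ (b ^ N) (le_max_left r r')).trans h0
    simpa using h1
  · have h0 := hr' N
    rw [hC'] at h0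
    have h1 := (mono _ _ (b⁻¹ ^ N) (le_max_right r r')).trans h0
    simpa using h1

end nrm

end Vale.Agent.P092.H776.NW
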