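import Vale.Agent.P092.H357.Sep2
import Vale.Agent.P092.H541.EscA
import Vale.Agent.P092.H776.NW3
import Vale.Agent.P092.H776.Leg1
import Vale.Agent.P092.H107.Dual
import Vale.Agent.P092.H859.CLN

/-!
P092 (helper776), Team D, [x1] of #5548: the analytic system of the engine on the picture
`L²(SL_3(k)/Λ; ℓ²((Γ × Q) × ι))`, for the powers of the wall element `bw w`, both directions, and
for the representation composed with the inverse transpose.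
-/

set_option linter.all false

open scoped InnerProductSpace ENNReal
open Matrix Filter Topology MeasureTheory ContinuousLinearMap

namespace Vale.Agent.P092.H776.Row

open Vale.Agent.P092.H160 Vale.Agent.P092.H432
open Vale.Agent.P092.H790 (CData Ri baseL)
open Vale.Agent.P092.H21 (msL mL)
open Vale.Agent.P092.H357 (BdL2)
open Vale.Agent.P092.H761 (CovFam)
open Vale.Agent.P092.H859.CL
open Vale.Agent.P092.H776.NW (g1 g2)
open Vale.Agent.P092.H538 (fst)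
open Vale.Agent.P092.H85 (cdat)
open Vale.Agent.P092.H944 (gap)
open Vale.Agent.P092.SD (G3 bw tau)

/-! ### Exchange of the gaps -/

section swap

variable {Γ D D' K : Type} [Group Γ] [Group D] [Group D'] [NormedAddCommGroup K]
  [InnerProductSpace ℂ K] [CompleteSpace K] {m : Set Γ → (K →L[ℂ] K)}
  {mp : (Γ → ℝ) → (K →L[ℂ] K)} {R : D → (K →L[ℂ] K)} {Bd : Set K} {ms : D → Set Γ → ℝ}
  {A : Subgroup D} {A' : Subgroup D'} {G1 G2 : Γ → ℝ} {l : Filter D}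

theorem BB_swap (G1 G2 : Γ → ℝ) (r : ℝ) : BB G2 G1 r = BB G1 G2 r := by
  ext g
  exact and_comm

theorem sys_swap (h : Sys m R Bd ms A G1 G2) : Sys m R Bd ms A G2 G1 :=
  ⟨h.prj, h.rep, h.dense, h.norm, h.map, h.sep,
    fun ε hε => by simpa only [BB_swap G1 G2] using h.nrm ε hε,
    fun ξ hξ ε hε => by simpa only [BB_swap G1 G2] using h.nrv ξ hξ ε hε⟩

theorem sysF_swap (h : SysF mp R Bd ms A G1 G2) : SysF mp R Bd ms A G2 G1 :=
  ⟨h.fn, sys_swap h.sys, h.mpb⟩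

/-! ### Composition with a homomorphism -/

theorem rep_comp (h : Rep R) (θ : D' →* D) : Rep (fun d => R (θ d)) where
  mul := fun v w => by
    change R (θ (v * w)) = R (θ v) * R (θ w)
    rw [map_mul, h.mul]
  adj := fun v => by
    change adjoint (R (θ v)) = R (θ v⁻¹)
    rw [map_inv, h.adj]

theorem sys_comp (h : Sys m R Bd ms A G1 G2) (θ : D' →* D) (hA : ∀ u ∈ A', θ u ∈ A) :
    Sys m (fun d => R (θ d)) Bd (fun d => ms (θ d)) A' G1 G2 where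
  prj := h.prj
  rep := rep_comp h.rep θ
  dense := h.dense
  norm := h.norm
  map := fun v ξ hξ => h.map (θ v) ξ hξ
  sep := fun u => h.sep (θ u)
  nrm := fun ε hε => (h.nrm ε hε).imp fun r hr u hu => hr (θ u) (hA u hu)
  nrv := fun ξ hξ ε hε => (h.nrv ξ hξ ε hε).imp fun r hr u hu => hr (θ u) (hA u hu)

theorem sysF_comp (h : SysF mp R Bd ms A G1 G2) (θ : D' →* D) (hA : ∀ u ∈ A', θ u ∈ A) :
    SysF mp (fun d => R (θ d)) Bd (fun d => ms (θ d)) A' G1 G2 :=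
  ⟨h.fn, sys_comp h.sys θ hA, h.mpb⟩

end swap

/-! ### The wall element -/

section wall

variable {k : Type} [NontriviallyNormedField k]

theorem tau_bw (w : kˣ) : tau k (bw w : G3 k) = (bw w)⁻¹ := by
  apply Subtype.ext
  change ((bw w : G3 k)⁻¹).1.transpose = ((bw w : G3 k)⁻¹).1
  rw [Matrix.SpecialLinearGroup.coe_inv]
  change (Matrix.diagonal _).adjugate.transpose = (Matrix.diagonal _).adjugate
  rw [Matrix.adjugate_transpose, Matrix.diagonal_transpose]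

theorem tau_mem (w : kˣ) : ∀ u ∈ Subgroup.zpowers (bw w : G3 k),
    tau k u ∈ Subgroup.zpowers (bw w : G3 k) := by
  rintro u ⟨n, rfl⟩
  refine ⟨-n, ?_⟩
  change (bw w : G3 k) ^ (-n) = tau k ((bw w) ^ n)
  rw [map_zpow, tau_bw, _root_.inv_zpow, _root_.zpow_neg]

theorem tau_pow (w : kˣ) (N : ℕ) : tau k ((bw w : G3 k) ^ N) = (bw w ^ N)⁻¹ := by
  rw [map_pow, tau_bw, inv_pow]

theorem tau_pow_inv (w : kˣ) (N : ℕ) : tau k ((bw w : G3 k) ^ N)⁻¹ = bw w ^ N := by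
  rw [map_inv, tau_pow, inv_inv]

/-- The powers of the wall element escape. -/
theorem bw_tendsto [ProperSpace k] {w : kˣ} (hw : ‖(w : k)‖ < 1) :
    Tendsto (fun n : ℕ => (bw w : G3 k) ^ n) atTop (cocompact (G3 k)) := by
  have hw0 : ((w⁻¹ : kˣ) : k) ≠ 0 := Units.ne_zero _
  have hw1 : 1 < ‖((w⁻¹ : kˣ) : k)‖ := by
    rw [Units.val_inv_eq_inv_val, norm_inv]
    exact one_lt_inv_iff₀.2 ⟨norm_pos_iff.2 w.ne_zero, hw⟩
  have hent : ∀ n : ℕ, ((bw w : G3 k) ^ n).1 0 0 = (((w⁻¹ : kˣ) : k) ^ 2) ^ n := by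
    intro n
    have h1 : ((bw w : G3 k) ^ n).1 = (Matrix.diagonal ![((w⁻¹ : kˣ) : k) ^ 2, (w : k), (w : k)]) ^ n
        := by
      rw [Matrix.SpecialLinearGroup.coe_pow]
      rfl
    rw [h1, Matrix.diagonal_pow, Matrix.diagonal_apply_eq]
    simp
  have hc : Continuous fun g : G3 k => ‖g.1 0 0‖ :=
    ((continuous_subtype_val.matrix_elem 0 0)).norm
  have h2 : Tendsto (fun n : ℕ => ‖((bw w : G3 k) ^ n).1 0 0‖) atTop atTop := by
    have h3 : (fun n : ℕ => ‖((bw w : G3 k) ^ n).1 0 0‖) =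
        fun n : ℕ => (‖((w⁻¹ : kˣ) : k)‖ ^ 2) ^ n := by
      funext n
      rw [hent, norm_pow, norm_pow]
    rw [h3]
    exact tendsto_pow_atTop_atTop_of_one_lt (one_lt_pow₀ hw1 two_ne_zero)
  rw [hasBasis_cocompact.tendsto_right_iff]
  intro C hC
  obtain ⟨M, hM⟩ := (hC.image hc).bddAbove
  filter_upwards [h2.eventually_gt_atTop M] with n hn hmem
  exact absurd (hM ⟨_, hmem, rfl⟩) (not_le.mpr hn)

end wall

/-! ### The system on the picture -/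

section inst

variable {k : Type} [NontriviallyNormedField k] [ProperSpace k]
  [MeasurableSpace (G3 k)] [BorelSpace (G3 k)]
  (Λ : Subgroup (G3 k)) [DiscreteTopology Λ] [MeasurableSpace (G3 k ⧸ Λ)] [BorelSpace (G3 k ⧸ Λ)]
  (ν : Measure (G3 k ⧸ Λ)) [IsProbabilityMeasure ν]
  (hν : ∀ g : G3 k, ν.map (fun x => g • x) = ν)
  {Γ Q ι : Type} [Group Γ] [Countable Γ] [Group Q] [Countable Q] [Fintype ι] {t : ℝ}
  {R : Λ → (Ell2 ((Γ × Q) × ι) →L[ℂ] Ell2 ((Γ × Q) × ι))}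
  {E0 : Set Λ → (Ell2 ((Γ × Q) × ι) →L[ℂ] Ell2 ((Γ × Q) × ι))}

/-- **`SysF`** for the powers of `bw w`. -/
theorem sysF_bw [LocallyCompactSpace (G3 k)] [SecondCountableTopology (G3 k)] [Countable Λ]
    (hR : ARep t R) (hE : CovFam R E0)
    (hq : ∀ A (q : Q), E0 A * lx ((1 : Γ), q) = lx ((1 : Γ), q) * E0 A)
    {w : kˣ} (hw : ‖(w : k)‖ < 1) (q : Γ →* SpecialLinearGroup (Fin 3) ℝ)
    (hφ : ∀ K : Set (SpecialLinearGroup (Fin 3) ℝ), IsCompact K → {x | q x ∈ K}.Finite) :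
    SysF (fst (baseL (cdat ν hν).μ (Γ × Q) ι)).mp (Ri (cdat ν hν) R)
      (BdL2 (cdat ν hν).μ Γ Q ι) (msL (cdat ν hν) R) (Subgroup.zpowers (bw w : G3 k))
      (fun γ => gap 0 (q γ).1) (fun γ => gap 1 (q γ).1) where
  fn := H21.fn_base _
  sys :=
    { prj := H21.prj_mL (cdat ν hν)
      rep := H21.rep_ri (cdat ν hν) hR
      dense := H21.dense_of_total (B := fst (baseL (cdat ν hν).μ (Γ × Q) ι))
        fun s a ha i => H357.bdl2_ep s a ha i
      norm := fun ξ hξ => H357.bdl2_norm hξ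
      map := fun v ξ hξ => H357.bdl2_map (cdat ν hν) hR v hξ
      sep := fun u η hη ζ hζ F G P T h1 h2 =>
        H357.sep_set (cdat ν hν) hR u hη hζ F G P T h1 h2
      nrm := fun ε hε => NW.nrm_bw Λ ν hν hR hE hq hw q hφ hε
      nrv := fun ξ hξ ε hε => NW.nrv_bw Λ ν hν hR hE hq hw q hφ hξ hε }
  mpb := fun F hF ξ hξ => H357.bdl2_mp hF hξ

/-- `SysF` for the representation composed with the inverse transpose. -/
theorem sysF_tau [LocallyCompactSpace (G3 k)] [SecondCountableTopology (G3 k)] [Countable Λ]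
    (hR : ARep t R) (hE : CovFam R E0)
    (hq : ∀ A (q : Q), E0 A * lx ((1 : Γ), q) = lx ((1 : Γ), q) * E0 A)
    {w : kˣ} (hw : ‖(w : k)‖ < 1) (q : Γ →* SpecialLinearGroup (Fin 3) ℝ)
    (hφ : ∀ K : Set (SpecialLinearGroup (Fin 3) ℝ), IsCompact K → {x | q x ∈ K}.Finite) :
    SysF (fst (baseL (cdat ν hν).μ (Γ × Q) ι)).mp (fun v => Ri (cdat ν hν) R (tau k v))
      (BdL2 (cdat ν hν).μ Γ Q ι) (fun v => msL (cdat ν hν) R (tau k v))
      (Subgroup.zpowers (bw w : G3 k)) (fun γ => gap 0 (q γ).1) (fun γ => gap 1 (q γ).1) :=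
  sysF_comp (sysF_bw Λ ν hν hR hE hq hw q hφ) (tau k) (tau_mem w)

/-- **`Esc`** along `(bw w)^-N`. -/
theorem esc_neg [LocallyCompactSpace (G3 k)] [SecondCountableTopology (G3 k)]
    (hR : ARep t R) (hE : CovFam R E0)
    (hq : ∀ A (q : Q), E0 A * lx ((1 : Γ), q) = lx ((1 : Γ), q) * E0 A)
    {w : kˣ} (hw : ‖(w : k)‖ < 1) (Bd : Set (Lp (Ell2 ((Γ × Q) × ι)) 2 (cdat ν hν).μ)) :
    Esc (st (fst (baseL (cdat ν hν).μ (Γ × Q) ι)).mp) (Ri (cdat ν hν) R) Bd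
      (Subgroup.zpowers (bw w : G3 k)) (map (fun N : ℕ => ((bw w : G3 k) ^ N)⁻¹) atTop) := by
  have h := H541.esc_pow_inv Λ ν hν hR hE hq (bw_tendsto hw) Bd
  have e : (fun n : ℕ => (bw w : G3 k)⁻¹ ^ n) = fun N : ℕ => ((bw w : G3 k) ^ N)⁻¹ :=
    funext fun n => inv_pow _ n
  rw [e] at h
  exact h

/-- **`Esc`** along `(bw w)^N`. -/
theorem esc_pos [LocallyCompactSpace (G3 k)] [SecondCountableTopology (G3 k)]
    (hR : ARep t R) (hE : CovFam R E0)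
    (hq : ∀ A (q : Q), E0 A * lx ((1 : Γ), q) = lx ((1 : Γ), q) * E0 A)
    {w : kˣ} (hw : ‖(w : k)‖ < 1) (Bd : Set (Lp (Ell2 ((Γ × Q) × ι)) 2 (cdat ν hν).μ)) :
    Esc (st (fst (baseL (cdat ν hν).μ (Γ × Q) ι)).mp) (Ri (cdat ν hν) R) Bd
      (Subgroup.zpowers (bw w : G3 k)) (map (fun N : ℕ => (bw w : G3 k) ^ N) atTop) :=
  H541.esc_pow Λ ν hν hR hE hq (bw_tendsto hw) Bd

end inst

/-! ### `Esc` and `Full` for the composed representation -/

section comp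

variable {k : Type} [NontriviallyNormedField k] {Γ K : Type} [Group Γ] [NormedAddCommGroup K]
  [InnerProductSpace ℂ K] [CompleteSpace K] {m : Set Γ → (K →L[ℂ] K)}
  {R : G3 k → (K →L[ℂ] K)} {Bd : Set K} {G1 G2 : Γ → ℝ} {w : kˣ}

/-- `Esc` of `R ∘ tau` along the negative powers is `Esc` of `R` along the positive ones. -/
theorem esc_tau_neg
    (h : Esc m R Bd (Subgroup.zpowers (bw w : G3 k)) (map (fun N : ℕ => (bw w : G3 k) ^ N) atTop)) :
    Esc m (fun v => R (tau k v)) Bd (Subgroup.zpowers (bw w : G3 k))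
      (map (fun N : ℕ => ((bw w : G3 k) ^ N)⁻¹) atTop) where
  mem := eventually_map.mpr (Eventually.of_forall fun N =>
    Subgroup.inv_mem _ (Subgroup.npow_mem_zpowers (bw w : G3 k) N))
  esc := fun g ξ hξ => by
    have h1 := h.esc g ξ hξ
    rw [tendsto_map'_iff] at h1 ⊢
    refine h1.congr fun N => ?_
    change ‖m {g} (R ((bw w : G3 k) ^ N) ξ)‖ = ‖m {g} (R (tau k ((bw w : G3 k) ^ N)⁻¹) ξ)‖
    rw [tau_pow_inv]

theorem esc_tau_pos
    (h : Esc m R Bd (Subgroup.zpowers (bw w : G3 k))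
      (map (fun N : ℕ => ((bw w : G3 k) ^ N)⁻¹) atTop)) :
    Esc m (fun v => R (tau k v)) Bd (Subgroup.zpowers (bw w : G3 k))
      (map (fun N : ℕ => (bw w : G3 k) ^ N) atTop) where
  mem := eventually_map.mpr (Eventually.of_forall fun N =>
    Subgroup.npow_mem_zpowers (bw w : G3 k) N)
  esc := fun g ξ hξ => by
    have h1 := h.esc g ξ hξ
    rw [tendsto_map'_iff] at h1 ⊢
    refine h1.congr fun N => ?_
    change ‖m {g} (R ((bw w : G3 k) ^ N)⁻¹ ξ)‖ = ‖m {g} (R (tau k ((bw w : G3 k) ^ N)) ξ)‖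
    rw [tau_pow]

theorem full_tau_neg (h : Full m R G1 G2 (map (fun N : ℕ => (bw w : G3 k) ^ N) atTop)) :
    Full m (fun v => R (tau k v)) G1 G2 (map (fun N : ℕ => ((bw w : G3 k) ^ N)⁻¹) atTop) := by
  intro ξ
  have h1 := h ξ
  rw [tendsto_map'_iff] at h1 ⊢
  have e1 : ∀ N : ℕ, tau k ((bw w : G3 k) ^ N)⁻¹ = (bw w : G3 k) ^ N := tau_pow_inv w
  have e2 : ∀ N : ℕ, tau k (((bw w : G3 k) ^ N)⁻¹)⁻¹ = ((bw w : G3 k) ^ N)⁻¹ := fun N => by
    rw [inv_inv, tau_pow]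
  have e3 : tau k (1 : G3 k) = 1 := map_one _
  refine Tendsto.congr ?_ (e3 ▸ h1)
  intro N
  change _ = P m (fun v => R (tau k v)) (((bw w : G3 k) ^ N)⁻¹) {g | G2 g ≤ G1 g} ξ
  rw [P_ap]
  change _ = R (tau k (((bw w : G3 k) ^ N)⁻¹)⁻¹) (m _ (R (tau k ((bw w : G3 k) ^ N)⁻¹) ξ))
  rw [e1, e2]
  rfl

theorem full_tau_pos (h : Full m R G1 G2 (map (fun N : ℕ => ((bw w : G3 k) ^ N)⁻¹) atTop)) :
    Full m (fun v => R (tau k v)) G1 G2 (map (fun N : ℕ => (bw w : G3 k) ^ N) atTop) := by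
  intro ξ
  have h1 := h ξ
  rw [tendsto_map'_iff] at h1 ⊢
  have e1 : ∀ N : ℕ, tau k (((bw w : G3 k) ^ N)⁻¹) = (bw w : G3 k) ^ N := tau_pow_inv w
  have e2 : ∀ N : ℕ, tau k ((bw w : G3 k) ^ N) = ((bw w : G3 k) ^ N)⁻¹ := tau_pow w
  have e3 : tau k (1 : G3 k) = 1 := map_one _
  refine Tendsto.congr ?_ (e3 ▸ h1)
  intro N
  change _ = P m (fun v => R (tau k v)) ((bw w : G3 k) ^ N) {g | G2 g ≤ G1 g} ξ
  rw [P_ap]
  change _ = R (tau k ((bw w : G3 k) ^ N)⁻¹) (m _ (R (tau k ((bw w : G3 k) ^ N)) ξ))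
  rw [e1, e2]
  change (P m R ((bw w : G3 k) ^ N)⁻¹ {g | G2 g ≤ G1 g}) ξ = _
  rw [P_ap, inv_inv]

end comp

/-! ### The forms used by the engine (`H142.limAt_eng`): `b = (bw w)⁻¹` -/

section eng

variable {k : Type} [NontriviallyNormedField k] {Γ K : Type} [Group Γ] [NormedAddCommGroup K]
  [InnerProductSpace ℂ K] [CompleteSpace K] {m : Set Γ → (K →L[ℂ] K)}
  {mp : (Γ → ℝ) → (K →L[ℂ] K)} {R : G3 k → (K →L[ℂ] K)} {Bd : Set K} {ms : G3 k → Set Γ → ℝ}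
  {G1 G2 : Γ → ℝ} {w : kˣ}

theorem pw_inv (w : kˣ) : pw ((bw w : G3 k)⁻¹) = map (fun N : ℕ => ((bw w : G3 k) ^ N)⁻¹) atTop := by
  have e : (fun n : ℕ => (bw w : G3 k)⁻¹ ^ n) = fun N : ℕ => ((bw w : G3 k) ^ N)⁻¹ :=
    funext fun n => inv_pow _ n
  rw [pw, e]

theorem pw_pos (w : kˣ) : pw (bw w : G3 k) = map (fun N : ℕ => (bw w : G3 k) ^ N) atTop := rfl

theorem sysF_zinv {D : Type} [Group D] {R : D → (K →L[ℂ] K)} {ms : D → Set Γ → ℝ} {b : D}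
    (h : SysF mp R Bd ms (Subgroup.zpowers b) G1 G2) :
    SysF mp R Bd ms (Subgroup.zpowers b⁻¹) G1 G2 := by
  rw [Subgroup.zpowers_inv]
  exact h

theorem esc_zinv {D : Type} [Group D] {R : D → (K →L[ℂ] K)} {b : D} {l : Filter D}
    (h : Esc m R Bd (Subgroup.zpowers b) l) : Esc m R Bd (Subgroup.zpowers b⁻¹) l := by
  rw [Subgroup.zpowers_inv]
  exact h

/-- lines: the representation composed with `tau`, gaps exchanged -/
theorem sysF_line (h : SysF mp R Bd ms (Subgroup.zpowers (bw w : G3 k)) G1 G2) :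
    SysF mp (fun v => R (tau k v)) Bd (fun v => ms (tau k v))
      (Subgroup.zpowers (bw w : G3 k)⁻¹) G2 G1 :=
  sysF_zinv (sysF_comp (sysF_swap h) (tau k) (tau_mem w))

theorem esc_line (h : Esc m R Bd (Subgroup.zpowers (bw w : G3 k)) (pw (bw w : G3 k))) :
    Esc m (fun v => R (tau k v)) Bd (Subgroup.zpowers (bw w : G3 k)⁻¹)
      (pw ((bw w : G3 k)⁻¹)) := by
  rw [pw_inv]
  exact esc_zinv (esc_tau_neg h)

theorem full_line (h : Full m R G1 G2 (pw (bw w : G3 k))) :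
    Full m (fun v => R (tau k v)) G1 G2 (pw ((bw w : G3 k)⁻¹)) := by
  rw [pw_inv]
  exact full_tau_neg h

/-- A statement along the positive powers, for the composed representation. -/
theorem tendsto_line {X : Type} {f : (K →L[ℂ] K) → (K →L[ℂ] K) → X} {l : Filter X}
    (h : Tendsto (fun v => f (R v) (R v⁻¹)) (pw (bw w : G3 k)) l) :
    Tendsto (fun v => f (R (tau k v)) (R (tau k v⁻¹))) (pw ((bw w : G3 k)⁻¹)) l := by
  rw [pw_inv]
  rw [pw_pos] at h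
  rw [tendsto_map'_iff] at h ⊢
  refine h.congr fun N => ?_
  change f (R ((bw w : G3 k) ^ N)) (R ((bw w : G3 k) ^ N)⁻¹) =
    f (R (tau k ((bw w : G3 k) ^ N)⁻¹)) (R (tau k (((bw w : G3 k) ^ N)⁻¹)⁻¹))
  rw [inv_inv, tau_pow, tau_pow_inv]

end eng

section engInst

variable {k : Type} [NontriviallyNormedField k] [ProperSpace k]
  [MeasurableSpace (G3 k)] [BorelSpace (G3 k)]
  (Λ : Subgroup (G3 k)) [DiscreteTopology Λ] [MeasurableSpace (G3 k ⧸ Λ)] [BorelSpace (G3 k ⧸ Λ)]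
  (ν : Measure (G3 k ⧸ Λ)) [IsProbabilityMeasure ν]
  (hν : ∀ g : G3 k, ν.map (fun x => g • x) = ν)
  {Γ Q ι : Type} [Group Γ] [Countable Γ] [Group Q] [Countable Q] [Fintype ι] {t : ℝ}
  {R : Λ → (Ell2 ((Γ × Q) × ι) →L[ℂ] Ell2 ((Γ × Q) × ι))}
  {E0 : Set Λ → (Ell2 ((Γ × Q) × ι) →L[ℂ] Ell2 ((Γ × Q) × ι))}
  [LocallyCompactSpace (G3 k)] [SecondCountableTopology (G3 k)]
  (hR : ARep t R) (hE : CovFam R E0)
  (hq : ∀ A (q : Q), E0 A * lx ((1 : Γ), q) = lx ((1 : Γ), q) * E0 A)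
  {w : kˣ} (hw : ‖(w : k)‖ < 1)

include hR hE hq hw

/-- points: `SysF` in the letters of `limAt_eng` -/
theorem sysF_pt [Countable Λ] (q : Γ →* SpecialLinearGroup (Fin 3) ℝ)
    (hφ : ∀ K : Set (SpecialLinearGroup (Fin 3) ℝ), IsCompact K → {x | q x ∈ K}.Finite) :
    SysF (fst (baseL (cdat ν hν).μ (Γ × Q) ι)).mp (Ri (cdat ν hν) R)
      (BdL2 (cdat ν hν).μ Γ Q ι) (msL (cdat ν hν) R) (Subgroup.zpowers (bw w : G3 k)⁻¹)
      (fun γ => gap 0 (q γ).1) (fun γ => gap 1 (q γ).1) :=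
  sysF_zinv (sysF_bw Λ ν hν hR hE hq hw q hφ)

/-- lines: `SysF` in the letters of `limAt_eng` -/
theorem sysF_ln [Countable Λ] (q : Γ →* SpecialLinearGroup (Fin 3) ℝ)
    (hφ : ∀ K : Set (SpecialLinearGroup (Fin 3) ℝ), IsCompact K → {x | q x ∈ K}.Finite) :
    SysF (fst (baseL (cdat ν hν).μ (Γ × Q) ι)).mp (fun v => Ri (cdat ν hν) R (tau k v))
      (BdL2 (cdat ν hν).μ Γ Q ι) (fun v => msL (cdat ν hν) R (tau k v))
      (Subgroup.zpowers (bw w : G3 k)⁻¹)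
      (fun γ => gap 1 (q γ).1) (fun γ => gap 0 (q γ).1) :=
  sysF_line (sysF_bw Λ ν hν hR hE hq hw q hφ)

/-- points: `Esc` in the letters of `limAt_eng`, both directions -/
theorem esc_pt (Bd : Set (Lp (Ell2 ((Γ × Q) × ι)) 2 (cdat ν hν).μ)) :
    Esc (st (fst (baseL (cdat ν hν).μ (Γ × Q) ι)).mp) (Ri (cdat ν hν) R) Bd
      (Subgroup.zpowers (bw w : G3 k)⁻¹) (pw ((bw w : G3 k)⁻¹)) := by
  rw [pw_inv]
  exact esc_zinv (esc_neg Λ ν hν hR hE hq hw Bd)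

theorem esc_pt' (Bd : Set (Lp (Ell2 ((Γ × Q) × ι)) 2 (cdat ν hν).μ)) :
    Esc (st (fst (baseL (cdat ν hν).μ (Γ × Q) ι)).mp) (Ri (cdat ν hν) R) Bd
      (Subgroup.zpowers (bw w : G3 k)) (pw (bw w : G3 k)) :=
  esc_pos Λ ν hν hR hE hq hw Bd

/-- lines: `Esc` in the letters of `limAt_eng` -/
theorem esc_ln (Bd : Set (Lp (Ell2 ((Γ × Q) × ι)) 2 (cdat ν hν).μ)) :
    Esc (st (fst (baseL (cdat ν hν).μ (Γ × Q) ι)).mp) (fun v => Ri (cdat ν hν) R (tau k v)) Bd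
      (Subgroup.zpowers (bw w : G3 k)⁻¹) (pw ((bw w : G3 k)⁻¹)) :=
  esc_line (esc_pt' Λ ν hν hR hE hq hw Bd)

end engInst

end Vale.Agent.P092.H776.Row
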