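import Vale.Agent.P092.H776.ErgTC
import Vale.Agent.P092.H333.Corner
import Vale.Agent.P092.H962.MT1

/-!
P092 (helper776), block ERG-T: definitions for the stripped amplified comultiplication.
-/

set_option linter.all false

open scoped InnerProductSpace
open Filter Topology ContinuousLinearMap
open Vale.Agent.P092.H160 Vale.Agent.P092.H103 Vale.Agent.P092.H962 Vale.Agent.P092.H333

namespace Vale.Agent.P092.H776.TU

variable {Γ Λ I : Type} [Group Γ] [Group Λ] [Fintype I]
  {α : Γ → (Ell2 (I × Λ) →L[ℂ] Ell2 (I × Λ))}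

theorem prjA (hα : AF α) : Prj (α 1) := ⟨hα.pp, hα.p_adj⟩

theorem p_R (hα : AF α) (s : Λ) : α 1 * (FS.mat I Λ).R s = (FS.mat I Λ).R s * α 1 := by
  ext1 v
  exact hα.comm 1 s v

/-- The right translations on the corner. -/
noncomputable def rE (hα : AF α) : Λ →* (Ep (α 1) →L[ℂ] Ep (α 1)) where
  toFun s := cmp (prjA hα) ((FS.mat I Λ).R s)
  map_one' := by rw [map_one, cmp_one]
  map_mul' s t := by rw [map_mul, cmp_mul _ (p_R hα t)]

/-- The frame on the corner. -/
noncomputable def AE (hα : AF α) (Θ : Set Γ) (k : Θ) : Ep (α 1) →L[ℂ] Ep (α 1) :=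
  cmp (prjA hα) (α (k : Γ))

/-- The right translations of `Λ × Λ` on the stripped space. -/
noncomputable def RU (I Λ : Type) [Group Λ] : Λ × Λ →*
    (Ell2 (I × ((Unit × Λ) × (Unit × Λ))) →L[ℂ] Ell2 (I × ((Unit × Λ) × (Unit × Λ)))) where
  toFun p := tens 1 (tens (tens 1 (rho p.1)) (tens 1 (rho p.2)))
  map_one' := by
    rw [Prod.fst_one, Prod.snd_one, rho_one, tens_one, tens_one, tens_one]
  map_mul' p q := by
    rw [Prod.fst_mul, Prod.snd_mul, rho_mul, rho_mul, ← tens_mul, ← tens_mul, ← tens_mul,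
      ← tens_mul, one_mul]
    simp only [one_mul]

/-- The input on torsion elements: it holds when `Λ` is torsion free. -/
def NoClsT (hα : AF α) (Θ : Set Γ) : Prop :=
  ∀ s : Λ, s ≠ 1 → ∀ S : Ep (α 1) →L[ℂ] Ep (α 1),
    (∀ ξ, TC.ClsM (rE hα) ξ (Set.range (AE hα Θ)) (Subgroup.centralizer {s}) S) → S = 0

end Vale.Agent.P092.H776.TU
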